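import Vale.Agent.P022U.Defs

/-!
# P022U: the abelian case
-/

set_option linter.all false

open NumberField Polynomial

noncomputable section

namespace Vale.Agent.P022U.Cn

open Vale.Agent.P022T

variable {K : Type} [Field K] [NumberField K] [IsGalois ℚ K] {P : Ideal (𝓞 K)}

theorem ram {R G : Type} [CommRing R] [IsDomain R] [Algebra R (𝓞 K)] [Group G] [Finite G]
    [MulSemiringAction G (𝓞 K)] [IsGaloisGroup G R (𝓞 K)] [Module.Finite R (𝓞 K)]
    [Module.Flat R (𝓞 K)] (p : Ideal R) [P.LiesOver p] [p.IsPrime] [P.IsPrime]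
    [PerfectField p.ResidueField] (hp : p.map (algebraMap R (𝓞 K)) ≠ ⊥) :
    Nat.card (P.inertia G) = multiplicity P (p.map (algebraMap R (𝓞 K))) := by
  rw [Ideal.card_inertia_eq_ramificationIdxIn p P, Ideal.ramificationIdxIn_eq_ramificationIdx p P G,
    Ideal.IsDedekindDomain.ramificationIdx_eq_multiplicity p P hp]

theorem w_two (hP : P.IsPrime) (h2 : (2 : 𝓞 K) ∈ P) :
    w P 2 = Nat.card (P.inertia (Ga K)) := by
  have hp : (Ideal.span {(2 : ℤ)}).IsMaximal :=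
    PrincipalIdealRing.isMaximal_of_irreducible Int.prime_two.irreducible
  have := hp.isPrime
  have : P.LiesOver (Ideal.span {(2 : ℤ)}) := ⟨hp.eq_of_le (Ideal.comap_ne_top _ hP.ne_top)
    ((Ideal.span_singleton_le_iff_mem _).2 (by
      rw [Ideal.under, Ideal.mem_comap, map_ofNat]; exact h2))⟩
  have e : (Ideal.span {(2 : ℤ)}).map (algebraMap ℤ (𝓞 K)) = Ideal.span {2} := by
    rw [Ideal.map_span, Set.image_singleton, map_ofNat]
  have : Finite (ℤ ⧸ Ideal.span {(2 : ℤ)}) :=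
    Ring.HasFiniteQuotients.finiteQuotient (by simp)
  rw [ram (Ideal.span {(2 : ℤ)}) (by rw [e]; simp), e, w]

theorem fix_mem (hP : P.IsPrime) (h0 : P ≠ ⊥) {a : 𝓞 K} (ha : a ∈ P)
    (hf : ∀ s : Ga K, In P s → s • a = a) : a ∈ P ^ Nat.card (P.inertia (Ga K)) := by
  let I : Subgroup (Ga K) := P.inertia (Ga K)
  let E : IntermediateField ℚ K := FixedPoints.intermediateField I
  have : IsGaloisGroup I E K := IsGaloisGroup.subgroup (Ga K) ℚ K I
  have : IsGaloisGroup I (𝓞 E) (𝓞 K) := IsGaloisGroup.of_isFractionRing I (𝓞 E) (𝓞 K) E K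
  have hq : P.under (𝓞 E) ≠ ⊥ := Ideal.under_ne_bot _ h0
  have : Finite (𝓞 E ⧸ P.under (𝓞 E)) := Ring.HasFiniteQuotients.finiteQuotient hq
  have hm : (P.under (𝓞 E)).map (algebraMap (𝓞 E) (𝓞 K)) ≠ ⊥ := Ideal.map_ne_bot_of_ne_bot hq
  have h1 := ram (G := I) (P := P) (P.under (𝓞 E)) hm
  have h2 : P.inertia I = ⊤ := by
    rw [eq_top_iff]
    intro s _ x
    exact s.2 x
  rw [h2, Subgroup.card_top] at h1
  obtain ⟨b, rfl⟩ := Algebra.IsInvariant.isInvariant (A := 𝓞 E) (G := I) a fun s => hf s.1 s.2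
  have h3 : P ^ Nat.card I ∣ (P.under (𝓞 E)).map (algebraMap (𝓞 E) (𝓞 K)) := by
    rw [h1]
    exact pow_multiplicity_dvd _ _
  exact Ideal.le_of_dvd h3 (Ideal.mem_map_of_mem _ ha)

theorem half {X : Type} [Group X] [Fintype X] [DecidableEq X] (A : Finset X) (a : X)
    (h : ∀ x ∈ A, a * x ∉ A) : 2 * A.card ≤ Fintype.card X := by
  have := Finset.card_le_card_of_injOn (s := A) (t := Aᶜ) (fun x => a * x)
    (fun x hx => Finset.mem_coe.2 (Finset.mem_compl.2 (h x hx)))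
    fun x _ y _ e => mul_left_cancel e
  rw [Finset.card_compl] at this
  have := Finset.card_le_univ A
  omega

/-- eigenvectors -/
def Eg (P : Ideal (𝓞 K)) (χ : P.inertia (Ga K) →* ℤˣ) (y : 𝓞 K) : Prop :=
  y ≠ 0 ∧ ∀ s : P.inertia (Ga K), s.1 • y = ((χ s : ℤ) : 𝓞 K) * y

theorem ex_eg (θ : 𝓞 K) (hθ : ∀ s : Ga K, s ≠ 1 → s • θ - θ ≠ 0)
    (χ : P.inertia (Ga K) →* ℤˣ) : ∃ y, Eg P χ y := by
  classical
  haveI := Fintype.ofFinite (P.inertia (Ga K))
  let f : P.inertia (Ga K) → (𝓞 K →* 𝓞 K) := fun s => MulDistribMulAction.toMonoidHom (𝓞 K) s.1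
  have hf : Function.Injective f := fun s t e => by
    have e1 : s.1 • θ = t.1 • θ := DFunLike.congr_fun e θ
    by_contra n
    refine hθ (t.1⁻¹ * s.1) (fun k => n (Subtype.ext (inv_mul_eq_one.1 k).symm)) ?_
    rw [mul_smul, e1, inv_smul_smul, sub_self]
  have li := (linearIndependent_monoidHom (𝓞 K) (𝓞 K)).comp f hf
  by_contra hn
  have z := Fintype.linearIndependent_iff.1 li (fun s => ((χ s : ℤ) : 𝓞 K)) (funext fun x => by
    by_contra k
    refine hn ⟨_, k, fun t => ?_⟩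
    simp only [Finset.sum_apply, Pi.smul_apply, Function.comp_apply, smul_eq_mul]
    rw [Finset.smul_sum, Finset.mul_sum]
    refine Fintype.sum_equiv (Equiv.mulLeft t) _ _ fun s => ?_
    change t.1 • (_ * s.1 • x) = _ * (((χ (t * s) : ℤ) : 𝓞 K) * (t.1 * s.1) • x)
    rw [smul_mul', mul_smul, map_mul, Units.val_mul, Int.cast_mul, ← mul_assoc, ← mul_assoc,
      ← Int.cast_mul, ← Units.val_mul, Int.units_mul_self, Units.val_one, Int.cast_one, one_mul]
    congr 1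
    exact map_intCast (MulSemiringAction.toRingHom (Ga K) (𝓞 K) t.1) _) 1
  simp at z

theorem Eg.mul {χ χ' : P.inertia (Ga K) →* ℤˣ} {y y' : 𝓞 K} (h : Eg P χ y) (h' : Eg P χ' y') :
    Eg P (χ * χ') (y * y') := ⟨mul_ne_zero h.1 h'.1, fun s => by
  rw [smul_mul', h.2, h'.2, MonoidHom.mul_apply, Units.val_mul, Int.cast_mul]
  ring⟩

theorem in_not (hP : P.IsPrime) {s : Ga K} (hs : In P s) {c : 𝓞 K} (hc : c ∉ P) : s • c ∉ P :=
  fun k => hc (by simpa using sub_mem k (hs c))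

theorem div (hV : VAL) (hP : P.IsPrime) (h0 : P ≠ ⊥) {χ : P.inertia (Ga K) →* ℤˣ} {y : 𝓞 K}
    (h : Eg P χ y) (hw : w P 2 ≤ w P y) : ∃ z, Eg P χ z ∧ w P z + w P 2 = w P y := by
  classical
  haveI := Fintype.ofFinite (P.inertia (Ga K))
  obtain ⟨v1, v2, -, v4⟩ := hV K P hP h0
  obtain ⟨c, z, hc, e⟩ := v4 y 2 h.1 two_ne_zero hw
  obtain ⟨d, hd⟩ : c ∣ ∏ s : P.inertia (Ga K), s.1 • c := by
    have := Finset.dvd_prod_of_mem (fun s : P.inertia (Ga K) => s.1 • c) (Finset.mem_univ 1)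
    simpa using this
  have n1 : c * d ∉ P := by
    rw [← hd]
    intro k
    obtain ⟨s, -, hs⟩ := (Ideal.IsPrime.prod_mem_iff (hp := hP)).1 k
    exact in_not hP s.2 hc hs
  have n2 : ∀ t : P.inertia (Ga K), t.1 • (c * d) = c * d := fun t => by
    rw [← hd, Finset.smul_prod']
    exact Fintype.prod_equiv (Equiv.mulLeft t) _ _ fun s => (mul_smul t.1 s.1 c).symm
  have n3 : c * d ≠ 0 := fun k => n1 (k ▸ zero_mem _)
  have e2 : c * d * y = 2 * (z * d) := by linear_combination d * e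
  have n4 : z * d ≠ 0 := fun k => mul_ne_zero n3 h.1 (by rw [e2, k, mul_zero])
  have n5 : w P (c * d) = 0 := by
    by_contra k
    exact n1 (by simpa using (v2 _ 1 n3).1 (Nat.one_le_iff_ne_zero.2 k))
  refine ⟨z * d, ⟨n4, fun t => mul_left_cancel₀ (two_ne_zero (α := 𝓞 K)) ?_⟩, ?_⟩
  · have := congrArg (t.1 • ·) e2
    simp only [smul_mul'] at this
    have e3 : t.1 • (2 : 𝓞 K) = 2 := map_ofNat (MulSemiringAction.toRingHom (Ga K) (𝓞 K) t.1) 2
    rw [← smul_mul', n2, h.2, e3, ← smul_mul'] at this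
    linear_combination -this + ((χ t : ℤ) : 𝓞 K) * e2
  · have := congrArg (w P) e2
    rw [v1 _ _ n3 h.1, v1 _ _ two_ne_zero n4, n5] at this
    omega

theorem inv_of {χ : P.inertia (Ga K) →* ℤˣ} {a : 𝓞 K} (h : Eg P (χ * χ) a) (s : Ga K)
    (hs : In P s) : s • a = a := by
  have := h.2 ⟨s, hs⟩
  rwa [MonoidHom.mul_apply, Int.units_mul_self, Units.val_one, Int.cast_one, one_mul] at this

theorem sm_one (s : Ga K) : s • (1 : 𝓞 K) = 1 := smul_one s

theorem sm_two (s : Ga K) : s • (2 : 𝓞 K) = 2 :=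
  map_ofNat (MulSemiringAction.toRingHom (Ga K) (𝓞 K) s) 2

theorem Eg.pw {χ : P.inertia (Ga K) →* ℤˣ} {y : 𝓞 K} (h : Eg P χ y) (m : ℕ) :
    Eg P χ (y ^ (2 * m + 1)) := ⟨pow_ne_zero _ h.1, fun s => by
  rw [smul_pow', h.2, mul_pow, ← Int.cast_pow, ← Units.val_pow_eq_pow_val, pow_succ (χ s),
    pow_mul, pow_two, Int.units_mul_self, one_pow, one_mul]⟩

section
variable (hV : VAL) (hP : P.IsPrime) (h0 : P ≠ ⊥) (h2 : (2 : 𝓞 K) ∈ P)
include hV hP h0 h2

theorem two_mem : (2 : 𝓞 K) ∈ P ^ w P 2 := ((hV K P hP h0).2.1 2 _ two_ne_zero).1 le_rfl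

theorem fixm {a : 𝓞 K} (ha : a ∈ P) (hf : ∀ s : Ga K, In P s → s • a = a) : a ∈ P ^ w P 2 := by
  rw [w_two hP h2]
  exact fix_mem hP h0 ha hf

theorem can {t : 𝓞 K} (h : 2 * t ∈ P ^ (w P 2 + 1)) : t ∈ P := by
  obtain ⟨v1, v2, -, -⟩ := hV K P hP h0
  by_cases e : t = 0
  · rw [e]; exact zero_mem _
  have := (v2 _ _ (mul_ne_zero two_ne_zero e)).2 h
  rw [v1 _ _ two_ne_zero e] at this
  simpa using (v2 t 1 e).1 (by omega)

theorem exb {χ : P.inertia (Ga K) →* ℤˣ} {y : 𝓞 K} (h : Eg P χ y) (h1 : y - 1 ∈ P) :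
    ∃ b, y * y - 1 - 2 * b ∈ P ^ (w P 2 + 1) := by
  obtain ⟨-, v2, -, v4⟩ := hV K P hP h0
  by_cases e : y * y - 1 = 0
  · exact ⟨0, by rw [e]; simp⟩
  have m : y * y - 1 ∈ P ^ w P 2 := fixm hV hP h0 h2
    (by rw [show y * y - 1 = (y + 1) * (y - 1) by ring]; exact P.mul_mem_left _ h1)
    fun s hs => by rw [smul_sub, inv_of (h.mul h) s hs, sm_one]
  obtain ⟨c, z, hc, k⟩ := v4 _ 2 e two_ne_zero ((v2 _ _ e).2 m)
  obtain ⟨d, r, hr, k2⟩ := (hP.isMaximal h0).exists_inv hc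
  refine ⟨z * d, ?_⟩
  rw [show y * y - 1 - 2 * (z * d) = (y * y - 1) * r by linear_combination d * k - (y * y - 1) * k2,
    pow_succ]
  exact Ideal.mul_mem_mul m hr

theorem add_b {y y' b b' : 𝓞 K} (h1 : y' - 1 ∈ P) (h : y * y - 1 - 2 * b ∈ P ^ (w P 2 + 1))
    (h' : y' * y' - 1 - 2 * b' ∈ P ^ (w P 2 + 1)) :
    y * y' * (y * y') - 1 - 2 * (b + b') ∈ P ^ (w P 2 + 1) := by
  rw [show y * y' * (y * y') - 1 - 2 * (b + b') = y' * y' * (y * y - 1 - 2 * b) +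
    (y' * y' - 1 - 2 * b') + 2 * (b * (y' + 1) * (y' - 1)) by ring]
  refine add_mem (add_mem (Ideal.mul_mem_left _ _ h) h') ?_
  rw [pow_succ]
  exact Ideal.mul_mem_mul (two_mem hV hP h0 h2) (P.mul_mem_left _ h1)

theorem not_b {χ : P.inertia (Ga K) →* ℤˣ} (hχ : χ ≠ 1) {y b : 𝓞 K} (h : Eg P χ y)
    (hb : y * y - 1 - 2 * b ∈ P ^ (w P 2 + 1)) : b ∉ P := fun k => by
  obtain ⟨v1, v2, -, v4⟩ := hV K P hP h0
  obtain ⟨s, hs⟩ : ∃ s, χ s ≠ 1 := by
    by_contra n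
    exact hχ (MonoidHom.ext fun s => by_contra fun c => n ⟨s, c⟩)
  have e1 : s.1 • y = -y := by
    rw [h.2, (Int.units_eq_one_or _).resolve_left hs]; simp
  have n1 : y - 1 ≠ 0 := fun c => by
    rw [sub_eq_zero.1 c, sm_one] at e1
    exact two_ne_zero (α := 𝓞 K) (by linear_combination e1)
  have n2 : y + 1 ≠ 0 := fun c => by
    rw [eq_neg_of_add_eq_zero_left c, smul_neg, sm_one] at e1
    exact two_ne_zero (α := 𝓞 K) (by linear_combination -e1)
  have e2 : y * y - 1 = (y - 1) * (y + 1) := by ring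
  have n3 : y * y - 1 ≠ 0 := e2 ▸ mul_ne_zero n1 n2
  have m : y * y - 1 ∈ P ^ (w P 2 + 1) := by
    have := add_mem hb (show 2 * b ∈ P ^ (w P 2 + 1) by
      rw [pow_succ]; exact Ideal.mul_mem_mul (two_mem hV hP h0 h2) k)
    rwa [sub_add_cancel] at this
  have m1 := (v2 _ _ n3).2 m
  obtain ⟨z, z1, z2⟩ := div hV hP h0 (χ := 1 * 1) (y := y * y - 1) ⟨n3, fun t => by
    rw [smul_sub, inv_of (h.mul h) t.1 t.2, sm_one]; simp⟩ (by omega)
  have m2 := (v2 _ _ z1.1).2 (fixm hV hP h0 h2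
    (by simpa using (v2 z 1 z1.1).1 (by omega)) (inv_of z1))
  have m3 : w P 2 ≤ w P (y - 1) := by
    by_contra c
    rw [e2, v1 _ _ n1 n2] at z2
    have := sub_mem ((v2 _ (w P 2) n2).1 (by omega)) (two_mem hV hP h0 h2)
    rw [show y + 1 - 2 = y - 1 by ring] at this
    exact c ((v2 _ _ n1).2 this)
  obtain ⟨c, t, hc, e⟩ := v4 _ 2 n1 two_ne_zero m3
  have e3 := congrArg (s.1 • ·) e
  simp only [smul_mul', smul_sub, e1, sm_one, sm_two] at e3
  have e4 : c * s.1 • t + s.1 • c * (t + c) = 0 := mul_left_cancel₀ (two_ne_zero (α := 𝓞 K)) (by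
    linear_combination -c * e3 - s.1 • c * e)
  have e5 : c * c = -(c * (s.1 • t - t) + (t + c) * (s.1 • c - c) + c * t * 2) := by
    linear_combination e4
  refine hc ((hP.mem_or_mem (x := c) (y := c) ?_).elim id id)
  rw [e5]
  exact neg_mem (add_mem (add_mem (P.mul_mem_left _ (s.2 t)) (P.mul_mem_left _ (s.2 c)))
    (P.mul_mem_left _ h2))

variable {φ : Ga K} (hφ : ∀ x : 𝓞 K, φ • x - x ^ 2 ∈ P)
include hφ

theorem nrm {χ : P.inertia (Ga K) →* ℤˣ} {y : 𝓞 K} (h : Eg P χ y) (hy : y ∉ P) :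
    ∃ z, Eg P χ z ∧ z - 1 ∈ P := by
  have k : ∀ n : ℕ, ∀ x : 𝓞 K, φ ^ n • x - x ^ 2 ^ n ∈ P := fun n => by
    induction n with
    | zero => simp
    | succ n ih =>
      intro x
      have a := ih (φ • x)
      have b : (φ • x) ^ 2 ^ n - (x ^ 2) ^ 2 ^ n ∈ P :=
        Ideal.mem_of_dvd _ (sub_dvd_pow_sub_pow _ _ _) (hφ x)
      have := add_mem a b
      rwa [sub_add_sub_cancel, ← mul_smul, ← pow_succ, ← pow_mul, ← pow_succ'] at this
  obtain ⟨n, hn⟩ : ∃ n, orderOf φ = n + 1 := Nat.exists_eq_succ_of_ne_zero (orderOf_pos φ).ne'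
  have a := k (n + 1) y
  rw [← hn, pow_orderOf_eq_one, one_smul, hn] at a
  obtain ⟨m, hm⟩ : ∃ m, 2 ^ n = m + 1 := Nat.exists_eq_succ_of_ne_zero (by positivity)
  refine ⟨_, h.pw m, (hP.mem_or_mem (x := y) ?_).resolve_left hy⟩
  rw [pow_succ 2, hm] at a
  rw [show y * (y ^ (2 * m + 1) - 1) = -(y - y ^ ((m + 1) * 2)) by ring]
  exact neg_mem a

theorem one_b (hc : ∀ s : Ga K, In P s → φ * s = s * φ) {χ : P.inertia (Ga K) →* ℤˣ}
    (hχ : χ ≠ 1) {y b : 𝓞 K} (h : Eg P χ y) (h1 : y - 1 ∈ P)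
    (hb : y * y - 1 - 2 * b ∈ P ^ (w P 2 + 1)) : b + 1 ∈ P := by
  let f := MulSemiringAction.toRingHom (Ga K) (𝓞 K) φ
  have f1 : P.map f ≤ P := Ideal.map_le_iff_le_comap.2 fun x hx => by
    have := add_mem (hφ x) (P.pow_mem_of_mem hx 2 two_pos)
    rwa [sub_add_cancel] at this
  have f2 : φ • y * φ • y - 1 - 2 * φ • b ∈ P ^ (w P 2 + 1) := by
    have := Ideal.mem_map_of_mem f hb
    rw [Ideal.map_pow] at this
    have := Ideal.pow_right_mono f1 _ this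
    rwa [map_sub, map_sub, map_mul, map_mul, map_one, map_ofNat] at this
  have f3 : φ • y - 1 ∈ P := by
    have := f1 (Ideal.mem_map_of_mem f h1)
    rwa [map_sub, map_one] at this
  have f4 : Eg P χ (φ • y) := ⟨(smul_ne_zero_iff_ne φ).2 h.1, fun s => by
    rw [← mul_smul, ← hc s.1 s.2, mul_smul, h.2, smul_mul']
    congr 1
    exact map_intCast f _⟩
  have f5 := add_b hV hP h0 h2 f3 hb f2
  have f6 : y * φ • y - 1 ∈ P := by
    rw [show y * φ • y - 1 = y * (φ • y - 1) + (y - 1) by ring]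
    exact add_mem (P.mul_mem_left _ f3) h1
  have f7 : y * φ • y - 1 ∈ P ^ w P 2 := fixm hV hP h0 h2 f6 fun s hs => by
    rw [smul_sub, inv_of (h.mul f4) s hs, sm_one]
  have f8 : (y * φ • y - 1) * (y * φ • y - 1 + 2) ∈ P ^ (w P 2 + 1) := by
    rw [pow_succ]
    exact Ideal.mul_mem_mul f7 (add_mem f6 h2)
  have f9 := sub_mem f8 f5
  rw [show (y * φ • y - 1) * (y * φ • y - 1 + 2) - (y * φ • y * (y * φ • y) - 1 -
    2 * (b + φ • b)) = 2 * (b + φ • b) by ring] at f9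
  have f10 := sub_mem (can hV hP h0 h2 f9) (hφ b)
  rw [show b + φ • b - (φ • b - b ^ 2) = b * (b + 1) by ring] at f10
  exact (hP.mem_or_mem f10).resolve_left (not_b hV hP h0 h2 hχ h hb)

end

theorem cnC (hV : VAL) : CN := by
  intro K _ _ _ P hP h0 h2 θ hθ hI φ hφ hz
  classical
  obtain ⟨v1, v2, -, -⟩ := hV K P hP h0
  haveI := Fintype.ofFinite (P.inertia (Ga K))
  letI : CommGroup (P.inertia (Ga K)) := { (inferInstance : Group (P.inertia (Ga K))) with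
    mul_comm := fun a b => Subtype.ext (by
      have i : ∀ s : P.inertia (Ga K), s.1⁻¹ = s.1 := fun s =>
        inv_eq_of_mul_eq_one_right (hI s.1 s.2)
      have := i (a * b)
      rw [Subgroup.coe_mul, mul_inv_rev, i, i] at this
      exact this.symm) }
  haveI : HasEnoughRootsOfUnity ℤ 2 := ⟨⟨-1, IsPrimitiveRoot.neg_one 0 (by decide)⟩, inferInstance⟩
  haveI : HasEnoughRootsOfUnity ℤ (Monoid.exponent (P.inertia (Ga K))) :=
    HasEnoughRootsOfUnity.of_dvd ℤ (n := 2) (Monoid.exponent_dvd_of_forall_pow_eq_one fun s =>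
      Subtype.ext (by rw [pow_two]; exact hI s.1 s.2))
  have hN := CommGroup.card_monoidHom_of_hasEnoughRootsOfUnity (P.inertia (Ga K)) ℤ
  haveI : Finite (P.inertia (Ga K) →* ℤˣ) := Nat.finite_of_card_ne_zero (hN ▸ Nat.card_pos.ne')
  haveI := Fintype.ofFinite (P.inertia (Ga K) →* ℤˣ)
  have hc : (I1 P).card + 1 = Fintype.card (P.inertia (Ga K) →* ℤˣ) := by
    rw [← Nat.card_eq_fintype_card, hN, ← Finset.card_insert_of_notMem (a := 1) (by simp [I1]),
      Nat.subtype_card (s := insert 1 (I1 P)) fun s => ?_]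
    simp only [I1, Finset.mem_insert, Finset.mem_filter, Finset.mem_univ, true_and]
    exact ⟨fun h => h.elim (fun e => e ▸ one_mem _) fun e => e.1,
      fun h => (em (s = 1)).imp id fun e => ⟨h, e⟩⟩
  have p2 : 0 < w P 2 := (v2 2 1 two_ne_zero).2 (by simpa using h2)
  have ex : ∀ χ, ∃ y, Eg P χ y ∧ ∀ z, Eg P χ z → w P y ≤ w P z := fun χ => by
    have e : ∃ n, ∃ y, Eg P χ y ∧ w P y = n :=
      let ⟨y, h⟩ := ex_eg θ hθ χ; ⟨_, y, h, rfl⟩
    obtain ⟨y, h1, h3⟩ := Nat.find_spec e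
    exact ⟨y, h1, fun z hz => h3 ▸ Nat.find_min' e ⟨z, hz, rfl⟩⟩
  choose y y1 y2 using ex
  have lt : ∀ χ, w P (y χ) < w P 2 := fun χ => by
    by_contra k
    obtain ⟨z, z1, z2⟩ := div hV hP h0 (y1 χ) (not_lt.1 k)
    have := y2 χ z z1
    omega
  have fx : ∀ (χ : P.inertia (Ga K) →* ℤˣ) a, Eg P (χ * χ) a → w P a ≠ 0 → w P 2 ≤ w P a :=
    fun χ a h k => by
      rw [w_two hP h2]
      refine (v2 _ _ h.1).2 (fix_mem hP h0 (by
        simpa using (v2 _ 1 h.1).1 (Nat.one_le_iff_ne_zero.2 k)) fun s hs => ?_)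
      have := h.2 ⟨s, hs⟩
      rwa [MonoidHom.mul_apply, Int.units_mul_self, Units.val_one, Int.cast_one, one_mul] at this
  have hf : ∀ χ, w P (y χ) ≠ 0 → 2 * w P (y χ) = w P 2 := fun χ k => by
    have e := (y1 χ).mul (y1 χ)
    have e1 := v1 _ _ (y1 χ).1 (y1 χ).1
    obtain ⟨z, z1, z2⟩ := div hV hP h0 e (fx χ _ e (by omega))
    have := lt χ
    have := fx χ z z1
    omega
  have hA2 : 2 * (Finset.univ.filter fun χ => w P (y χ) ≠ 0).card ≤
      Fintype.card (P.inertia (Ga K) →* ℤˣ) := by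
    rcases (Finset.univ.filter fun χ => w P (y χ) ≠ 0).eq_empty_or_nonempty with e | ⟨a, ha⟩
    · rw [e]; simp
    · refine half _ a fun x hx k => ?_
      rw [Finset.mem_filter] at ha hx k
      have e1 := v1 _ _ (y1 a).1 (y1 x).1
      have := hf a ha.2
      have := hf x hx.2
      obtain ⟨z, z1, z2⟩ := div hV hP h0 ((y1 a).mul (y1 x)) (by omega)
      have := y2 _ z z1
      have := k.2
      omega
  have u : ∀ χ, w P (y χ) = 0 → χ ≠ 1 → ∃ z b, Eg P χ z ∧ z - 1 ∈ P ∧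
      z * z - 1 - 2 * b ∈ P ^ (w P 2 + 1) ∧ b + 1 ∈ P := fun χ k n => by
    obtain ⟨z, z1, z2⟩ := nrm hV hP h0 h2 hφ (y1 χ) fun c => by
      have := (v2 _ 1 (y1 χ).1).2 (by simpa using c)
      omega
    obtain ⟨b, hb⟩ := exb hV hP h0 h2 z1 z2
    exact ⟨z, b, z1, z2, hb, one_b hV hP h0 h2 hφ hz n z1 z2 hb⟩
  have hB : ((Finset.univ.filter fun χ => ¬ w P (y χ) ≠ 0).erase 1).card ≤ 1 :=
    Finset.card_le_one.2 fun a ha b hb => by
      simp only [Finset.mem_erase, Finset.mem_filter, Finset.mem_univ, true_and, not_not] at ha hb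
      by_contra n
      obtain ⟨z, c, z1, -, z3, z4⟩ := u a ha.2 ha.1
      obtain ⟨z', c', z1', z2', z3', z4'⟩ := u b hb.2 hb.1
      refine not_b hV hP h0 h2 (fun e => n (MonoidHom.ext fun s => ?_)) (z1.mul z1')
        (add_b hV hP h0 h2 z2' z3 z3') ?_
      · have := DFunLike.congr_fun e s
        rw [MonoidHom.mul_apply, MonoidHom.one_apply] at this
        exact mul_right_cancel (this.trans (Int.units_mul_self _).symm)
      · rw [show c + c' = c + 1 + (c' + 1) - 2 by ring]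
        exact sub_mem (add_mem z4 z4') h2
  have := Finset.pred_card_le_card_erase (s := Finset.univ.filter fun χ => ¬ w P (y χ) ≠ 0) (a := 1)
  have := Finset.card_filter_add_card_filter_not (s := Finset.univ) fun χ => w P (y χ) ≠ 0
  rw [Finset.card_univ] at this
  omega

end Vale.Agent.P022U.Cn
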