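import Mathlib

/-!
# P022U: the bound of Blichfeldt
-/

set_option linter.all false

open MeasureTheory Module Set NumberField

noncomputable section

namespace Vale.Agent.P022U.H74

theorem pts {E ι : Type} [NormedAddCommGroup E] [InnerProductSpace ℝ E] (s : Finset ι) (a : ι → E)
    {R : ℝ} (hR : 0 < R) (h : ∀ i ∈ s, ∀ j ∈ s, i ≠ j → 2 * R ^ 2 ≤ ‖a i - a j‖ ^ 2) :
    ∑ i ∈ s, (1 - ‖a i‖ ^ 2 / R ^ 2) ≤ 1 := by
  classical
  rcases s.eq_empty_or_nonempty with rfl | hs
  · simp
  have m0 : (0 : ℝ) < s.card := Nat.cast_pos.2 hs.card_pos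
  have k1 : ∑ i ∈ s, ∑ j ∈ s, ‖a i - a j‖ ^ 2 =
      2 * s.card * ∑ i ∈ s, ‖a i‖ ^ 2 - 2 * ‖∑ i ∈ s, a i‖ ^ 2 := by
    rw [← real_inner_self_eq_norm_sq (∑ i ∈ s, a i), sum_inner]
    simp only [norm_sub_sq_real, inner_sum, Finset.sum_add_distrib, Finset.sum_sub_distrib,
      Finset.sum_const, nsmul_eq_mul, ← Finset.mul_sum]
    ring
  have k2 : ∑ i ∈ s, ((s.card : ℝ) - 1) * (2 * R ^ 2) ≤ ∑ i ∈ s, ∑ j ∈ s, ‖a i - a j‖ ^ 2 :=
    Finset.sum_le_sum fun i hi => by
      rw [← Finset.add_sum_erase _ _ hi, sub_self, norm_zero, zero_pow two_ne_zero, zero_add]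
      have := Finset.card_nsmul_le_sum (s.erase i) (fun j => ‖a i - a j‖ ^ 2) (2 * R ^ 2)
        fun j hj => h i hi j (Finset.mem_of_mem_erase hj) (Finset.ne_of_mem_erase hj).symm
      rwa [nsmul_eq_mul, Finset.cast_card_erase_of_mem hi] at this
  rw [Finset.sum_const, nsmul_eq_mul, k1] at k2
  have k3 : ((s.card : ℝ) - 1) * R ^ 2 ≤ ∑ i ∈ s, ‖a i‖ ^ 2 := by
    refine le_of_mul_le_mul_left ?_ m0
    nlinarith [sq_nonneg ‖∑ i ∈ s, a i‖]
  rw [Finset.sum_sub_distrib, Finset.sum_const, nsmul_eq_mul, mul_one, ← Finset.sum_div]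
  have := (le_div_iff₀ (pow_pos hR 2)).2 k3
  linarith

theorem intg {E : Type} [NormedAddCommGroup E] [InnerProductSpace ℝ E] [FiniteDimensional ℝ E]
    [MeasurableSpace E] [BorelSpace E] {k : ℕ} (k0 : 0 < k) (hk : finrank ℝ E = 2 * k) {R : ℝ}
    (hR : 0 < R) : ∫ x : E, max 0 (1 - ‖x‖ ^ 2 / R ^ 2) =
      Real.pi ^ k * (R ^ 2) ^ k / (k + 1).factorial := by
  haveI : Nontrivial E := Module.nontrivial_of_finrank_pos (R := ℝ) (by omega)
  obtain ⟨j, rfl⟩ : ∃ j, k = j + 1 := ⟨k - 1, by omega⟩
  have e : finrank ℝ E - 1 = 2 * j + 1 := by omega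
  rw [integral_fun_norm_addHaar volume fun y => max 0 (1 - y ^ 2 / R ^ 2), e, measureReal_def,
    InnerProductSpace.volume_ball_of_dim_even hk, hk,
    setIntegral_eq_of_subset_of_forall_diff_eq_zero (t := Ioi 0) (s := Ioc 0 R) measurableSet_Ioi
      Ioc_subset_Ioi_self (fun y hy => by
        have h1 : R < y := not_le.1 fun c => hy.2 ⟨hy.1, c⟩
        have : 1 ≤ y ^ 2 / R ^ 2 := (one_le_div (pow_pos hR 2)).2 (by nlinarith)
        rw [max_eq_left (by linarith), smul_zero]),
    setIntegral_congr_fun (g := fun y => y ^ (2 * j + 1) - (R ^ 2)⁻¹ * y ^ (2 * j + 3))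
      measurableSet_Ioc (fun y hy => by
        have : y ^ 2 / R ^ 2 ≤ 1 := (div_le_one (pow_pos hR 2)).2 (by nlinarith [hy.1, hy.2])
        simp only
        rw [max_eq_right (by linarith), smul_eq_mul]
        ring),
    ← intervalIntegral.integral_of_le hR.le, intervalIntegral.integral_sub (by simp)
      (by exact Continuous.intervalIntegrable (by fun_prop) _ _),
    intervalIntegral.integral_const_mul, integral_pow, integral_pow]
  rw [ENNReal.ofReal_one, one_pow, one_mul, ENNReal.toReal_ofReal (by positivity),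
    Nat.factorial_succ (j + 1)]
  simp only [nsmul_eq_mul, smul_eq_mul]
  have : ((j + 1).factorial : ℝ) ≠ 0 := by positivity
  push_cast
  field_simp
  ring

/-- **Blichfeldt** -/
theorem blich {E : Type} [NormedAddCommGroup E] [InnerProductSpace ℝ E] [FiniteDimensional ℝ E]
    [MeasurableSpace E] [BorelSpace E] (L : Submodule ℤ E) [DiscreteTopology L] [IsZLattice ℝ L]
    {k : ℕ} (k0 : 0 < k) (hk : finrank ℝ E = 2 * k) {R : ℝ} (hR : 0 < R)
    (h : ∀ x ∈ L, x ≠ 0 → 2 * R ^ 2 ≤ ‖x‖ ^ 2) :
    Real.pi ^ k * (R ^ 2) ^ k / (k + 1).factorial ≤ ZLattice.covolume L := by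
  classical
  have F := ZLattice.isAddFundamentalDomain (Free.chooseBasis ℤ L) (volume : Measure E)
  haveI : MeasurableVAdd L E := (inferInstance : MeasurableVAdd L.toAddSubgroup E)
  haveI : VAddInvariantMeasure L E volume :=
    (inferInstance : VAddInvariantMeasure L.toAddSubgroup E volume)
  haveI : Countable L := (Free.chooseBasis ℤ L).repr.toEquiv.countable_iff.2 inferInstance
  have c : Continuous fun x : E => max 0 (1 - ‖x‖ ^ 2 / R ^ 2) := by fun_prop
  have i : Integrable fun x : E => max 0 (1 - ‖x‖ ^ 2 / R ^ 2) :=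
    c.integrable_of_hasCompactSupport (HasCompactSupport.intro (isCompact_closedBall (0 : E) R)
      fun x hx => by
        have h1 : R < ‖x‖ := by simpa using hx
        have : 1 ≤ ‖x‖ ^ 2 / R ^ 2 := (one_le_div (pow_pos hR 2)).2 (by nlinarith)
        exact max_eq_left (by linarith))
  rw [← intg k0 hk hR, ZLattice.covolume_eq_measure_fundamentalDomain L volume F, measureReal_def,
    ← ENNReal.ofReal_le_iff_le_toReal (Bornology.IsBounded.measure_lt_top
      (ZSpan.fundamentalDomain_isBounded _)).ne,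
    ofReal_integral_eq_lintegral_ofReal i (Filter.Eventually.of_forall fun x => le_max_left _ _),
    F.lintegral_eq_tsum'', ← lintegral_tsum, ← setLIntegral_one]
  · refine lintegral_mono fun x => ?_
    refine ENNReal.summable.tsum_le_of_sum_le fun s => ?_
    rw [← ENNReal.ofReal_sum_of_nonneg fun _ _ => le_max_left _ _, ENNReal.ofReal_le_one,
      ← Finset.sum_filter_of_ne (p := fun g : L => 0 ≤ 1 - ‖g +ᵥ x‖ ^ 2 / R ^ 2)
        fun g _ hg => by_contra fun d => hg (max_eq_left (not_le.1 d).le),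
      Finset.sum_congr rfl fun g hg => max_eq_right (Finset.mem_filter.1 hg).2]
    refine pts _ (fun g : L => g +ᵥ x) hR fun a _ b _ ab => ?_
    have : (a +ᵥ x) - (b +ᵥ x) = (a.1 - b.1 : E) := add_sub_add_right_eq_sub _ _ _
    rw [this]
    exact h _ (L.sub_mem a.2 b.2) fun e => ab (Subtype.ext (sub_eq_zero.1 e))
  · intro g
    exact (ENNReal.measurable_ofReal.comp (c.comp (continuous_const_add g.1)).measurable).aemeasurable

open NumberField.InfinitePlace NumberField.mixedEmbedding in
/-- **the discriminant** -/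
theorem disc (K : Type) [Field K] [NumberField K] {k : ℕ} (k0 : 0 < k)
    (hk : finrank ℚ K = 2 * k) :
    ((Real.pi * k) ^ k / (k + 1).factorial) ^ 2 ≤ |(discr K : ℝ)| := by
  classical
  have kp : (0 : ℝ) < k := Nat.cast_pos.2 k0
  set c : ℝ := Real.exp (-(nrComplexPlaces K * Real.log 2) / k) with hc
  have c0 : 0 < c := Real.exp_pos _
  have ck : c ^ k = 2⁻¹ ^ nrComplexPlaces K := by
    rw [hc, ← Real.exp_nat_mul, mul_div_cancel₀ _ kp.ne', Real.exp_neg, Real.exp_nat_mul,
      Real.exp_log two_pos, inv_pow]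
  have B := blich (euclidean.integerLattice K) k0 ((euclidean.finrank K).trans hk)
    (Real.sqrt_pos.2 (mul_pos kp c0)) fun x hx x0 => by
      obtain ⟨y, hy⟩ : ∃ y : 𝓞 K, mixedEmbedding K y = euclidean.toMixed K x := hx
      have y0 : (y : K) ≠ 0 := fun e => x0 ((euclidean.toMixed K).injective (by
        rw [← hy, e, map_zero, map_zero]))
      have n1 : ‖x‖ ^ 2 = ∑ w : InfinitePlace K, w y ^ 2 := by
        rw [WithLp.prod_norm_sq_eq_of_L2, EuclideanSpace.norm_sq_eq, EuclideanSpace.norm_sq_eq,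
          sum_eq_sum_add_sum]
        refine congrArg₂ _ (Finset.sum_congr rfl fun w _ => ?_) (Finset.sum_congr rfl fun w _ => ?_)
        · have : x.fst w = (mixedEmbedding K y).1 w := by
            rw [hy]
            rfl
          rw [this, mixedEmbedding_apply_isReal, norm_embedding_of_isReal]
        · have : x.snd w = (mixedEmbedding K y).2 w := by
            rw [hy]
            rfl
          rw [this, mixedEmbedding_apply_isComplex, norm_embedding_eq]
      have p : ∀ w : InfinitePlace K, 0 < w y := fun w => pos_iff.2 y0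
      have m : ∀ w : InfinitePlace K, (0 : ℝ) < mult w := fun w => Nat.cast_pos.2 mult_pos
      have n2 : 0 ≤ ∑ w : InfinitePlace K, mult w * Real.log (w y) := by
        simp only [← Real.log_pow]
        rw [← Real.log_prod fun w _ => (pow_pos (p w) _).ne', prod_eq_abs_norm]
        refine Real.log_nonneg ?_
        rw [← Algebra.coe_norm_int, ← Int.cast_abs, Rat.cast_intCast]
        exact_mod_cast Int.one_le_abs (Algebra.norm_ne_zero_iff.2 fun e => y0 (by rw [e]; rfl))
      have n3 : ∑ w : InfinitePlace K, mult w * Real.log (mult w) =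
          2 * (nrComplexPlaces K * Real.log 2) := by
        rw [sum_eq_sum_add_sum]
        simp [mult_isReal, mult_isComplex, nrComplexPlaces]
        ring
      have n4 : ∑ w : InfinitePlace K, (mult w : ℝ) = 2 * k := by
        rw [← Nat.cast_sum, sum_mult_eq, hk]
        push_cast
        rfl
      have n5 : ∀ w ∈ (Finset.univ : Finset (InfinitePlace K)),
          2 * (mult w * Real.log (w y)) - mult w * Real.log (mult w) -
            mult w * Real.log c ≤ w y ^ 2 / c - mult w := fun w _ => by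
        have a := Real.log_le_sub_one_of_pos (div_pos (pow_pos (p w) 2) (mul_pos (m w) c0))
        rw [Real.log_div (pow_pos (p w) 2).ne' (mul_pos (m w) c0).ne', Real.log_mul (m w).ne' c0.ne',
          Real.log_pow] at a
        have b := mul_le_mul_of_nonneg_left a (m w).le
        have d : (mult w : ℝ) * (w y ^ 2 / (mult w * c)) = w y ^ 2 / c := by
          have := (m w).ne'
          field_simp
        rw [mul_sub (mult w : ℝ) _ 1, d] at b
        push_cast at b
        linarith
      have n6 := Finset.sum_le_sum n5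
      rw [Finset.sum_sub_distrib, Finset.sum_sub_distrib, Finset.sum_sub_distrib, ← Finset.mul_sum,
        ← Finset.sum_mul, ← Finset.sum_div, n3, n4, ← n1, hc, Real.log_exp, ← hc] at n6
      have n7 : 2 * (k : ℝ) * (-(nrComplexPlaces K * Real.log 2) / k) =
          -(2 * (nrComplexPlaces K * Real.log 2)) := by
        field_simp
      rw [Real.sq_sqrt (mul_pos kp c0).le, ← mul_assoc, ← le_div_iff₀ c0]
      linarith
  rw [Real.sq_sqrt (mul_pos kp c0).le, euclidean.integerLattice,
    ZLattice.covolume_comap _ _ _ (euclidean.volumePreserving_toMixed K), covolume_integerLattice,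
    mul_pow, ck] at B
  have B2 : (Real.pi * k) ^ k / (k + 1).factorial ≤ √|(discr K : ℝ)| := by
    refine le_of_mul_le_mul_left ?_ (pow_pos (inv_pos.2 two_pos) (nrComplexPlaces K))
    refine le_trans (le_of_eq ?_) B
    rw [mul_pow]
    ring
  rw [← Real.sq_sqrt (abs_nonneg (discr K : ℝ))]
  exact pow_le_pow_left₀ (by positivity) B2 2

end Vale.Agent.P022U.H74
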