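import Vale.Agent.P022U.Defs
import Vale.Agent.P022U.BlH74

/-!
# P022U: the bound for the discriminant
-/

namespace Vale.Agent.P022U.H74

theorem dbC : DB := fun K _ _ k k0 hk => by
  rw [Nat.cast_natAbs, Int.cast_abs]
  exact disc K k0 hk

end Vale.Agent.P022U.H74
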