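import Vale.Agent.P022U.Defs

/-!
# P022U, row FB: Frobenius elements
-/

set_option linter.all false

open NumberField

namespace Vale.Agent.P022U

open Vale.Agent.P022T

theorem fbC : FB := by
  intro K _ _ _ P hP h0 h2
  haveI : Finite (𝓞 K ⧸ P) := Ideal.finiteQuotientOfFreeOfNeBot P h0
  obtain ⟨φ, hφ⟩ := IsArithFrobAt.exists_of_isInvariant ℤ (Ga K) P
  have cd : Nat.card (ℤ ⧸ P.under ℤ) = 2 := by
    have : P.under ℤ = Ideal.span {((2 : ℕ) : ℤ)} :=
      ((Ideal.IsMaximal.eq_of_le (Int.ideal_span_isMaximal_of_prime 2) (Ideal.comap_ne_top _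
        hP.ne_top) ((Ideal.span_singleton_le_iff_mem _).2 (by simpa using h2)))).symm
    rw [this, Int.card_ideal_quot]
  exact ⟨φ, fun x => cd ▸ hφ x⟩

end Vale.Agent.P022U
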