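import Vale.Agent.P022U.Defs

/-!
# P022U: the centraliser of an involution is commutative
-/

set_option linter.all false

namespace Vale.Agent.P022U.H8

theorem crs {k : Type} [Field k] {a b c x y z p q r : k} (h1 : a * q = b * p) (h2 : a * r = c * p)
    (h3 : b * r = c * q) (k1 : x * q = y * p) (k2 : x * r = z * p) (k3 : y * r = z * q)
    (h : p ≠ 0 ∨ q ≠ 0 ∨ r ≠ 0) : a * y = b * x ∧ a * z = c * x ∧ b * z = c * y := by
  rcases h with h | h | h
  · exact ⟨mul_left_cancel₀ h (by linear_combination x * h1 - a * k1),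
      mul_left_cancel₀ h (by linear_combination x * h2 - a * k2),
      mul_left_cancel₀ h (by linear_combination y * h2 - z * h1 - a * k3)⟩
  · exact ⟨mul_left_cancel₀ h (by linear_combination y * h1 - b * k1),
      mul_left_cancel₀ h (by linear_combination z * h1 + x * h3 - b * k2),
      mul_left_cancel₀ h (by linear_combination y * h3 - b * k3)⟩
  · exact ⟨mul_left_cancel₀ h (by linear_combination y * h2 - x * h3 - c * k1),
      mul_left_cancel₀ h (by linear_combination z * h2 - c * k2),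
      mul_left_cancel₀ h (by linear_combination z * h3 - c * k3)⟩

theorem cm_iff {k : Type} [Field k] (A B : Matrix (Fin 2) (Fin 2) k) : A * B = B * A ↔
    A 0 1 * B 1 0 = A 1 0 * B 0 1 ∧ A 0 1 * (B 0 0 - B 1 1) = (A 0 0 - A 1 1) * B 0 1 ∧
      A 1 0 * (B 0 0 - B 1 1) = (A 0 0 - A 1 1) * B 1 0 := by
  constructor
  · intro h
    have a := congrFun (congrFun h 0) 0
    have b := congrFun (congrFun h 0) 1
    have c := congrFun (congrFun h 1) 0
    simp only [Matrix.mul_apply, Fin.sum_univ_two] at a b c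
    exact ⟨by linear_combination a, by linear_combination -b, by linear_combination c⟩
  · rintro ⟨a, b, c⟩
    have e : ∀ i j : Fin 2, A i 0 * B 0 j + A i 1 * B 1 j = B i 0 * A 0 j + B i 1 * A 1 j := by
      refine Fin.forall_fin_two.2 ⟨Fin.forall_fin_two.2 ⟨?_, ?_⟩, Fin.forall_fin_two.2 ⟨?_, ?_⟩⟩
      · linear_combination a
      · linear_combination -b
      · linear_combination c
      · linear_combination -a
    ext i j
    simp only [Matrix.mul_apply, Fin.sum_univ_two]
    exact e i j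

theorem nsc {k : Type} [Field k] [CharP k 2] (S : Matrix (Fin 2) (Fin 2) k) (h1 : S ≠ 1)
    (h2 : S * S = 1) : S 0 1 ≠ 0 ∨ S 1 0 ≠ 0 ∨ S 0 0 - S 1 1 ≠ 0 := by
  by_contra h
  simp only [not_or, not_not] at h
  obtain ⟨a, b, c⟩ := h
  have t : (2 : k) = 0 := CharP.cast_eq_zero k 2
  have e := congrFun (congrFun h2 0) 0
  simp only [Matrix.mul_apply, Fin.sum_univ_two, Matrix.one_apply_eq] at e
  have f : S 0 0 = 1 := by
    have g : (S 0 0 - 1) ^ 2 = 0 := by
      linear_combination e - S 1 0 * a + (1 - S 0 0) * t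
    exact sub_eq_zero.1 (pow_eq_zero_iff two_ne_zero |>.1 g)
  refine h1 ?_
  have e' : ∀ i j : Fin 2, S i j = (1 : Matrix (Fin 2) (Fin 2) k) i j := by
    refine Fin.forall_fin_two.2 ⟨Fin.forall_fin_two.2 ⟨?_, ?_⟩, Fin.forall_fin_two.2 ⟨?_, ?_⟩⟩
    · rw [Matrix.one_apply_eq]; exact f
    · rw [Matrix.one_apply_ne (by decide)]; exact a
    · rw [Matrix.one_apply_ne (by decide)]; exact b
    · rw [Matrix.one_apply_eq]; linear_combination f - c
  ext i j
  exact e' i j

theorem gpC : GP := by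
  intro G _ k _ _ ι hι s a b h1 h2 ha hb
  have m : ∀ x y : G, ((ι (x * y) : GL (Fin 2) k) : Matrix (Fin 2) (Fin 2) k) =
      (ι x : Matrix (Fin 2) (Fin 2) k) * (ι y : Matrix (Fin 2) (Fin 2) k) := fun x y => by
    rw [map_mul, Units.val_mul]
  have n := nsc (ι s : Matrix (Fin 2) (Fin 2) k)
    (fun h => h1 (hι (by rw [map_one]; exact Units.ext h)))
    (by rw [← m, h2, map_one, Units.val_one])
  obtain ⟨a1, a2, a3⟩ := (cm_iff _ _).1 (by rw [← m, ← m, ha] :
    (ι a : Matrix (Fin 2) (Fin 2) k) * ι s = ι s * ι a)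
  obtain ⟨b1, b2, b3⟩ := (cm_iff _ _).1 (by rw [← m, ← m, hb] :
    (ι b : Matrix (Fin 2) (Fin 2) k) * ι s = ι s * ι b)
  refine hι (Units.ext ?_)
  rw [m, m]
  exact (cm_iff _ _).2 (crs a1 a2 a3 b1 b2 b3 n)

end Vale.Agent.P022U.H8
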