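import Vale.Agent.P022U.Defs
import Vale.Agent.P022T.Inf

/-!
# P022U: from finite extensions to the absolute Galois group
-/

set_option linter.all false

open NumberField

noncomputable section

namespace Vale.Agent.P022U.H87

open Vale.Agent.P022 Vale.Agent.P022.H916 Vale.Agent.P022T

theorem lv3C (h : U0) : LV3 := by
  intro k _ _ ρ hop hun h3
  let j : ℚ →+* Qb := algebraMap ℚ Qb
  have hall : ∀ g : GQ, g ∈ GK j := fun g x => g.commutes x
  obtain ⟨L, _, _, inst, hG, jL, σ, D, -, hker⟩ :=
    exists_fld j ρ.ker hop (fun g _ => hall g)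
      (fun g _ u hu => (MonoidHom.normal_ker ρ).conj_mem u hu g)
  obtain rfl : inst = DivisionRing.toRatAlgebra := Subsingleton.elim _ _
  let τ : GK j →* GL (Fin 2) k := ρ.comp (GK j).subtype
  have hle : σ.ker ≤ τ.ker := fun g hg => (hker g).1 hg
  let ι : Ga L →* GL (Fin 2) k := σ.liftOfSurjective D.surj ⟨τ, hle⟩
  have hι : ∀ g : GK j, ι (σ g) = ρ g := fun g =>
    MonoidHom.liftOfRightInverse_comp_apply σ _ _ ⟨τ, hle⟩ g
  have hinj : Function.Injective ι := by
    rw [injective_iff_map_eq_one]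
    intro s hs
    obtain ⟨g, rfl⟩ := D.surj s
    rw [hι] at hs
    exact (hker g).2 hs
  have hs : Group.IsSolvable (Ga L) := by
    refine h L k ι hinj ?_ ?_
    · intro P hP h0 h2 k3 s hs
      obtain ⟨p, hp, hpP⟩ := inf_ex_prime P hP h0
      have hp2 : p ≠ 2 := by
        rintro rfl
        exact h2 (by simpa using hpP)
      have hp3 : p ≠ 3 := by
        rintro rfl
        exact k3 (by simpa using hpP)
      have hp4 : 3 < p := by
        have := hp.two_le
        omega
      obtain ⟨Q, hQ, rfl⟩ := exists_above jL P hP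
      have hpQ : (p : 𝓞 Qb) ∈ Q := by
        have h1 : RingOfIntegers.mapRingHom jL (p : 𝓞 L) ∈ Q := hpP
        rwa [map_natCast] at h1
      refine D.inertia_eq_bot hQ (fun g hg => (hker g).2 ?_) hs
      exact hun p hp hp4 Q hQ hpQ g hg
    · intro P hP k3 s hs
      obtain ⟨Q, hQ, rfl⟩ := exists_above jL P hP
      have hpQ : (3 : 𝓞 Qb) ∈ Q := by
        have h1 : RingOfIntegers.mapRingHom jL (3 : 𝓞 L) ∈ Q := k3
        rwa [map_ofNat] at h1
      obtain ⟨g, rfl, hg⟩ := D.inertia_lift hQ hs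
      refine hinj ?_
      rw [map_mul, map_one, hι]
      exact h3 Q hQ hpQ g hg
  have hr : ρ.range = ι.range := by
    ext x
    constructor
    · rintro ⟨g, rfl⟩
      exact ⟨σ ⟨g, hall g⟩, hι _⟩
    · rintro ⟨s, rfl⟩
      obtain ⟨g, rfl⟩ := D.surj s
      exact ⟨g, (hι g).symm⟩
  rw [hr]
  exact solvable_of_surjective ι.rangeRestrict_surjective

end Vale.Agent.P022U.H87
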