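import Vale.Agent.P022U.Defs

/-!
# P022U: the case of a Frobenius element without fixed points
-/

set_option linter.all false

open NumberField Finset

noncomputable section

namespace Vale.Agent.P022U.H72

open Vale.Agent.P022T

section abs
variable {G R : Type} [Group G] [Fintype G] [CommRing R] [IsDomain R] [CharZero R]

theorem dual (hs : ∀ s : G, s * s = 1) :
    Nat.card (G →* Rˣ) = Nat.card G ∧ ∀ s : G, s ≠ 1 → ∃ χ : G →* Rˣ, χ s ≠ 1 := by
  letI : CommGroup G := { ‹Group G› with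
    mul_comm := fun a b => by
      rw [← inv_eq_of_mul_eq_one_right (hs (a * b)), mul_inv_rev,
        inv_eq_of_mul_eq_one_right (hs a), inv_eq_of_mul_eq_one_right (hs b)] }
  haveI : HasEnoughRootsOfUnity R 2 := ⟨⟨-1, IsPrimitiveRoot.neg_one 0 (by decide)⟩, inferInstance⟩
  haveI : HasEnoughRootsOfUnity R (Monoid.exponent G) :=
    HasEnoughRootsOfUnity.of_dvd R (Monoid.exponent_dvd_of_forall_pow_eq_one (n := 2)
      fun g => (pow_two g).trans (hs g))
  exact ⟨CommGroup.card_monoidHom_of_hasEnoughRootsOfUnity G R,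
    fun s h => CommGroup.exists_apply_ne_one_of_hasEnoughRootsOfUnity G R h⟩

theorem half {X : Type} [Group X] [Fintype X] (p : X → Prop) [DecidablePred p] (a : X)
    (h : ∀ x, p x → ¬ p (a * x)) : 2 * (univ.filter p).card ≤ Fintype.card X ∧
      Fintype.card X ≤ 2 * (univ.filter fun x => ¬ p x).card := by
  have h1 : (univ.filter p).card ≤ (univ.filter fun x => ¬ p x).card :=
    card_le_card_of_injOn (fun x => a * x)
      (fun x hx => mem_coe.2 (mem_filter.2 ⟨mem_univ _, h x (mem_filter.1 (mem_coe.1 hx)).2⟩))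
      fun x _ y _ e => mul_left_cancel e
  have h2 := card_filter_add_card_filter_not (s := (univ : Finset X)) p
  rw [card_univ] at h2
  omega

theorem cnt [DecidableEq G] [DecidableEq R] (hs : ∀ s : G, s * s = 1) (f : G → ℕ) (e : ℕ)
    (h1 : ∀ χ : G →* Rˣ, ∑ s ∈ univ.filter (fun s => ¬ χ s = 1), f s ≤ e) :
    ∑ s ∈ univ.filter (fun s => s ≠ 1), f s ≤ 2 * e := by
  letI := Classical.decEq (G →* Rˣ)
  obtain ⟨c, sep⟩ := dual (R := R) hs
  haveI : Finite (G →* Rˣ) := Nat.finite_of_card_ne_zero (c ▸ Nat.card_pos.ne')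
  letI := Fintype.ofFinite (G →* Rˣ)
  rw [Nat.card_eq_fintype_card, Nat.card_eq_fintype_card] at c
  have a1 : Fintype.card G * ∑ s ∈ univ.filter (fun s => s ≠ 1), f s ≤
      2 * ∑ χ : G →* Rˣ, ∑ s ∈ univ.filter (fun s => ¬ χ s = 1), f s := by
    simp only [sum_filter]
    rw [sum_comm, mul_sum, mul_sum]
    refine sum_le_sum fun s _ => ?_
    by_cases h : s = 1
    · rw [if_neg (not_not.2 h)]; exact Nat.zero_le _
    · obtain ⟨χ0, h0⟩ := sep s h
      have k := (half (fun χ : G →* Rˣ => χ s = 1) χ0 fun x hx hy => h0 (by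
        rwa [MonoidHom.mul_apply, hx, mul_one] at hy)).2
      rw [if_pos h, ← sum_filter, sum_const, smul_eq_mul, ← mul_assoc, ← c]
      exact Nat.mul_le_mul_right _ k
  have a2 := sum_le_sum (s := univ) fun χ _ => h1 χ
  rw [sum_const, card_univ, c, smul_eq_mul] at a2
  refine Nat.le_of_mul_le_mul_left (a1.trans ?_) Fintype.card_pos
  rw [mul_left_comm]
  exact Nat.mul_le_mul_left _ a2

variable [MulSemiringAction G R]

/-- eigenvectors -/
def Eg (χ : G →* Rˣ) (y : R) : Prop := y ≠ 0 ∧ ∀ s : G, s • y = χ s * y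

theorem pm (hs : ∀ s : G, s * s = 1) (χ : G →* Rˣ) (s : G) : (χ s : R) = 1 ∨ (χ s : R) = -1 :=
  mul_self_eq_one_iff.1 (by rw [← Units.val_mul, ← map_mul, hs, map_one, Units.val_one])

theorem Eg.mul {χ χ' : G →* Rˣ} {y y' : R} (h : Eg χ y) (h' : Eg χ' y') : Eg (χ * χ') (y * y') :=
  ⟨mul_ne_zero h.1 h'.1, fun s => by
    rw [smul_mul', h.2, h'.2, MonoidHom.mul_apply, Units.val_mul]; ring⟩

theorem ex_eg (hs : ∀ s : G, s * s = 1) {θ : R} (hθ : ∀ s : G, s ≠ 1 → s • θ - θ ≠ 0)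
    (χ : G →* Rˣ) : ∃ y, Eg χ y := by
  have li := (linearIndependent_monoidHom R R).comp
    (fun s : G => (MulDistribMulAction.toMonoidHom R s : R →* R)) fun s u e => by
      by_contra h
      refine hθ (u⁻¹ * s) (fun k => h (inv_mul_eq_one.1 k).symm) ?_
      have : s • θ = u • θ := DFunLike.congr_fun e θ
      rw [mul_smul, this, inv_smul_smul, sub_self]
  by_contra h
  refine (χ 1).ne_zero (Fintype.linearIndependent_iff.1 li (fun s => (χ s : R)) ?_ 1)
  funext x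
  by_contra k
  rw [Finset.sum_apply] at k
  refine h ⟨_, k, fun u => ?_⟩
  rw [smul_sum, mul_sum]
  refine Fintype.sum_equiv (Equiv.mulLeft u) _ _ fun s => ?_
  change u • ((χ s : R) * s • x) = χ u * ((χ (u * s) : R) * (u * s) • x)
  have e : u • (χ s : R) = χ s := by
    rcases pm hs χ s with e | e <;> rw [e]
    · exact smul_one u
    · rw [smul_neg, smul_one]
  rw [smul_mul', e, mul_smul, ← mul_assoc, ← Units.val_mul, ← map_mul, ← mul_assoc, hs, one_mul]

variable {P : Ideal R} {w : R → ℕ} (hP : P.IsPrime) (hI : ∀ (s : G) x, s • x - x ∈ P)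
  (v1 : ∀ x y, x ≠ 0 → y ≠ 0 → w (x * y) = w x + w y)
  (v2 : ∀ x n, x ≠ 0 → (n ≤ w x ↔ x ∈ P ^ n))
  (v4 : ∀ x a, x ≠ 0 → a ≠ 0 → w a ≤ w x → ∃ c z, c ∉ P ∧ c * x = a * z)
include hP hI v1 v2 v4

theorem dv {χ : G →* Rˣ} {y a : R} (hy : Eg χ y) (ha : Eg (1 : G →* Rˣ) a) (h : w a ≤ w y) :
    ∃ z, Eg χ z ∧ w y = w a + w z := by
  classical
  obtain ⟨c, z, hc, e⟩ := v4 y a hy.1 ha.1 h
  have n1 : ∏ s : G, s • c ∉ P := fun k => by
    obtain ⟨s, -, k⟩ := (Ideal.IsPrime.prod_mem_iff (hp := hP)).1 k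
    exact hc (by simpa using sub_mem k (hI s c))
  have n0 : ∏ s : G, s • c ≠ 0 := fun k => n1 (k ▸ P.zero_mem)
  have n2 : w (∏ s : G, s • c) = 0 := by
    by_contra k
    exact n1 (pow_one P ▸ (v2 _ 1 n0).1 (Nat.pos_of_ne_zero k))
  have e2 : (∏ s : G, s • c) * y = a * (z * ∏ s ∈ univ.erase (1 : G), s • c) := by
    rw [← mul_prod_erase _ _ (mem_univ (1 : G)), one_smul, ← mul_assoc, ← e]; ring
  have z0 : z * ∏ s ∈ univ.erase (1 : G), s • c ≠ 0 := fun k =>
    mul_ne_zero n0 hy.1 (by rw [e2, k, mul_zero])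
  refine ⟨_, ⟨z0, fun u => mul_left_cancel₀ ha.1 ?_⟩, ?_⟩
  · have k : u • _ = u • _ := congrArg (u • ·) e2
    rw [smul_mul', smul_mul' u a, ha.2, hy.2, smul_prod',
      Fintype.prod_equiv (Equiv.mulLeft u) _ (fun s => s • c) fun s => (mul_smul u s c).symm,
      MonoidHom.one_apply, Units.val_one, one_mul] at k
    rw [← k, mul_left_comm a, ← e2]
    ring
  · rw [← v1 _ _ ha.1 z0, ← e2, v1 _ _ n0 hy.1, n2, zero_add]

theorem mu (hs : ∀ s : G, s * s = 1) {θ : R} (hθ : ∀ s : G, s ≠ 1 → s • θ - θ ≠ 0)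
    (h2 : (2 : R) ∈ P) : ∃ μ : (G →* Rˣ) → ℕ, (∀ χ, ∃ y, Eg χ y ∧ w y = μ χ) ∧
      (∀ χ, 2 * μ χ ≤ w 2) ∧ ∀ χ χ', μ χ ≠ 0 → μ χ' ≠ 0 → μ (χ * χ') = 0 := by
  classical
  have t : Eg (1 : G →* Rˣ) (2 : R) := ⟨two_ne_zero, fun s => by
    rw [MonoidHom.one_apply, Units.val_one, one_mul, ← one_add_one_eq_two, smul_add, smul_one]⟩
  have x0 : ∃ n, ∃ a, Eg (1 : G →* Rˣ) a ∧ 0 < w a ∧ w a = n :=
    ⟨_, 2, t, (v2 _ 1 two_ne_zero).2 ((pow_one P).symm ▸ h2), rfl⟩
  obtain ⟨a, a1, a2, a3⟩ := Nat.find_spec x0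
  have m0 : ∀ b, Eg (1 : G →* Rˣ) b → 0 < w b → w a ≤ w b := fun b b1 b2 =>
    a3 ▸ Nat.find_min' x0 ⟨b, b1, b2, rfl⟩
  have x1 : ∀ χ : G →* Rˣ, ∃ n, ∃ y, Eg χ y ∧ w y = n := fun χ =>
    (ex_eg hs hθ χ).elim fun y hy => ⟨_, y, hy, rfl⟩
  have m1 : ∀ χ b, Eg χ b → Nat.find (x1 χ) ≤ w b := fun χ b b1 => Nat.find_min' _ ⟨b, b1, rfl⟩
  have key : ∀ χ, Nat.find (x1 χ) = 0 ∨ 2 * Nat.find (x1 χ) = w a := fun χ => by
    obtain ⟨y, y1, y2⟩ := Nat.find_spec (x1 χ)
    have l : w y < w a := by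
      by_contra k
      obtain ⟨z, z1, z2⟩ := dv hP hI v1 v2 v4 y1 a1 (not_lt.1 k)
      have := m1 χ z z1
      omega
    have q := y1.mul y1
    rw [show χ * χ = 1 from MonoidHom.ext fun s => by
      rw [MonoidHom.mul_apply, ← map_mul, hs, map_one, MonoidHom.one_apply]] at q
    have q2 := v1 y y y1.1 y1.1
    by_cases k : w y = 0
    · exact Or.inl (y2 ▸ k)
    · have q3 := m0 _ q (by omega)
      obtain ⟨z, z1, z2⟩ := dv hP hI v1 v2 v4 q a1 q3
      by_cases k2 : w z = 0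
      · right; omega
      · have := m0 z z1 (Nat.pos_of_ne_zero k2)
        omega
  have le := m0 2 t ((v2 _ 1 two_ne_zero).2 ((pow_one P).symm ▸ h2))
  refine ⟨fun χ => Nat.find (x1 χ), fun χ => Nat.find_spec (x1 χ), fun χ => ?_,
    fun χ χ' k k' => ?_⟩
  · have := key χ
    show 2 * Nat.find (x1 χ) ≤ _
    omega
  · show Nat.find (x1 (χ * χ')) = 0
    obtain ⟨y, y1, y2⟩ := Nat.find_spec (x1 χ)
    obtain ⟨y', y1', y2'⟩ := Nat.find_spec (x1 χ')
    have q2 := v1 y y' y1.1 y1'.1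
    have b := (key χ).resolve_left k
    have b' := (key χ').resolve_left k'
    obtain ⟨z, z1, z2⟩ := dv hP hI v1 v2 v4 (y1.mul y1') a1 (by omega)
    have := m1 _ z z1
    omega

theorem un (hs : ∀ s : G, s * s = 1) {θ : R} (hθ : ∀ s : G, s ≠ 1 → s • θ - θ ≠ 0)
    (h2 : (2 : R) ∈ P) (c : G →* G) (F F' : R →+* R) (c1 : Function.Injective c)
    (c2 : Function.Injective fun s => c s * s) (f1 : ∀ s x, s • F x = F (c s • x))
    (f2 : ∀ s x, c s • F' x = F' (s • x)) (f3 : ∀ x, F x ∈ P → x ∈ P) (f4 : ∀ x, F' x ∈ P → x ∈ P)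
    (χ : G →* Rˣ) : ∃ y, Eg χ y ∧ w y = 0 := by
  obtain ⟨μ, m1, -, m3⟩ := mu hP hI v1 v2 v4 hs hθ h2
  have z : ∀ y, y ≠ 0 → (w y = 0 ↔ y ∉ P) := fun y hy => by
    have := v2 y 1 hy
    rw [pow_one] at this
    rw [← this]; omega
  have n0 : ∀ y, y ∉ P → y ≠ 0 := fun y h e => h (e ▸ P.zero_mem)
  have fx : ∀ (T : R →+* R) (ψ : G →* Rˣ) s, T (ψ s) = ψ s := fun T ψ s => by
    rcases pm hs ψ s with e | e <;> rw [e]
    · exact map_one T
    · rw [map_neg, map_one]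
  haveI : Finite (G →* Rˣ) :=
    Nat.finite_of_card_ne_zero ((dual (R := R) hs).1 ▸ Nat.card_pos.ne')
  obtain ⟨ψ, rfl⟩ := Finite.injective_iff_surjective.1
    (show Function.Injective fun ψ : G →* Rˣ => ψ.comp c * ψ from fun ψ ψ' e =>
      MonoidHom.ext fun u => by
        obtain ⟨s, rfl⟩ := Finite.injective_iff_surjective.1 c2 u
        rw [map_mul, map_mul]
        exact DFunLike.congr_fun e s) χ
  by_cases k : ∃ y, Eg ψ y ∧ y ∉ P
  · obtain ⟨y, y1, y2⟩ := k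
    have e : Eg (ψ.comp c) (F y) := ⟨n0 _ fun h => y2 (f3 _ h), fun s => by
      rw [f1, y1.2, map_mul, fx]; rfl⟩
    exact ⟨_, e.mul y1, (z _ (e.mul y1).1).2 fun h =>
      (hP.mem_or_mem h).elim (fun h => y2 (f3 _ h)) y2⟩
  · obtain ⟨y, y1, y2⟩ := m1 (ψ.comp c * ψ)
    refine ⟨y, y1, y2.trans (m3 _ _ (fun h => ?_) fun h => ?_)⟩
    · obtain ⟨x, x1, x2⟩ := m1 (ψ.comp c)
      have x3 : F' x ∉ P := fun q => (z x x1.1).1 (x2.trans h) (f4 _ q)
      refine k ⟨F' x, ⟨n0 _ x3, fun u => ?_⟩, x3⟩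
      obtain ⟨s, rfl⟩ := Finite.injective_iff_surjective.1 c1 u
      rw [f2, x1.2, map_mul, fx]; rfl
    · obtain ⟨x, x1, x2⟩ := m1 ψ
      exact k ⟨x, x1, (z x x1.1).1 (x2.trans h)⟩

end abs

theorem ncC (hV : VAL) (hC : CO) : NC := by
  intro K _ _ _ P hP h0 h2 θ hA hθ hs φ hφ hc
  classical
  obtain ⟨v1, v2, -, v4⟩ := hV K P hP h0
  let H : Subgroup (Ga K) :=
    { carrier := {s | In P s}
      one_mem' := fun x => by rw [one_smul, sub_self]; exact P.zero_mem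
      mul_mem' := fun {a b} ha hb x => by
        rw [mul_smul]
        simpa using add_mem (ha (b • x)) (hb x)
      inv_mem' := fun {a} ha => by
        rw [inv_eq_of_mul_eq_one_right (hs a ha)]; exact ha }
  have hs' : ∀ s : H, s * s = 1 := fun s => Subtype.ext (hs s s.2)
  have p1 : ∀ x, φ • x ∈ P → x ∈ P := fun x h =>
    hP.mem_of_pow_mem 2 (by simpa using sub_mem h (hφ x))
  have p2 : ∀ x, φ⁻¹ • x ∈ P → x ∈ P := fun x h => by
    have := add_mem (hφ (φ⁻¹ • x)) (Ideal.pow_mem_of_mem P h 2 two_pos)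
    rwa [smul_inv_smul, sub_add_cancel] at this
  let c : H →* H :=
    { toFun := fun s => ⟨φ⁻¹ * s * φ, fun x => p1 _ (by
        rw [smul_sub, mul_smul, mul_smul, smul_inv_smul]; exact s.2 _)⟩
      map_one' := Subtype.ext (by simp)
      map_mul' := fun a b => Subtype.ext (by simp [mul_assoc]) }
  have k := cnt (R := 𝓞 K) hs' (fun s : H => w P ((s : Ga K) • θ - θ)) (w P 2) (fun χ => by
    obtain ⟨y, y1, y2⟩ := un (G := H) hP (fun s => s.2) v1 v2 v4 hs' (θ := θ)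
      (fun s k => hθ s fun e => k (Subtype.ext e)) h2 c (MulSemiringAction.toRingHom _ _ φ)
      (MulSemiringAction.toRingHom _ _ φ⁻¹)
      (fun a b e => Subtype.ext (mul_left_cancel (mul_right_cancel (congrArg Subtype.val e))))
      (fun a b e => by
        have e1 : φ⁻¹ * a * φ * a = φ⁻¹ * b * φ * b := congrArg Subtype.val e
        have e2 := hc (b * a) (b * a).2 (by
          have : φ * (b * a) = b * φ * (φ⁻¹ * b * φ * b) * a := by
            rw [← mul_assoc, ← mul_assoc, ← mul_assoc, ← mul_assoc, mul_inv_cancel_right,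
              hs b b.2, one_mul]
          rw [this, ← e1, ← mul_assoc, ← mul_assoc, ← mul_assoc, mul_inv_cancel_right,
            mul_assoc _ (a : Ga K) a, hs a a.2, mul_one])
        exact Subtype.ext (mul_left_cancel (e2.trans (hs b b.2).symm)))
      (fun s x => by
        change (s : Ga K) • φ • x = φ • (φ⁻¹ * s * φ) • x
        rw [mul_smul, mul_smul, smul_inv_smul])
      (fun s x => by
        change (φ⁻¹ * s * φ) • φ⁻¹ • x = φ⁻¹ • (s : Ga K) • x
        rw [mul_smul, mul_smul, smul_inv_smul]) p1 p2 χ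
    have := hC K P hP h0 θ hA hθ ((univ.filter fun s : H => ¬ χ s = 1).map
      (Function.Embedding.subtype _)) y y1.1 fun s k => by
        obtain ⟨u, u1, rfl⟩ := mem_map.1 k
        refine ⟨u.2, (y1.2 u).trans ?_⟩
        rw [(pm hs' χ u).resolve_left fun e => (mem_filter.1 u1).2 (Units.ext e), neg_one_mul]
    rw [sum_map, y2] at this
    exact this)
  have e : I1 P = (univ.filter fun s : H => s ≠ 1).map (Function.Embedding.subtype _) := by
    ext s
    rw [I1, mem_filter, mem_map]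
    exact ⟨fun h => ⟨⟨s, h.2.1⟩, mem_filter.2 ⟨mem_univ _, fun c => h.2.2 (congrArg Subtype.val c)⟩,
      rfl⟩, fun ⟨u, u1, u2⟩ => u2 ▸ ⟨mem_univ _, u.2, fun c => (mem_filter.1 u1).2 (Subtype.ext c)⟩⟩
  rw [e, sum_map]
  exact k

end Vale.Agent.P022U.H72
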