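import Vale.Agent.P022U.Defs

/-!
# P022U: the numbers
-/

set_option linter.all false

noncomputable section

namespace Vale.Agent.P022U

lemma nu_bin (a : ℝ) (ha : 0 ≤ a) (n : ℕ) :
    a ^ n * (a ^ 2 + (n + 2) * a + (n + 2) * (n + 1) / 2) ≤ (a + 1) ^ (n + 2) := by
  induction n with
  | zero => nlinarith
  | succ n ih =>
    have h1 : 0 ≤ a ^ n := pow_nonneg ha n
    have h2 : (0 : ℝ) ≤ n := Nat.cast_nonneg n
    have h3 := mul_le_mul_of_nonneg_right ih (show 0 ≤ a + 1 by linarith)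
    have h4 : 0 ≤ a ^ n * ((n + 2) * (n + 1) / 2) := by positivity
    have e : a ^ n * (a ^ 2 + (n + 2) * a + (n + 2) * (n + 1) / 2) * (a + 1) =
        a ^ (n + 1) * (a ^ 2 + (((n + 1 : ℕ) : ℝ) + 2) * a +
          (((n + 1 : ℕ) : ℝ) + 2) * (((n + 1 : ℕ) : ℝ) + 1) / 2) +
          a ^ n * ((n + 2) * (n + 1) / 2) := by
      push_cast
      ring
    rw [e, ← pow_succ] at h3
    linarith

lemma nu_step (m : ℕ) (hm : 29 ≤ m) :
    7 * ((Real.pi * ((m + 1 : ℕ) : ℝ)) ^ (m + 1) / (m + 1 + 1).factorial) ≤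
      (Real.pi * ((m + 1 + 1 : ℕ) : ℝ)) ^ (m + 1 + 1) / (m + 1 + 1 + 1).factorial := by
  have hπ : (3.14 : ℝ) < Real.pi := Real.pi_gt_d2
  have hm' : (29 : ℝ) ≤ m := by exact_mod_cast hm
  have hb := nu_bin ((m : ℝ) + 1) (by linarith) m
  have hf : (0 : ℝ) < (m + 1 + 1).factorial := by exact_mod_cast Nat.factorial_pos _
  have hp : (0 : ℝ) < Real.pi ^ (m + 1) := pow_pos Real.pi_pos _
  have hA : (0 : ℝ) < ((m : ℝ) + 1) ^ m := pow_pos (by linarith) _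
  rw [Nat.factorial_succ (m + 1 + 1), ← mul_div_assoc, div_le_div_iff₀ hf (by positivity)]
  push_cast
  rw [mul_pow, mul_pow, pow_succ Real.pi (m + 1), pow_succ ((m : ℝ) + 1) m]
  have key : 7 * (((m : ℝ) + 1) ^ m * (m + 1)) * (m + 1 + 1 + 1) ≤
      Real.pi * ((m : ℝ) + 1 + 1) ^ (m + 1 + 1) := by
    have h1 : 7 * ((m : ℝ) + 1) * (m + 1 + 1 + 1) ≤
        3.14 * (((m : ℝ) + 1) ^ 2 + (m + 2) * (m + 1) + (m + 2) * (m + 1) / 2) := by nlinarith
    have h2 := mul_le_mul_of_nonneg_left h1 hA.le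
    have h3 : (0 : ℝ) ≤ ((m : ℝ) + 1 + 1) ^ (m + 1 + 1) := by positivity
    have h4 := mul_le_mul_of_nonneg_right hπ.le h3
    have h5 : ((m : ℝ) + 1 + 1) ^ (m + 1 + 1) = ((m : ℝ) + 1 + 1) ^ (m + 2) := rfl
    rw [h5] at h4 ⊢
    nlinarith
  have h6 := mul_le_mul_of_nonneg_left key (mul_pos hp hf).le
  nlinarith

theorem nuC : NU := by
  intro k hk
  induction k, hk using Nat.le_induction with
  | base =>
    have hπ : (3.14 : ℝ) < Real.pi := Real.pi_gt_d2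
    have h1 : ((3.14 : ℝ) * ((30 : ℕ) : ℝ)) ^ 30 / (30 + 1).factorial ≤
        (Real.pi * ((30 : ℕ) : ℝ)) ^ 30 / (30 + 1).factorial := by gcongr
    refine lt_of_lt_of_le ?_ (pow_le_pow_left₀ (by positivity) h1 2)
    norm_num [Nat.factorial]
  | succ k hk ih =>
    obtain ⟨m, rfl⟩ : ∃ m, k = m + 1 := ⟨k - 1, by omega⟩
    have h1 := pow_le_pow_left₀ (by positivity) (nu_step m (by omega)) 2
    rw [mul_pow] at h1
    have h2 : (0 : ℝ) < 48 ^ (m + 1) := by positivity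
    rw [pow_succ (48 : ℝ) (m + 1)]
    linarith

end Vale.Agent.P022U
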