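import Vale.Agent.P022U.Defs
import Vale.Agent.P022T.Val

/-!
# P022U: the tame prime
-/

set_option linter.all false

open NumberField Polynomial

noncomputable section

namespace Vale.Agent.P022U.H56T

open Vale.Agent.P022T

variable {K : Type} [Field K] [NumberField K] {P : Ideal (𝓞 K)}

theorem card_in [IsGalois ℚ K] (hP : P.IsPrime) (h3 : (3 : 𝓞 K) ∈ P) :
    Nat.card (P.inertia (Ga K)) = w P 3 := by
  classical
  have hp : (Ideal.span {(3 : ℤ)}).IsMaximal :=
    PrincipalIdealRing.isMaximal_of_irreducible Int.prime_three.irreducible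
  have hl : P.LiesOver (Ideal.span {(3 : ℤ)}) := by
    constructor
    refine hp.eq_of_le (Ideal.IsPrime.under ℤ P).ne_top ?_
    rw [Ideal.span_singleton_le_iff_mem, Ideal.under, Ideal.mem_comap]
    simpa using h3
  have h0 : Ideal.span {(3 : ℤ)} ≠ ⊥ := by simp
  have hf : Finite (ℤ ⧸ Ideal.span {(3 : ℤ)}) := Ring.HasFiniteQuotients.finiteQuotient h0
  rw [Ideal.card_inertia_eq_ramificationIdxIn (G := Ga K) (Ideal.span {(3 : ℤ)}) P,
    Ideal.ramificationIdxIn_eq_ramificationIdx (Ideal.span {(3 : ℤ)}) P (Ga K),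
    Ideal.IsDedekindDomain.ramificationIdx_eq_multiplicity (Ideal.span {(3 : ℤ)}) P
      (Ideal.map_ne_bot_of_ne_bot h0), Ideal.map_span]
  simp [w]

theorem sb {s : Ga K} (h : In P s) {x : 𝓞 K} (hx : x ∈ P) : s • x ∈ P := by
  simpa using add_mem (h x) hx

theorem step {s : Ga K} (h : In (P ^ 2) s) (m : ℕ) :
    ∀ y ∈ P ^ (m + 1), s • y - y ∈ P ^ (m + 2) := by
  have h1 : In P s := fun x => Ideal.pow_le_self two_ne_zero (h x)
  induction m with
  | zero => exact fun y _ => h y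
  | succ m ih =>
    intro y hy
    rw [pow_succ] at hy
    refine Submodule.mul_induction_on hy (fun a ha b hb => ?_) fun a b ha hb => ?_
    · rw [smul_mul', show s • a * s • b - a * b = (s • a - a) * s • b + a * (s • b - b) by ring]
      refine add_mem ?_ ?_
      · rw [pow_succ]; exact Ideal.mul_mem_mul (ih a ha) (sb h1 hb)
      · rw [show m + 1 + 2 = m + 1 + 2 from rfl, pow_add P (m + 1) 2]
        exact Ideal.mul_mem_mul ha (h b)
    · rw [smul_add, add_sub_add_comm]; exact add_mem ha hb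

theorem g1 {θ : 𝓞 K} (hθ : Ap P θ) {s : Ga K} (s1 : In P s) (s3 : s • θ - θ ∈ P ^ 2) :
    In (P ^ 2) s := fun x => by
  obtain ⟨g, hg⟩ := hθ 2 x
  have e : s • aeval θ g = aeval (s • θ) g :=
    (aeval_algHom_apply (MulSemiringAction.toRingHom (Ga K) (𝓞 K) s).toIntAlgHom θ g).symm
  have a1 : aeval (s • θ) g - aeval θ g ∈ P ^ 2 := by
    rw [aeval_def, aeval_def, eval₂_eq_eval_map, eval₂_eq_eval_map]
    exact Ideal.mem_of_dvd _ (sub_dvd_eval_sub _ _ _) s3
  have a2 := s1.pow_mem 2 hg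
  rw [smul_sub, e] at a2
  simpa using sub_mem (add_mem a2 a1) hg

theorem pe (hP : P.IsPrime) (h0 : P ≠ ⊥) {π : 𝓞 K} (p1 : π ∈ P) (p2 : π ∉ P ^ 2) {y : 𝓞 K}
    (hy : y ∈ P) : ∃ a, y - a * π ∈ P ^ 2 := by
  have e : P ^ 2 ⊔ Ideal.span {π} = P ^ 1 := Ideal.eq_prime_pow_of_succ_lt_of_le h0
    (lt_of_le_of_ne le_sup_left fun e => p2 (e ▸ Ideal.mem_sup_right
      (Ideal.mem_span_singleton_self π)))
    (sup_le (Ideal.pow_le_pow_right one_le_two)
      ((Ideal.span_singleton_le_iff_mem _).2 ((pow_one P).symm ▸ p1)))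
  rw [← pow_one P, ← e] at hy
  obtain ⟨u, hu, z, hz, rfl⟩ := Submodule.mem_sup.1 hy
  obtain ⟨a, rfl⟩ := Ideal.mem_span_singleton'.1 hz
  exact ⟨a, by simpa using hu⟩

theorem t3C : T3 := by
  classical
  intro K _ _ _ P hP h0 h3 θ hθ hne hsq
  have half : ∀ {y : 𝓞 K} {n : ℕ}, 2 * y ∈ P ^ n → y ∈ P ^ n := fun h =>
    (Ideal.IsPrime.mul_mem_pow P h).resolve_left fun k => hP.ne_top
      ((Ideal.eq_top_iff_one _).2 (by have := sub_mem h3 k; norm_num at this; exact this))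
  have neg : ∀ s : Ga K, In P s → s • (s • θ - θ) = -(s • θ - θ) := fun s h => by
    rw [smul_sub, smul_smul, hsq s h, one_smul, neg_sub]
  have un : ∀ s : Ga K, In P s → s ≠ 1 → s • θ - θ ∉ P ^ 2 := fun s h h1 k => by
    have a1 := (Val.le_iff hP h0 (hne s h1) 2).2 k
    obtain ⟨m, hm⟩ := Nat.exists_eq_add_of_le' (one_le_two.trans a1)
    have a2 := step (g1 hθ h k) m _ ((Val.le_iff hP h0 (hne s h1) _).1 hm.ge)
    rw [neg s h, show -(s • θ - θ) - (s • θ - θ) = 2 * -(s • θ - θ) by ring] at a2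
    have := (Val.le_iff hP h0 (hne s h1) _).2 (neg_mem_iff.1 (half a2))
    omega
  have act : ∀ s : Ga K, In P s → s ≠ 1 → ∀ u ∈ P, s • u + u ∈ P ^ 2 := fun s h h1 u hu => by
    obtain ⟨a, ha⟩ := pe hP h0 (h θ) (un s h h1) hu
    have a1 := h.pow_mem 2 ha
    rw [smul_sub, smul_mul', neg s h] at a1
    have a2 : (s • a - a) * (s • θ - θ) ∈ P ^ 2 := sq P ▸ Ideal.mul_mem_mul (h a) (h θ)
    have e : s • u + u = s • u - s • a * -(s • θ - θ) + (u - a * (s • θ - θ)) -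
        (s • a - a) * (s • θ - θ) := by ring
    rw [e]
    exact sub_mem (add_mem a1 ha) a2
  have mem : ∀ s, s ∈ I1 P ↔ In P s ∧ s ≠ 1 := fun s => by simp [I1]
  have one : ∀ s ∈ I1 P, ∀ t ∈ I1 P, s = t := fun s hs t ht => by
    obtain ⟨s1, s2⟩ := (mem s).1 hs
    obtain ⟨t1, t2⟩ := (mem t).1 ht
    by_contra c
    have i : In P (s * t) := (P.inertia (Ga K)).mul_mem s1 t1
    have n : s * t ≠ 1 := fun e => c (by
      rw [← mul_one s, ← hsq t t1, ← mul_assoc, e, one_mul])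
    have a1 := act _ i n _ (s1 θ)
    have a2 := s1.pow_mem 2 (act t t1 t2 _ (s1 θ))
    rw [smul_add, smul_smul, neg s s1] at a2
    refine un s s1 s2 (half ?_)
    have e : 2 * (s • θ - θ) = ((s * t) • (s • θ - θ) + (s • θ - θ)) -
        ((s * t) • (s • θ - θ) + -(s • θ - θ)) := by ring
    rw [e]
    exact sub_mem a1 a2
  rcases (I1 P).eq_empty_or_nonempty with e | ⟨s, hs⟩
  · rw [e, Finset.sum_empty]
    exact Nat.zero_le _
  · obtain ⟨s1, s2⟩ := (mem s).1 hs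
    rw [Finset.eq_singleton_iff_unique_mem.2 ⟨hs, fun t ht => one t ht s hs⟩, Finset.sum_singleton,
      ← card_in hP h3]
    have a1 : ¬ 2 ≤ w P (s • θ - θ) := fun k => un s s1 s2 ((Val.le_iff hP h0 (hne s s2) 2).1 k)
    haveI : Nontrivial (P.inertia (Ga K)) := ⟨⟨s, s1⟩, 1, fun e => s2 (congrArg Subtype.val e)⟩
    have a2 : 1 < Nat.card (P.inertia (Ga K)) := Finite.one_lt_card
    omega

end Vale.Agent.P022U.H56T
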