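import Mathlib

/-!
# P022U: groups of order less than sixty are solvable
-/

set_option linter.all false

namespace Vale.Agent.P022U.H27

section simple
variable {G : Type} [Group G] [Finite G] [IsSimpleGroup G]

/-- the number of Sylow groups of a simple group -/
theorem key (h : ¬ Group.IsSolvable G) (p : ℕ) (hp : p.Prime) (h1 : p ∣ Nat.card G) :
    ∃ d a m : ℕ, Nat.card G = p ^ a * m ∧ ¬ p ∣ m ∧ d ∣ m ∧ d % p = 1 % p ∧ d ≠ 1 ∧
      Nat.card G ∣ d.factorial ∧ (a = 1 → d ≠ m) := by
  haveI := Fact.mk hp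
  obtain ⟨P⟩ : Nonempty (Sylow p G) := inferInstance
  obtain ⟨a, ha⟩ := P.isPGroup'.exists_card_eq
  have nb : (P : Subgroup G) ≠ ⊥ := P.ne_bot_of_dvd_card h1
  have nt : (P : Subgroup G) ≠ ⊤ := fun e => by
    have k : IsPGroup p G := IsPGroup.of_card (n := a) (by rw [← ha, e, Subgroup.card_top])
    haveI := k.isNilpotent
    exact h IsNilpotent.to_isSolvable
  have nN : Subgroup.normalizer (P : Set G) ≠ ⊤ := fun e =>
    ((Subgroup.normalizer_eq_top_iff.1 e).eq_bot_or_eq_top).elim nb nt
  have e1 : Nat.card (Sylow p G) = (Subgroup.normalizer (P : Set G)).index :=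
    P.card_eq_index_normalizer
  refine ⟨Nat.card (Sylow p G), a, (P : Subgroup G).index, by
    rw [← ha, Subgroup.card_mul_index], P.not_dvd_index, P.card_dvd_index, card_sylow_modEq_one p G,
    fun e => nN (Subgroup.index_eq_one.1 (e1 ▸ e)), ?_, fun a1 e => ?_⟩
  · have k : (Subgroup.normalizer (P : Set G)).normalCore = ⊥ :=
      (Subgroup.normalCore_normal _).eq_bot_or_eq_top.resolve_right fun e =>
        nN (top_le_iff.1 (e ▸ Subgroup.normalCore_le _))
    have k2 : (Subgroup.normalizer (P : Set G)).normalCore.index ∣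
        (Subgroup.normalizer (P : Set G)).index.factorial := by
      rw [Subgroup.normalCore_eq_ker, Subgroup.index_ker, Subgroup.index_eq_card, ← Nat.card_perm]
      exact Subgroup.card_subgroup_dvd_card _
    rwa [k, Subgroup.index_bot, ← e1] at k2
  · have le : (P : Subgroup G) ≤ Subgroup.normalizer (P : Set G) := Subgroup.le_normalizer
    have e2 : Subgroup.normalizer (P : Set G) ≤ (P : Subgroup G) := by
      have k := Subgroup.relIndex_mul_index le
      rw [← e1, e] at k
      exact Subgroup.relIndex_eq_one.1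
        (mul_right_cancel₀ Subgroup.index_ne_zero_of_finite (k.trans (one_mul _).symm))
    haveI : IsCyclic P := isCyclic_of_prime_card (p := p) (by rw [ha, a1, pow_one])
    have hP : Subgroup.normalizer (P : Set G) ≤ Subgroup.centralizer (P : Set G) :=
      e2.trans (Subgroup.le_centralizer _)
    have c := MonoidHom.ker_transferSylow_isComplement' P hP
    rcases (MonoidHom.normal_ker (MonoidHom.transferSylow P hP)).eq_bot_or_eq_top with k | k
    · rw [k] at c
      exact nt (Subgroup.isComplement'_bot_left.1 c)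
    · rw [k] at c
      exact nb (Subgroup.isComplement'_top_left.1 c)

end simple

/-- the test -/
def ck (n p : ℕ) : Bool := n % p == 0 && (List.range 6).all fun a => (List.range 60).all fun m =>
  n != p ^ a * m || m % p == 0 || (List.range 60).all fun d =>
    m % d != 0 || d % p != 1 % p || d == 1 || (a == 1 && d == m) || d.factorial % n != 0

theorem ar0 : ∀ n < 60, 1 < n →
    ∃ p ∈ [2, 3, 5, 7, 11, 13, 17, 19, 23, 29, 31, 37, 41, 43, 47, 53, 59], ck n p = true := by
  decide +kernel

/-- the arithmetic -/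
theorem ar (n : ℕ) (h : n < 60) (h1 : 1 < n) : ∃ p, p.Prime ∧ p ∣ n ∧ ∀ a < 6, ∀ m < 60,
    n = p ^ a * m → ¬ p ∣ m → ∀ d < 60, d ∣ m → d % p = 1 % p → d ≠ 1 → (a = 1 → d ≠ m) →
    ¬ n ∣ d.factorial := by
  obtain ⟨p, hp, k⟩ := ar0 n h h1
  simp only [ck, Bool.and_eq_true, beq_iff_eq, List.all_eq_true, List.mem_range, Bool.or_eq_true,
    bne_iff_ne] at k
  refine ⟨p, ?_, Nat.dvd_of_mod_eq_zero k.1, fun a a1 m m1 e k1 d d1 k2 k3 k4 k5 k6 => ?_⟩
  · simp only [List.mem_cons, List.not_mem_nil, or_false] at hp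
    rcases hp with rfl | rfl | rfl | rfl | rfl | rfl | rfl | rfl | rfl | rfl | rfl | rfl | rfl |
      rfl | rfl | rfl | rfl <;> norm_num
  · rcases k.2 a a1 m m1 with (z | z) | z
    · exact z e
    · exact k1 (Nat.dvd_of_mod_eq_zero z)
    · rcases z d d1 with (((y | y) | y) | y) | y
      · exact y (Nat.mod_eq_zero_of_dvd k2)
      · exact y k3
      · exact k4 y
      · exact k5 y.1 y.2
      · exact y (Nat.mod_eq_zero_of_dvd k6)

theorem simple {G : Type} [Group G] [Finite G] [IsSimpleGroup G] (h : Nat.card G < 60) :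
    Group.IsSolvable G := by
  by_contra c
  obtain ⟨p, hp, h1, k⟩ := ar _ h Finite.one_lt_card
  obtain ⟨d, a, m, e, k1, k2, k3, k4, k5, k6⟩ := key c p hp h1
  have pos : 0 < Nat.card G := Nat.card_pos
  have m1 : m < 60 := lt_of_le_of_lt (Nat.le_of_dvd pos (e ▸ Dvd.intro_left _ rfl)) h
  have m0 : 0 < m := Nat.pos_of_ne_zero fun z => k1 (z ▸ dvd_zero p)
  have a1 : a < 6 := by
    by_contra z
    have : 2 ^ 6 ≤ p ^ a := (Nat.pow_le_pow_left hp.two_le 6).trans
      (Nat.pow_le_pow_right hp.pos (not_lt.1 z))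
    have : p ^ a ≤ Nat.card G := Nat.le_of_dvd pos (e ▸ Dvd.intro _ rfl)
    omega
  exact k a a1 m m1 e k1 d (lt_of_le_of_lt (Nat.le_of_dvd m0 k2) m1) k2 k3 k4 k6 k5

theorem aux : ∀ (n : ℕ) (G : Type) [Group G] [Finite G], Nat.card G = n → n < 60 →
    Group.IsSolvable G := by
  intro n
  induction n using Nat.strong_induction_on with
  | _ n ih =>
    intro G _ _ e h
    rcases subsingleton_or_nontrivial G with s | s
    · infer_instance
    by_cases c : ∀ N : Subgroup G, N.Normal → N = ⊥ ∨ N = ⊤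
    · haveI : IsSimpleGroup G := ⟨c⟩
      exact simple (e ▸ h)
    push Not at c
    obtain ⟨N, hN, n1, n2⟩ := c
    have k := Subgroup.card_mul_index N
    have p1 : 1 < Nat.card N := (Subgroup.one_lt_card_iff_ne_bot N).2 n1
    have p2 : 1 < N.index := Subgroup.one_lt_index_of_ne_top n2
    have l1 : Nat.card N < n := by nlinarith
    have l2 : N.index < n := by nlinarith
    haveI := ih _ l1 N rfl (l1.trans h)
    haveI := ih _ l2 (G ⧸ N) rfl (l2.trans h)
    exact solvable_of_ker_le_range N.subtype (QuotientGroup.mk' N) (by simp)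

/-- **a group which is not solvable has at least sixty elements** -/
theorem sixty (G : Type) [Group G] [Finite G] (h : ¬ Group.IsSolvable G) : 60 ≤ Nat.card G :=
  not_lt.1 fun c => h (aux _ G rfl c)

end Vale.Agent.P022U.H27
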