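import Vale.Agent.P022U.Defs
import Vale.Agent.P022U.SixtyH27
import Vale.Agent.P022T.T0H57

/-!
# P022U: the theorem for a finite extension from the rows
-/

set_option linter.all false

open NumberField

noncomputable section

namespace Vale.Agent.P022U.H23

open Vale.Agent.P022T

theorem u0C (hT0 : T0) (hTH : TH) (hDF : DF) (hWL : WL) (hTM : TM) (hCE : CE) (hDB : DB) (hNU : NU)
    (hP' : GP) (hFB : FB) (hCN : CN) (hNC : NC) (hT3 : T3) (hGC : GC) : U0 := by
  intro K _ _ _ k _ _ ι hι hu h3
  by_contra hs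
  have h6 := H27.sixty (Ga K) hs
  obtain ⟨m, hm⟩ : Even (Nat.card (Ga K)) := by
    by_contra c
    refine hs (hT0 K k ι hι fun P hP h0 h2 s h => ?_)
    by_cases h4 : (3 : 𝓞 K) ∈ P
    · refine orderOf_eq_one_iff.1 (Nat.eq_one_of_dvd_coprimes
        ((Nat.coprime_two_left).2 (Nat.not_even_iff_odd.1 c)) ?_ (orderOf_dvd_natCard s))
      exact orderOf_dvd_of_pow_eq_one (by rw [pow_two, h3 P hP h4 s h])
    · exact hu P hP h0 h2 h4 s h
  have en : Nat.card (Ga K) = Module.finrank ℚ K := IsGalois.card_aut_eq_finrank ℚ K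
  rw [en] at h6 hm
  have a := (hNU m (by omega)).trans_le (hDB K m (by omega) (by omega))
  have a' : 48 ^ m < (discr K).natAbs := by exact_mod_cast a
  have b : (discr K).natAbs ^ 2 ≤ 48 ^ Module.finrank ℚ K := hGC K fun P hP h0 => by
    obtain ⟨θ, a1, a2⟩ := hTH K P hP h0
    obtain ⟨b1, b2⟩ := hDF K P hP h0 θ a1 a2
    refine (Nat.mul_le_mul_left _ b2).trans ?_
    by_cases h2 : (2 : 𝓞 K) ∈ P
    · have key : ∑ s ∈ I1 P, w P (s • θ - θ) ≤ 2 * w P 2 := by
        rcases hTM K P hP h0 h2 k ι hι θ a1 b1 with h | h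
        · obtain ⟨φ, hφ⟩ := hFB K P hP h0 h2
          by_cases c : ∀ s : Ga K, In P s → φ * s = s * φ → s = 1
          · exact hNC K P hP h0 h2 θ a1 b1 h φ hφ c
          · push Not at c
            obtain ⟨s, c1, c2, c3⟩ := c
            have inv : ∀ t : Ga K, In P t → t⁻¹ = t := fun t ht =>
              inv_eq_of_mul_eq_one_right (h t ht)
            have d := hCN K P hP h0 h2 θ b1 h φ hφ fun t ht =>
              hP' (Ga K) k ι hι s φ t c3 (h s c1) c2 (by
                have := inv _ ((H57.IG P).mul_mem ht c1)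
                rw [mul_inv_rev, inv s c1, inv t ht] at this
                exact this.symm)
            have e := hWL K P hP h0 h2 θ a1 b1 h
            refine Nat.le_of_mul_le_mul_left (c := 2 * ((I1 P).card + 1)) (e.trans ?_) (by omega)
            rw [← mul_assoc]
            exact Nat.mul_le_mul_right _ (by omega)
        · have c : ∑ s ∈ I1 P, w P (s • θ - θ) ≤ (I1 P).card := by
            simpa using Finset.sum_le_card_nsmul _ _ 1 h
          have d := c.trans (hCE K P hP h0 h2)
          omega
      omega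
    · by_cases h4 : (3 : 𝓞 K) ∈ P
      · have := hT3 K P hP h0 h4 θ a1 b1 (h3 P hP h4)
        omega
      · have e : I1 P = ∅ := by
          refine Finset.eq_empty_of_forall_notMem fun s hs => ?_
          simp only [I1, Finset.mem_filter, Finset.mem_univ, true_and] at hs
          exact hs.2 (hu P hP h0 h2 h4 s hs.1)
        simp [e]
  rw [hm, pow_add, ← pow_two] at b
  exact absurd (Nat.pow_lt_pow_left a' two_ne_zero) (not_lt.2 b)

end Vale.Agent.P022U.H23
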