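import Vale.Agent.P022T.TateH92
import Vale.Agent.P022U.U0H23
import Vale.Agent.P022U.DbH74
import Vale.Agent.P022U.Nu
import Vale.Agent.P022U.GpH8
import Vale.Agent.P022U.Fb
import Vale.Agent.P022U.Cn
import Vale.Agent.P022U.NcH72
import Vale.Agent.P022U.T3H56
import Vale.Agent.P022U.Gc
import Vale.Agent.P022U.Lv3H87

/-!
P022U: residual representations unramified outside six, with inertia at three acting by
involutions, have solvable image.
-/

set_option linter.all false

noncomputable section

namespace Vale.Agent.P022U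

open Vale.Agent.P022T

theorem u0 : U0 :=
  H23.u0C
    (H45.t0C H57.thC (dfC valC) (H83.wlC valC (H88.co valC)) H65.tmC ce gtC mkC gbC)
    H57.thC (dfC valC) (H83.wlC valC (H88.co valC)) H65.tmC ce H74.dbC nuC H8.gpC fbC
    (Cn.cnC valC) (H72.ncC valC (H88.co valC)) H56T.t3C gcC

theorem lv3 : LV3 := H87.lv3C u0

end Vale.Agent.P022U
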