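import Vale.Agent.P022U.Defs

/-! # The bound of Blichfeldt for lattices and for discriminants -/

set_option linter.all false

open MeasureTheory Module Real Finset

noncomputable section

namespace Vale.Agent.P022U.H22

section lat
variable {E : Type*} [NormedAddCommGroup E] [InnerProductSpace ℝ E]

theorem pack {ι : Type*} (s : Finset ι) (v : ι → E) {μ : ℝ} (hμ : 0 < μ)
    (h : ∀ a ∈ s, ∀ b ∈ s, a ≠ b → μ ≤ ‖v a - v b‖ ^ 2) :
    ∑ a ∈ s, (1 - 2 / μ * ‖v a‖ ^ 2) ≤ 1 := by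
  classical
  rcases s.eq_empty_or_nonempty with rfl | hs
  · simp
  have m0 : (0 : ℝ) < s.card := by exact_mod_cast hs.card_pos
  have h1 : ∀ a ∈ s, ((s.card : ℝ) - 1) * μ ≤ ∑ b ∈ s, ‖v a - v b‖ ^ 2 := fun a ha => by
    rw [← Finset.sum_erase_add _ _ ha, sub_self, norm_zero, sq, mul_zero, add_zero]
    have := Finset.card_nsmul_le_sum (s.erase a) (fun b => ‖v a - v b‖ ^ 2) μ fun b hb =>
      h a ha b (mem_of_mem_erase hb) (ne_of_mem_erase hb).symm
    rw [card_erase_of_mem ha, nsmul_eq_mul, Nat.cast_sub hs.card_pos, Nat.cast_one] at this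
    exact this
  have h2 := Finset.card_nsmul_le_sum s _ _ h1
  have h3 : ∑ a ∈ s, ∑ b ∈ s, ‖v a - v b‖ ^ 2 =
      2 * s.card * ∑ a ∈ s, ‖v a‖ ^ 2 - 2 * ‖∑ a ∈ s, v a‖ ^ 2 := by
    simp only [norm_sub_sq_real, sum_add_distrib, sum_sub_distrib, sum_const, nsmul_eq_mul,
      ← mul_sum]
    rw [← real_inner_self_eq_norm_sq (∑ a ∈ s, v a), sum_inner]
    simp only [inner_sum]
    ring
  rw [h3, nsmul_eq_mul] at h2
  have h4 : ((s.card : ℝ) - 1) * μ ≤ 2 * ∑ a ∈ s, ‖v a‖ ^ 2 := by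
    refine le_of_mul_le_mul_left ?_ m0
    nlinarith [sq_nonneg ‖∑ a ∈ s, v a‖]
  rw [sum_sub_distrib, sum_const, nsmul_eq_mul, mul_one, ← mul_sum]
  have h5 : (s.card : ℝ) - 1 ≤ 2 / μ * ∑ a ∈ s, ‖v a‖ ^ 2 := by
    rw [div_mul_eq_mul_div, le_div_iff₀ hμ]
    exact h4
  linarith

theorem rad (n : ℕ) {R : ℝ} (hR : 0 < R) :
    ∫ y in Set.Ioi (0 : ℝ), y ^ n • max 0 (1 - y ^ 2 / R ^ 2) =
      R ^ (n + 1) * (2 / ((n + 1) * (n + 3))) := by
  rw [setIntegral_eq_of_subset_of_forall_sdiff_eq_zero measurableSet_Ioi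
    (show Set.Ioc (0 : ℝ) R ⊆ Set.Ioi 0 from Set.Ioc_subset_Ioi_self) fun y hy => by
      have h1 : R < y := by
        by_contra c
        exact hy.2 ⟨hy.1, not_lt.1 c⟩
      have h2 : 1 - y ^ 2 / R ^ 2 ≤ 0 := by
        rw [sub_nonpos, one_le_div (by positivity)]
        nlinarith
      rw [max_eq_left h2, smul_zero]]
  rw [setIntegral_congr_fun measurableSet_Ioc (g := fun y => y ^ n - y ^ (n + 2) / R ^ 2)
    fun y hy => by
      have h2 : 0 ≤ 1 - y ^ 2 / R ^ 2 := by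
        rw [sub_nonneg, div_le_one (by positivity)]
        nlinarith [hy.1, hy.2]
      show y ^ n • max 0 (1 - y ^ 2 / R ^ 2) = y ^ n - y ^ (n + 2) / R ^ 2
      rw [max_eq_right h2, smul_eq_mul]
      ring]
  rw [← intervalIntegral.integral_of_le hR.le, intervalIntegral.integral_sub
    (by apply Continuous.intervalIntegrable; fun_prop)
    (by apply Continuous.intervalIntegrable; fun_prop), intervalIntegral.integral_div,
    integral_pow, integral_pow]
  push_cast
  field_simp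
  ring

variable [FiniteDimensional ℝ E] [MeasurableSpace E] [BorelSpace E] [Nontrivial E]

theorem bl (L : Submodule ℤ E) [DiscreteTopology L] [IsZLattice ℝ L] {R : ℝ} (hR : 0 < R)
    (hL : ∀ x ∈ L, x ≠ 0 → 2 * R ^ 2 ≤ ‖x‖ ^ 2) :
    (volume (Metric.ball (0 : E) 1)).toReal * R ^ finrank ℝ E * 2 ≤
      (finrank ℝ E + 2) * ZLattice.covolume L volume := by
  classical
  have hF := ZLattice.isAddFundamentalDomain (Free.chooseBasis ℤ L) (volume : Measure E)
  rw [ZLattice.covolume_eq_measure_fundamentalDomain L volume hF]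
  obtain ⟨F, hFe⟩ : ∃ F, F = ZSpan.fundamentalDomain
    ((Free.chooseBasis ℤ L).ofZLatticeBasis ℝ) := ⟨_, rfl⟩
  have fin : volume F ≠ ⊤ := by
    rw [hFe]
    exact (ZSpan.fundamentalDomain_isBounded _).measure_lt_top.ne
  rw [← hFe] at hF ⊢
  have : MeasurableVAdd L E := (inferInstance : MeasurableVAdd L.toAddSubgroup E)
  have : VAddInvariantMeasure L E volume :=
    (inferInstance : VAddInvariantMeasure L.toAddSubgroup E volume)
  have : Countable L := inferInstance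
  obtain ⟨μ, hμ, hR2⟩ : ∃ μ : ℝ, 0 < μ ∧ R ^ 2 = μ / 2 := ⟨2 * R ^ 2, by positivity, by ring⟩
  rw [show 2 * R ^ 2 = μ by linarith] at hL
  let φ : ℝ → ℝ := fun y => max 0 (1 - y ^ 2 / R ^ 2)
  have cφ : Continuous fun x : E => φ ‖x‖ := by
    unfold φ
    fun_prop
  have up : ∫⁻ x : E, ENNReal.ofReal (φ ‖x‖) ≤ volume F := by
    rw [hF.lintegral_eq_tsum'', ← lintegral_tsum (f := fun (g : L) (x : E) => ENNReal.ofReal (φ ‖g +ᵥ x‖)) fun g =>
      (ENNReal.measurable_ofReal.comp (cφ.measurable.comp (measurable_const_vadd g))).aemeasurable]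
    refine (lintegral_mono (g := fun _ => 1) fun x => ?_).trans (by simp)
    rw [ENNReal.tsum_eq_iSup_sum]
    refine iSup_le fun t => ?_
    rw [← ENNReal.ofReal_sum_of_nonneg fun _ _ => le_max_left _ _, ENNReal.ofReal_le_one]
    have e : ∑ g ∈ t, φ ‖g +ᵥ x‖ = ∑ g ∈ t.filter (fun g : L => 0 ≤ 1 - ‖(g : E) + x‖ ^ 2 / R ^ 2),
        (1 - 2 / μ * ‖(g : E) + x‖ ^ 2) := by
      rw [sum_filter]
      refine sum_congr rfl fun g _ => ?_
      show max 0 (1 - ‖(g : E) + x‖ ^ 2 / R ^ 2) = _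
      split_ifs with c
      · rw [max_eq_right c, hR2]
        field_simp
      · exact max_eq_left (not_le.1 c).le
    refine e.le.trans (pack _ (fun g : L => (g : E) + x) hμ fun a _ b _ hab => ?_)
    rw [add_sub_add_right_eq_sub]
    exact hL _ (L.sub_mem a.2 b.2) (sub_ne_zero.2 fun c => hab (Subtype.ext c))
  have int : Integrable (fun x : E => φ ‖x‖) := cφ.integrable_of_hasCompactSupport
    (HasCompactSupport.intro (isCompact_closedBall (0 : E) R) fun x hx => by
      have h1 : R < ‖x‖ := by simpa using hx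
      have h2 : 1 - ‖x‖ ^ 2 / R ^ 2 ≤ 0 := by
        rw [sub_nonpos, one_le_div (by positivity)]
        nlinarith
      exact max_eq_left h2)
  rw [← ofReal_integral_eq_lintegral_ofReal int (Filter.Eventually.of_forall fun x =>
    le_max_left _ _), ENNReal.ofReal_le_iff_le_toReal fin, integral_fun_norm_addHaar volume φ] at up
  obtain ⟨j, hj⟩ : ∃ j, finrank ℝ E = j + 1 :=
    ⟨finrank ℝ E - 1, by have := finrank_pos (R := ℝ) (M := E); omega⟩
  rw [hj, Nat.add_sub_cancel, rad _ hR, nsmul_eq_mul, smul_eq_mul] at up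
  rw [hj]
  refine le_trans (le_of_eq ?_) (mul_le_mul_of_nonneg_left up (by positivity))
  rw [Measure.real]
  push_cast
  field_simp
  ring

end lat

theorem blC : BL := fun E _ _ _ _ _ _ L _ _ _ h0 h => bl L h0 h

end Vale.Agent.P022U.H22
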