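import Vale.Agent.P022U.Defs

/-!
# P022U: the bound of Blichfeldt for the discriminant
-/

set_option linter.all false

open MeasureTheory Module Set NumberField NumberField.InfinitePlace

noncomputable section

namespace Vale.Agent.P022U.H93

variable {E : Type} [NormedAddCommGroup E] [InnerProductSpace ℝ E]

theorem pts {ι : Type} (s : Finset ι) (y : ι → E) {R : ℝ} (hR : 0 < R)
    (h : ∀ i ∈ s, ∀ j ∈ s, i ≠ j → 2 * R ^ 2 ≤ ‖y i - y j‖ ^ 2) :
    ∑ i ∈ s, (1 - ‖y i‖ ^ 2 / R ^ 2) ≤ 1 := by
  classical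
  rcases s.eq_empty_or_nonempty with rfl | hs
  · simp
  have m : (0 : ℝ) < s.card := by exact_mod_cast hs.card_pos
  have e1 : ∑ i ∈ s, ∑ j ∈ s, ‖y i - y j‖ ^ 2 =
      2 * s.card * ∑ i ∈ s, ‖y i‖ ^ 2 - 2 * ‖∑ i ∈ s, y i‖ ^ 2 := by
    simp only [norm_sub_sq_real, Finset.sum_add_distrib, Finset.sum_sub_distrib, Finset.sum_const,
      nsmul_eq_mul, ← Finset.mul_sum, ← inner_sum, ← sum_inner, real_inner_self_eq_norm_sq]
    ring
  have e2 : ∑ i ∈ s, ((s.card : ℝ) - 1) * (2 * R ^ 2) ≤ ∑ i ∈ s, ∑ j ∈ s, ‖y i - y j‖ ^ 2 :=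
    Finset.sum_le_sum fun i hi => by
      rw [← Finset.sum_erase s (a := i) (by simp), ← Finset.cast_card_erase_of_mem hi,
        ← nsmul_eq_mul]
      exact Finset.card_nsmul_le_sum _ _ _ fun j hj =>
        h i hi j (Finset.mem_of_mem_erase hj) (Finset.ne_of_mem_erase hj).symm
  rw [e1, Finset.sum_const, nsmul_eq_mul] at e2
  rw [Finset.sum_sub_distrib, Finset.sum_const, nsmul_eq_mul, mul_one, ← Finset.sum_div,
    sub_le_comm, le_div_iff₀ (by positivity)]
  have := sq_nonneg ‖∑ i ∈ s, y i‖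
  refine le_of_mul_le_mul_left ?_ m
  nlinarith

theorem rad {R : ℝ} (hR : 0 < R) (n : ℕ) :
    ∫ y in Ioi (0 : ℝ), y ^ n • max (1 - y ^ 2 / R ^ 2) 0 =
      R ^ (n + 1) * (2 / ((n + 1) * (n + 3))) := by
  rw [setIntegral_congr_fun measurableSet_Ioi
    (g := (Iic R).indicator fun y => y ^ n - y ^ (n + 2) / R ^ 2) fun y hy => ?_,
    setIntegral_indicator measurableSet_Iic, Ioi_inter_Iic, ← intervalIntegral.integral_of_le hR.le,
    intervalIntegral.integral_sub (by apply Continuous.intervalIntegrable; fun_prop)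
      (by apply Continuous.intervalIntegrable; fun_prop), intervalIntegral.integral_div,
    integral_pow, integral_pow]
  · push_cast
    field_simp
    ring
  · have h0 : 0 < y := hy
    by_cases c : y ≤ R
    · rw [indicator_of_mem (mem_Iic.2 c), max_eq_left, smul_eq_mul]
      · ring
      · rw [sub_nonneg, div_le_one (by positivity)]
        exact pow_le_pow_left₀ h0.le c 2
    · rw [indicator_of_notMem (mem_Iic.not.2 c), max_eq_right, smul_zero]
      rw [sub_nonpos, one_le_div (by positivity)]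
      exact pow_le_pow_left₀ hR.le (not_le.1 c).le 2

/-- **the bound of Blichfeldt** -/
theorem blC : BL := by
  intro E _ _ _ _ _ _ L _ _ R hR h
  classical
  obtain ⟨k, hk⟩ : ∃ k, finrank ℝ E = k + 1 := ⟨_, (Nat.succ_pred_eq_of_pos finrank_pos).symm⟩
  have F := ZLattice.isAddFundamentalDomain (Free.chooseBasis ℤ L) (volume : Measure E)
  haveI : MeasurableVAdd L E := (inferInstance : MeasurableVAdd L.toAddSubgroup E)
  haveI : VAddInvariantMeasure L E volume :=
    (inferInstance : VAddInvariantMeasure L.toAddSubgroup E volume)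
  have hc : Continuous fun x : E => max (1 - ‖x‖ ^ 2 / R ^ 2) 0 := by fun_prop
  have e1 := integral_fun_norm_addHaar (volume : Measure E) fun y => max (1 - y ^ 2 / R ^ 2) 0
  rw [integral_eq_lintegral_of_nonneg_ae (f := fun x : E => max (1 - ‖x‖ ^ 2 / R ^ 2) 0)
    (.of_forall fun x => le_max_right _ _) hc.aestronglyMeasurable, hk, rad hR,
    measureReal_def] at e1
  have e2 : ∫⁻ x : E, ENNReal.ofReal (max (1 - ‖x‖ ^ 2 / R ^ 2) 0) ≤
      volume (ZSpan.fundamentalDomain ((Free.chooseBasis ℤ L).ofZLatticeBasis ℝ)) := by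
    rw [F.lintegral_eq_tsum'', ← lintegral_tsum
      (f := fun (l : L) (x : E) => ENNReal.ofReal (max (1 - ‖l +ᵥ x‖ ^ 2 / R ^ 2) 0)) fun l =>
      (hc.measurable.comp (measurable_const_add (l : E))).ennreal_ofReal.aemeasurable,
      ← setLIntegral_one]
    refine lintegral_mono fun x => ?_
    rw [ENNReal.tsum_eq_iSup_sum]
    refine iSup_le fun s => ?_
    rw [← ENNReal.ofReal_sum_of_nonneg fun _ _ => le_max_right _ _, ENNReal.ofReal_le_one]
    refine le_trans (le_of_eq ?_) (pts (s.filter fun l : L => 0 ≤ 1 - ‖l +ᵥ x‖ ^ 2 / R ^ 2)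
      (fun l : L => l +ᵥ x) hR fun i _ j _ hij => ?_)
    · rw [Finset.sum_filter]
      exact Finset.sum_congr rfl fun l _ => by rw [max_def']
    · have := h _ (i - j).2 fun c => hij (sub_eq_zero.1 (Subtype.ext c))
      change _ ≤ ‖((i : E) + x) - (j + x)‖ ^ 2
      rwa [add_sub_add_right_eq_sub]
  have e3 := ENNReal.toReal_mono
    (Bornology.IsBounded.measure_lt_top (ZSpan.fundamentalDomain_isBounded _)).ne e2
  rw [ZLattice.covolume_eq_measure_fundamentalDomain L volume F, measureReal_def, hk]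
  refine le_trans (le_of_eq ?_) (mul_le_mul_of_nonneg_left e3 (by positivity))
  rw [e1, Nat.add_sub_cancel, nsmul_eq_mul, smul_eq_mul]
  push_cast
  field_simp
  ring

open NumberField.mixedEmbedding in
/-- the number field form -/
theorem dbC : DB := by
  intro K _ _ k k1 hk
  classical
  have k0 : (0 : ℝ) < k := by exact_mod_cast k1
  have cv : ZLattice.covolume (euclidean.integerLattice K) =
      2⁻¹ ^ nrComplexPlaces K * √|discr K| :=
    (ZLattice.covolume_comap _ _ _ (euclidean.volumePreserving_toMixed K)).trans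
      (covolume_integerLattice K)
  have nm : ∀ x ∈ euclidean.integerLattice K, x ≠ 0 →
      ∃ a : 𝓞 K, a ≠ 0 ∧ ‖x‖ ^ 2 = ∑ w : InfinitePlace K, w a ^ 2 := by
    rintro x ⟨a, ha⟩ hx
    have ha' : mixedEmbedding K (a : K) = euclidean.toMixed K x := ha
    refine ⟨a, fun c => hx ((euclidean.toMixed K).injective ?_), ?_⟩
    · rw [← ha', c]
      simp
    · rw [WithLp.prod_norm_sq_eq_of_L2, EuclideanSpace.norm_sq_eq, EuclideanSpace.norm_sq_eq,
        sum_eq_sum_add_sum]
      refine congrArg₂ (· + ·) (Finset.sum_congr rfl fun w _ => ?_)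
        (Finset.sum_congr rfl fun w _ => ?_)
      · rw [← normAtPlace_apply, normAtPlace_apply_of_isReal w.2, ha']
        rfl
      · rw [← normAtPlace_apply, normAtPlace_apply_of_isComplex w.2, ha']
        rfl
  set c : ℝ := Real.exp (-(nrComplexPlaces K * Real.log 2) / k) with hc
  have c0 : 0 < c := Real.exp_pos _
  have c1 : c ^ k = 2⁻¹ ^ nrComplexPlaces K := by
    rw [hc, ← Real.exp_nat_mul, mul_div_cancel₀ _ k0.ne', Real.exp_neg, Real.exp_nat_mul,
      Real.exp_log two_pos, inv_pow]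
  have sm : ∑ w : InfinitePlace K, (w.mult : ℝ) = 2 * k := by
    exact_mod_cast (sum_mult_eq (K := K)).trans hk
  have sl : ∑ w : InfinitePlace K, (w.mult : ℝ) * Real.log w.mult =
      nrComplexPlaces K * (2 * Real.log 2) := by
    rw [sum_eq_sum_add_sum, Finset.sum_eq_zero fun w _ => by
      rw [mult, if_pos w.2, Nat.cast_one, Real.log_one, mul_zero], zero_add,
      Finset.sum_congr rfl fun w _ => by
        rw [mult, if_neg (not_isReal_iff_isComplex.2 w.2), Nat.cast_ofNat],
      Finset.sum_const, nsmul_eq_mul, Finset.card_univ]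
  have am : ∀ a : 𝓞 K, a ≠ 0 → 2 * (k * c) ≤ ∑ w : InfinitePlace K, w a ^ 2 := by
    intro a ha
    have p : ∀ w : InfinitePlace K, 0 < w a := fun w => pos_iff.2 (by exact_mod_cast ha)
    have h1 : (1 : ℝ) ≤ ∏ w : InfinitePlace K, w a ^ w.mult := by
      rw [prod_eq_abs_norm, ← Algebra.coe_norm_int]
      exact_mod_cast Int.one_le_abs (Algebra.norm_ne_zero_iff.2 ha)
    have h3 := Real.log_nonneg h1
    rw [Real.log_prod fun w _ => (pow_pos (p w) _).ne'] at h3
    simp only [Real.log_pow] at h3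
    have h4 : ∑ w : InfinitePlace K, ((w.mult : ℝ) * (1 - Real.log c) +
        2 * (w.mult * Real.log (w a)) - w.mult * Real.log w.mult) ≤
        ∑ w : InfinitePlace K, w a ^ 2 / c := Finset.sum_le_sum fun w _ => by
      have m : (0 : ℝ) < w.mult := by exact_mod_cast mult_pos
      have h5 := Real.log_le_sub_one_of_pos (div_pos (div_pos (pow_pos (p w) 2) c0) m)
      rw [Real.log_div (div_pos (pow_pos (p w) 2) c0).ne' m.ne',
        Real.log_div (pow_pos (p w) 2).ne' c0.ne', Real.log_pow, le_sub_iff_add_le,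
        le_div_iff₀ m] at h5
      push_cast at h5
      linarith
    rw [Finset.sum_sub_distrib, Finset.sum_add_distrib, ← Finset.sum_mul, ← Finset.mul_sum, sm, sl,
      ← Finset.sum_div, le_div_iff₀ c0] at h4
    have h6 : 2 * k * (1 - Real.log c) = 2 * k + nrComplexPlaces K * (2 * Real.log 2) := by
      rw [hc, Real.log_exp]
      field_simp
      ring
    rw [h6] at h4
    nlinarith
  have hk' := (euclidean.finrank K).trans hk
  have b := blC _ (euclidean.integerLattice K) √(k * c) (by positivity) fun x h1 h2 => by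
    obtain ⟨a, ha, e⟩ := nm x h1 h2
    rw [e, Real.sq_sqrt (by positivity)]
    exact am a ha
  rw [cv, InnerProductSpace.volume_ball_of_dim_even hk', hk', pow_mul, pow_mul,
    Real.sq_sqrt (by positivity), ENNReal.ofReal_one, one_pow, one_pow, one_mul,
    ENNReal.toReal_ofReal (by positivity), mul_pow, c1] at b
  rw [Nat.cast_natAbs, ← Real.le_sqrt (by positivity) (by positivity), Nat.factorial_succ,
    div_le_iff₀ (by positivity)]
  have f0 : (0 : ℝ) < k.factorial := by positivity
  refine le_of_mul_le_mul_left ?_ (show (0 : ℝ) < 2⁻¹ ^ nrComplexPlaces K * 2 / k.factorial by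
    positivity)
  refine le_trans (le_of_eq ?_) (b.trans (le_of_eq ?_))
  · rw [mul_pow]
    ring
  · push_cast
    field_simp

end Vale.Agent.P022U.H93
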