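import Vale.Agent.P022U.Defs
import Vale.Agent.P022T.WlH28
import Vale.Agent.P022T.Ce

/-!
# P022U: the abelian case
-/

set_option linter.all false

open NumberField

noncomputable section

namespace Vale.Agent.P022U.H28

open Vale.Agent.P022T Vale.Agent.P022T.H28

variable {K : Type} [Field K] [NumberField K] [IsGalois ℚ K] {P : Ideal (𝓞 K)}
  (hV : VAL) (hP : P.IsPrime) (h0 : P ≠ ⊥) (h2 : (2 : 𝓞 K) ∈ P)

theorem sq_inv {χ : H P →* ℤˣ} {y : 𝓞 K} (h : Eg χ y) {z : 𝓞 K} (k : Eg χ z) (s : H P) :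
    (s : Ga K) • (y * z) = y * z := by
  rw [(h.mul k).2, MonoidHom.mul_apply, Units.val_mul, Int.cast_mul, H28.sq, one_mul]

theorem Eg.pow {χ : H P →* ℤˣ} {y : 𝓞 K} (h : Eg χ y) {m : ℕ} (hm : Odd m) : Eg χ (y ^ m) :=
  ⟨pow_ne_zero _ h.1, fun s => by
    rw [smul_pow', h.2, mul_pow]
    rcases Int.units_eq_one_or (χ s) with e | e <;> simp [e, hm.neg_one_pow]⟩

include hV hP h0 h2

theorem up {x : 𝓞 K} (h : ∀ s : H P, (s : Ga K) • x = x) (j : ℕ) (hx : x ∈ P ^ (j * w P 2 + 1)) :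
    x ∈ P ^ ((j + 1) * w P 2) := by
  by_cases c : x = 0
  · rw [c]; exact zero_mem _
  obtain ⟨m, hm⟩ := inv hP h0 c h
  rw [show Nat.card (H P) = w P 2 from Ce.card_eq P hP h2] at hm
  rw [← (hV K P hP h0).2.1 _ _ c, hm, mul_comm (w P 2)] at hx ⊢
  exact Nat.mul_le_mul_right _ (Nat.lt_of_mul_lt_mul_right hx)

theorem up1 {x : 𝓞 K} (h : ∀ s : H P, (s : Ga K) • x = x) (hx : x - 1 ∈ P) :
    x - 1 ∈ P ^ w P 2 := by
  simpa using up hV hP h0 h2 (x := x - 1) (fun s => by rw [smul_sub, h, smul_one]) 0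
    (by simpa using hx)

theorem two : (2 : 𝓞 K) ∈ P ^ w P 2 := ((hV K P hP h0).2.1 _ _ two_ne_zero).1 le_rfl

theorem canc {z : 𝓞 K} (h : 2 * z ∈ P ^ (w P 2 + 1)) : z ∈ P := by
  by_cases c : z = 0
  · rw [c]; exact zero_mem _
  rw [← (hV K P hP h0).2.1 _ _ (mul_ne_zero two_ne_zero c), (hV K P hP h0).1 _ _ two_ne_zero c] at h
  rw [← pow_one P, ← (hV K P hP h0).2.1 _ _ c]
  omega

theorem spl {x : 𝓞 K} (h : x ∈ P ^ w P 2) : ∃ c z, c ∉ P ∧ c * x = 2 * z := by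
  by_cases c : x = 0
  · exact ⟨1, 0, (Ideal.ne_top_iff_one P).1 hP.ne_top, by simp [c]⟩
  exact (hV K P hP h0).2.2.2 x 2 c two_ne_zero (((hV K P hP h0).2.1 _ _ c).2 h)

omit hV hP h0 h2 in
theorem mm {a b : 𝓞 K} {n : ℕ} (ha : a ∈ P ^ n) (hb : b ∈ P) : a * b ∈ P ^ (n + 1) := by
  rw [pow_succ]; exact Ideal.mul_mem_mul ha hb

theorem clA {χ : H P →* ℤˣ} {y : 𝓞 K} (h : Eg χ y) (h1 : y - 1 ∈ P) (hχ : χ ≠ 1) :
    y * y - 1 ∉ P ^ (w P 2 + 1) := fun k => by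
  obtain ⟨v1, v2, -, -⟩ := hV K P hP h0
  obtain ⟨s, hs⟩ : ∃ s, χ s = -1 := by
    by_contra c
    exact hχ (MonoidHom.ext fun s => (Int.units_eq_one_or _).resolve_right fun e => c ⟨s, e⟩)
  have k2 := up hV hP h0 h2 (x := y * y - 1) (fun s => by rw [smul_sub, sq_inv h h, smul_one]) 1
    (by rwa [one_mul])
  have k3 : y - 1 ∈ P ^ w P 2 := by
    by_contra c
    have n1 : y - 1 ≠ 0 := fun e => c (e ▸ zero_mem _)
    have n2 : w P (y - 1) + 1 ≤ w P 2 := not_le.1 (mt (v2 _ _ n1).1 c)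
    have n3 : y + 1 ∉ P ^ (w P (y - 1) + 1) := fun e => by
      have := sub_mem e (Ideal.pow_le_pow_right n2 (two hV hP h0 h2))
      rw [show y + 1 - 2 = y - 1 by ring, ← v2 _ _ n1] at this
      omega
    have n4 : y + 1 ≠ 0 := fun e => n3 (e ▸ zero_mem _)
    rw [← v2 _ _ n4] at n3
    rw [show y * y - 1 = (y - 1) * (y + 1) by ring, ← v2 _ _ (mul_ne_zero n1 n4), v1 _ _ n1 n4] at k2
    omega
  obtain ⟨c, z, c1, c2⟩ := spl hV hP h0 h2 k3
  have c3 := congrArg ((s : Ga K) • ·) c2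
  have t : (s : Ga K) • (2 : 𝓞 K) = 2 := map_ofNat (MulSemiringAction.toRingHom (Ga K) (𝓞 K) s) 2
  simp only [smul_mul', smul_sub, smul_one, h.2, hs, t, Units.val_neg, Units.val_one, Int.cast_neg,
    Int.cast_one] at c3
  have c4 := sub_mem (mm k3 (s.2 c)) (mm (two hV hP h0 h2) (s.2 z))
  rw [show (y - 1) * ((s : Ga K) • c - c) - 2 * ((s : Ga K) • z - z) = 2 * ((s : Ga K) • c * y) by
    linear_combination c3 - c2] at c4
  rcases hP.mem_or_mem (canc hV hP h0 h2 c4) with e | e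
  · exact c1 (by simpa using sub_mem e (s.2 c))
  · exact hP.ne_top ((Ideal.eq_top_iff_one P).2 (by simpa using sub_mem e h1))

variable {φ : Ga K} (hφ : ∀ x : 𝓞 K, φ • x - x ^ 2 ∈ P) (hc : ∀ s : Ga K, In P s → φ * s = s * φ)
include hφ

omit hV h0 h2 in
theorem nrm {χ : H P →* ℤˣ} {y : 𝓞 K} (h : Eg χ y) (h1 : y ∉ P) : ∃ z, Eg χ z ∧ z - 1 ∈ P := by
  have k : ∀ (j : ℕ) (x : 𝓞 K), φ ^ j • x - x ^ 2 ^ j ∈ P := fun j => by
    induction j with
    | zero => simp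
    | succ j ih =>
      intro x
      have := add_mem (ih (φ • x)) (P.mem_of_dvd (sub_dvd_pow_sub_pow _ _ (2 ^ j)) (hφ x))
      rwa [sub_add_sub_cancel, ← mul_smul, ← pow_succ, ← pow_mul, ← pow_succ'] at this
  obtain ⟨m, hm⟩ : ∃ m, orderOf φ = m + 1 := Nat.exists_eq_succ_of_ne_zero (orderOf_pos φ).ne'
  have := k (orderOf φ) y
  obtain ⟨n, hn⟩ : ∃ n, 2 ^ m = n + 1 := Nat.exists_eq_succ_of_ne_zero (by positivity)
  rw [pow_orderOf_eq_one, one_smul, hm, pow_succ, hn, show y - y ^ ((n + 1) * 2) =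
    -y * (y ^ (2 * n + 1) - 1) by ring] at this
  exact ⟨_, Eg.pow h ⟨n, rfl⟩, (hP.mem_or_mem this).resolve_left fun e => h1 (neg_mem_iff.1 e)⟩

include hc

theorem clB {χ : H P →* ℤˣ} {y : 𝓞 K} (h : Eg χ y) (h1 : y - 1 ∈ P) (hχ : χ ≠ 1) :
    y * y + 1 ∈ P ^ (w P 2 + 1) := by
  have g : Eg χ (φ • y) := ⟨sm_ne h.1 _, fun s => by
    rw [← mul_smul, ← hc s s.2, mul_smul, h.2, sm_int]⟩
  have q : ∀ {a b : 𝓞 K}, a - 1 ∈ P → b - 1 ∈ P → a * b - 1 ∈ P := fun {a b} ha hb => by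
    have := add_mem (P.mul_mem_right b ha) hb
    rwa [show (a - 1) * b + (b - 1) = a * b - 1 by ring] at this
  have g1 : φ • y - 1 ∈ P := by
    have := add_mem (hφ y) (q h1 h1)
    rwa [pow_two, sub_add_sub_cancel] at this
  have a1 := up1 hV hP h0 h2 (sq_inv h h) (q h1 h1)
  have a2 := up1 hV hP h0 h2 (sq_inv h g) (q h1 g1)
  obtain ⟨c, z, c1, c2⟩ := spl hV hP h0 h2 a1
  have c3 := congrArg (φ • ·) c2
  have t : φ • (2 : 𝓞 K) = 2 := map_ofNat (MulSemiringAction.toRingHom (Ga K) (𝓞 K) φ) 2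
  simp only [smul_mul', smul_sub, smul_one, t] at c3
  have b2 := Ideal.mul_mem_left _ (c * φ • c)
    (sub_mem (mm a2 (add_mem (q h1 g1) h2)) (mm a1 (q g1 g1)))
  rw [show c * φ • c * ((y * φ • y - 1) * (y * φ • y - 1 + 2) - (y * y - 1) * (φ • y * φ • y - 1)) =
    2 * (φ • c * z + c * φ • z) by linear_combination (φ • c) * c2 + c * c3] at b2
  have b3 := sub_mem (sub_mem (canc hV hP h0 h2 b2) (P.mul_mem_right z (hφ c)))
    (P.mul_mem_left c (hφ z))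
  rw [show φ • c * z + c * φ • z - (φ • c - c ^ 2) * z - c * (φ • z - z ^ 2) = c * (z * (c + z)) by
    ring] at b3
  have cw : ∀ {x : 𝓞 K}, c * x ∈ P ^ (w P 2 + 1) → x ∈ P ^ (w P 2 + 1) := fun {x} hx =>
    (Ideal.IsPrime.mul_mem_pow P hx).resolve_left c1
  rcases hP.mem_or_mem ((hP.mem_or_mem b3).resolve_left c1) with e | e
  · exact absurd (cw (c2 ▸ mm (two hV hP h0 h2) e)) (clA hV hP h0 h2 h h1 hχ)
  · refine cw ?_
    rw [show c * (y * y + 1) = 2 * (c + z) by linear_combination c2]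
    exact mm (two hV hP h0 h2) e

omit hV hP h0 h2 hφ hc

theorem cn (hV : VAL) : CN := by
  classical
  intro K _ _ _ P hP h0 h2 θ hθ hs φ hφ hc
  have s2 : ∀ s : H P, s * s = 1 := fun s => Subtype.ext (hs s s.2)
  letI : CommGroup (H P) := { (inferInstance : Group (H P)) with
    mul_comm := fun a b => by
      rw [← inv_eq_of_mul_eq_one_right (s2 (a * b)), mul_inv_rev,
        inv_eq_of_mul_eq_one_right (s2 a), inv_eq_of_mul_eq_one_right (s2 b)] }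
  haveI : HasEnoughRootsOfUnity ℤ 2 := ⟨⟨-1, IsPrimitiveRoot.neg_one 0 (by norm_num)⟩, inferInstance⟩
  haveI : HasEnoughRootsOfUnity ℤ (Monoid.exponent (H P)) := HasEnoughRootsOfUnity.of_dvd ℤ
    (Monoid.exponent_dvd_of_forall_pow_eq_one fun s => (pow_two s).trans (s2 s) : _ ∣ 2)
  have hX := CommGroup.card_monoidHom_of_hasEnoughRootsOfUnity (H P) ℤ
  have ep : 0 < Nat.card (H P) := Nat.card_pos
  haveI : Finite (H P →* ℤˣ) := Nat.finite_of_card_ne_zero (hX ▸ ep.ne')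
  letI : Fintype (H P →* ℤˣ) := Fintype.ofFinite _
  rw [Nat.card_eq_fintype_card] at hX
  have e1 : (I1 P).card + 1 = Nat.card (H P) := Ce.card_I1 P
  set e := Nat.card (H P) with he
  let B : (H P →* ℤˣ) → Prop := fun χ => ¬ ∃ y, Eg χ y ∧ w P y = 0
  have ex : ∀ χ : H P →* ℤˣ, B χ → ∃ y, Eg χ y ∧ 2 * w P y = e := fun χ c => by
    obtain ⟨y, hy⟩ := ex_eg hθ χ
    obtain ⟨z, z1, z2⟩ := red hV hP h0 hy
    have z3 : w P z < e := z2 ▸ Nat.mod_lt _ ep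
    have z4 : w P z ≠ 0 := fun k => c ⟨z, z1, k⟩
    obtain ⟨m, hm⟩ := inv hP h0 (z1.mul z1).1 (sq_inv z1 z1)
    rw [(hV K P hP h0).1 _ _ z1.1 z1.1, ← he] at hm
    refine ⟨z, z1, ?_⟩
    rcases m with _ | _ | m
    · omega
    · omega
    · nlinarith
  have hB : 2 * (Finset.univ.filter B).card ≤ e := hX ▸ half B fun a b ha hb k => by
    obtain ⟨y, y1, a1⟩ := ex a ha
    obtain ⟨y', y2, b1⟩ := ex b hb
    obtain ⟨z, z1, z2⟩ := red hV hP h0 (y1.mul y2)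
    rw [(hV K P hP h0).1 _ _ y1.1 y2.1, show w P y + w P y' = e by omega, ← he, Nat.mod_self] at z2
    exact k ⟨z, z1, z2⟩
  have nz : ∀ χ, ¬ B χ → ∃ z, Eg χ z ∧ z - 1 ∈ P := fun χ c => by
    obtain ⟨y, y1, y2⟩ := not_not.1 c
    refine nrm hP hφ y1 fun k => ?_
    have := ((hV K P hP h0).2.1 y 1 y1.1).2 (by rwa [pow_one])
    omega
  have hA : ((Finset.univ.filter fun χ => ¬ B χ).erase 1).card ≤ 1 :=
    Finset.card_le_one.2 fun a ha b hb => by
      by_contra c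
      obtain ⟨a1, a2⟩ := Finset.mem_erase.1 ha
      obtain ⟨b1, b2⟩ := Finset.mem_erase.1 hb
      obtain ⟨y, y1, y2⟩ := nz a (Finset.mem_filter.1 a2).2
      obtain ⟨z, z1, z2⟩ := nz b (Finset.mem_filter.1 b2).2
      refine clA hV hP h0 h2 (y1.mul z1) ?_ (fun k => c (MonoidHom.ext fun s => ?_)) ?_
      · have := add_mem (P.mul_mem_right z y2) z2
        rwa [show (y - 1) * z + (z - 1) = y * z - 1 by ring] at this
      · have : a s * b s = 1 := DFunLike.congr_fun k s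
        rw [← mul_one (a s), ← Int.units_mul_self (b s), ← mul_assoc, this, one_mul]
      · have := sub_mem (Ideal.mul_mem_left _ (y * y) (clB hV hP h0 h2 hφ hc z1 z2 b1))
          (clB hV hP h0 h2 hφ hc y1 y2 a1)
        rwa [show y * y * (z * z + 1) - (y * y + 1) = y * z * (y * z) - 1 by ring] at this
  have k := Finset.card_filter_add_card_filter_not (s := (Finset.univ : Finset (H P →* ℤˣ))) B
  rw [Finset.card_univ, hX] at k
  have := Finset.pred_card_le_card_erase (s := Finset.univ.filter fun χ => ¬ B χ) (a := 1)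
  omega

end Vale.Agent.P022U.H28
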