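import Vale.Agent.P022U.Defs
import Vale.Agent.P022T.WlH28
import Vale.Agent.P022T.WlH23
import Vale.Agent.P022T.CeH67

/-!
# P022U, row CN
-/

set_option linter.all false

open NumberField

noncomputable section

namespace Vale.Agent.P022U.H36

open Vale.Agent.P022T Vale.Agent.P022T.H28

variable {K : Type} [Field K] [NumberField K] [IsGalois ℚ K] {P : Ideal (𝓞 K)}
  (hV : VAL) (hP : P.IsPrime) (h0 : P ≠ ⊥) (h2 : (2 : 𝓞 K) ∈ P)
include hV hP h0

theorem w0 {c : 𝓞 K} (hc : c ∉ P) : c ≠ 0 ∧ w P c = 0 := by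
  have c0 : c ≠ 0 := fun k => hc (k ▸ zero_mem _)
  have := mt ((hV K P hP h0).2.1 c 1 c0).1 (by rwa [pow_one])
  exact ⟨c0, by omega⟩

theorem can {c x : 𝓞 K} {n : ℕ} (hc : c ≠ 0) (h : c * x ∈ P ^ (w P c + n)) : x ∈ P ^ n := by
  by_cases hx : x = 0
  · exact hx ▸ zero_mem _
  obtain ⟨v1, v2, -, -⟩ := hV K P hP h0
  have := (v2 _ _ (mul_ne_zero hc hx)).2 h
  rw [v1 _ _ hc hx] at this
  exact (v2 _ _ hx).1 (by omega)

theorem can0 {c x : 𝓞 K} {n : ℕ} (hc : c ∉ P) (h : c * x ∈ P ^ n) : x ∈ P ^ n := by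
  obtain ⟨a, b⟩ := w0 hV hP h0 hc
  exact can hV hP h0 a (by rwa [b, zero_add])

theorem two_mem : (2 : 𝓞 K) ∈ P ^ w P 2 := ((hV K P hP h0).2.1 2 _ two_ne_zero).1 le_rfl

theorem dv2 {x : 𝓞 K} (hx : x ∈ P ^ w P 2) : ∃ c z, c ∉ P ∧ c * x = 2 * z := by
  by_cases h : x = 0
  · exact ⟨1, 0, fun k => hP.ne_top ((Ideal.eq_top_iff_one P).2 k), by simp [h]⟩
  obtain ⟨-, v2, -, v4⟩ := hV K P hP h0
  exact v4 x 2 h two_ne_zero ((v2 _ _ h).2 hx)

theorem up {a b : 𝓞 K} {n : ℕ} (ha : a ∈ P ^ n) (hb : b ∈ P) : a * b ∈ P ^ (n + 1) := by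
  rw [pow_succ]; exact Ideal.mul_mem_mul ha hb

include h2

theorem pos : 1 ≤ w P 2 := ((hV K P hP h0).2.1 2 1 two_ne_zero).2 (by rwa [pow_one])

theorem le1 : P ^ w P 2 ≤ P := Ideal.pow_le_self (by have := pos hV hP h0 h2; omega)

theorem jump {x : 𝓞 K} (h : ∀ s : H P, (s : Ga K) • x = x) (n : ℕ)
    (hx : x ∈ P ^ (n * w P 2 + 1)) : x ∈ P ^ ((n + 1) * w P 2) := by
  by_cases x0 : x = 0
  · exact x0 ▸ zero_mem _
  obtain ⟨-, v2, -, -⟩ := hV K P hP h0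
  obtain ⟨m, hm⟩ := inv hP h0 x0 h
  have he : Nat.card (H P) = w P 2 := H67.card_in P hP h2
  rw [he] at hm
  have a := (v2 _ _ x0).2 hx
  refine (v2 _ _ x0).1 ?_
  rw [hm] at a ⊢
  have : n < m := by
    by_contra c
    have := Nat.mul_le_mul_left (w P 2) (not_lt.1 c)
    rw [mul_comm n] at a
    omega
  rw [mul_comm]
  exact Nat.mul_le_mul_left _ this

omit hV hP h0 h2 in
theorem sq_inv {χ : H P →* ℤˣ} {y : 𝓞 K} (h : Eg χ y) (s : H P) :
    (s : Ga K) • (y * y - 1) = y * y - 1 := by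
  rw [smul_sub, smul_one, (h.mul h).2, MonoidHom.mul_apply, Units.val_mul, Int.cast_mul, H28.sq,
    one_mul]

theorem a_mem {χ : H P →* ℤˣ} {y : 𝓞 K} (h : Eg χ y) (h1 : y - 1 ∈ P) :
    y * y - 1 ∈ P ^ w P 2 := by
  have := jump hV hP h0 h2 (sq_inv h) 0 (by
    rw [zero_mul, zero_add, pow_one, show y * y - 1 = (y + 1) * (y - 1) by ring]
    exact P.mul_mem_left _ h1)
  rwa [zero_add, one_mul] at this

theorem k0 {χ : H P →* ℤˣ} {y : 𝓞 K} (h : Eg χ y) (h1 : y - 1 ∈ P)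
    (h3 : y * y - 1 ∈ P ^ (w P 2 + 1)) : χ = 1 := by
  obtain ⟨v1, v2, -, -⟩ := id (hV K P hP h0)
  have t := two_mem hV hP h0 (P := P)
  have a := jump hV hP h0 h2 (sq_inv h) 1 (by rwa [one_mul])
  have b : y - 1 ∈ P ^ w P 2 := by
    by_contra c
    have c' : y + 1 ∉ P ^ w P 2 := fun k => c (by
      rw [show y - 1 = y + 1 - 2 by ring]; exact sub_mem k t)
    have n1 : y - 1 ≠ 0 := fun k => c (k ▸ zero_mem _)
    have n2 : y + 1 ≠ 0 := fun k => c' (k ▸ zero_mem _)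
    rw [show y * y - 1 = (y + 1) * (y - 1) by ring] at a
    have d := (v2 _ _ (mul_ne_zero n2 n1)).2 a
    rw [v1 _ _ n2 n1] at d
    have d1 := mt (v2 _ _ n1).1 c
    have d2 := mt (v2 _ _ n2).1 c'
    omega
  have b' : y + 1 ∈ P ^ w P 2 := by
    rw [show y + 1 = y - 1 + 2 by ring]; exact add_mem b t
  obtain ⟨c, z, c1, c2⟩ := dv2 hV hP h0 b
  ext s
  by_contra k
  have k' : χ s = -1 := (Int.units_eq_one_or _).resolve_left fun e => k (by rw [e]; rfl)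
  have e := congrArg ((s : Ga K) • ·) c2
  have s2 : (s : Ga K) • (2 : 𝓞 K) = 2 :=
    map_ofNat (MulSemiringAction.toRingHom (Ga K) (𝓞 K) s) 2
  simp only [smul_mul', smul_sub, smul_one, h.2, k', s2, Units.val_neg, Units.val_one,
    Int.cast_neg, Int.cast_one] at e
  have m1 := up hV hP h0 b' (s.2 c)
  have m2 := up hV hP h0 t (s.2 z)
  have m3 : 2 * (c * y) ∈ P ^ (w P 2 + 1) := by
    have : 2 * (c * y) = -((y + 1) * ((s : Ga K) • c - c)) - 2 * ((s : Ga K) • z - z) := by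
      linear_combination c2 - e
    rw [this]
    exact sub_mem (neg_mem m1) m2
  have m4 := can hV hP h0 two_ne_zero m3
  rw [pow_one] at m4
  rcases hP.mem_or_mem m4 with q | q
  · exact c1 q
  · exact hP.ne_top ((Ideal.eq_top_iff_one P).2 (by simpa using sub_mem q h1))

theorem k1 {φ : Ga K} (hφ : ∀ x : 𝓞 K, φ • x - x ^ 2 ∈ P)
    (hc : ∀ s : Ga K, In P s → φ * s = s * φ) {χ : H P →* ℤˣ} (hχ : χ ≠ 1) {y : 𝓞 K}
    (h : Eg χ y) (h1 : y - 1 ∈ P) : y * y + 1 ∈ P ^ (w P 2 + 1) := by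
  have t := two_mem hV hP h0 (P := P)
  have l1 := le1 hV hP h0 h2
  have g : Eg χ (φ • y) := ⟨sm_ne h.1 _, fun s => by
    rw [← mul_smul, ← hc s s.2, mul_smul, h.2, sm_int]⟩
  have g1 : φ • y - 1 ∈ P := by
    rw [show φ • y - 1 = φ • y - y ^ 2 + (y + 1) * (y - 1) by ring]
    exact add_mem (hφ y) (P.mul_mem_left _ h1)
  have a := a_mem hV hP h0 h2 h h1
  have a' := a_mem hV hP h0 h2 g g1
  have u : y * φ • y - 1 ∈ P ^ w P 2 := by
    have := jump hV hP h0 h2 (x := y * φ • y - 1) (fun s => by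
      rw [smul_sub, smul_one, (h.mul g).2, MonoidHom.mul_apply, Units.val_mul, Int.cast_mul, H28.sq,
        one_mul]) 0 (by
      rw [zero_mul, zero_add, pow_one, show y * φ • y - 1 = y * (φ • y - 1) + (y - 1) by ring]
      exact add_mem (P.mul_mem_left _ g1) h1)
    rwa [zero_add, one_mul] at this
  have u2 := up hV hP h0 u (add_mem (l1 u) h2)
  have u3 := up hV hP h0 a (l1 a')
  obtain ⟨c, z, c1, c2⟩ := dv2 hV hP h0 a
  have e := congrArg (φ • ·) c2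
  have s2 : φ • (2 : 𝓞 K) = 2 := map_ofNat (MulSemiringAction.toRingHom (Ga K) (𝓞 K) φ) 2
  simp only [smul_mul', smul_sub, smul_one, s2] at e
  have m1 := up hV hP h0 a' (hφ c)
  have m2 := up hV hP h0 t (hφ z)
  have m3 : 2 * (z * (z + c)) ∈ P ^ (w P 2 + 1) := by
    have : 2 * (z * (z + c)) = c ^ 2 * ((y * φ • y - 1) * (y * φ • y - 1 + 2) -
        (y * y - 1) * (φ • y * φ • y - 1)) + (φ • y * φ • y - 1) * (φ • c - c ^ 2) -
        2 * (φ • z - z ^ 2) := by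
      linear_combination (-c) * c2 - e
    rw [this]
    exact sub_mem (add_mem (Ideal.mul_mem_left _ _ (sub_mem u2 u3)) m1) m2
  have m4 := can hV hP h0 two_ne_zero m3
  rw [pow_one] at m4
  rcases hP.mem_or_mem m4 with q | q
  · exact absurd (k0 hV hP h0 h2 h h1 (can0 hV hP h0 c1 (c2 ▸ up hV hP h0 t q))) hχ
  · refine can0 hV hP h0 c1 ?_
    rw [show c * (y * y + 1) = 2 * (z + c) by linear_combination c2]
    exact up hV hP h0 t q

theorem nrm {χ : H P →* ℤˣ} {y : 𝓞 K} (h : Eg χ y) (hy : y ∉ P) :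
    ∃ y', Eg χ y' ∧ y' - 1 ∈ P := by
  classical
  haveI := hP.isMaximal h0
  letI := Ideal.Quotient.field P
  haveI : Finite (𝓞 K ⧸ P) := Ring.HasFiniteQuotients.finiteQuotient h0
  letI := Fintype.ofFinite (𝓞 K ⧸ P)
  have ex : ∃ m, 0 < m ∧ y ^ m - 1 ∈ P :=
    ⟨Fintype.card (𝓞 K ⧸ P) - 1, Nat.sub_pos_of_lt Fintype.one_lt_card, by
      rw [← Ideal.Quotient.eq, map_pow, map_one]
      exact FiniteField.pow_card_sub_one_eq_one _ (mt Ideal.Quotient.eq_zero_iff_mem.1 hy)⟩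
  obtain ⟨m0, m1⟩ := Nat.find_spec ex
  rcases Nat.even_or_odd' (Nat.find ex) with ⟨j, e | e⟩
  · refine absurd ⟨by omega, ?_⟩ (Nat.find_min ex (m := j) (by omega))
    rw [e] at m1
    have : (y ^ j - 1) * (y ^ j - 1) ∈ P := by
      rw [show (y ^ j - 1) * (y ^ j - 1) = y ^ (2 * j) - 1 - 2 * (y ^ j - 1) by ring]
      exact sub_mem m1 (P.mul_mem_right _ h2)
    exact (hP.mem_or_mem this).elim id id
  · rw [e] at m1
    refine ⟨_, ⟨pow_ne_zero _ h.1, fun s => ?_⟩, m1⟩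
    rw [smul_pow', h.2, mul_pow, pow_succ, pow_mul, pow_two, H28.sq, one_pow, one_mul]

end Vale.Agent.P022U.H36

namespace Vale.Agent.P022U.H36

open Vale.Agent.P022T Vale.Agent.P022T.H28

theorem cnC (hV : VAL) : CN := by
  classical
  intro K _ _ _ P hP h0 h2 θ hθ hs φ hφ hc
  obtain ⟨hX, -⟩ := H23.dual (H P) fun s => Subtype.ext (hs s s.2)
  have ep : 0 < Nat.card (H P) := Nat.card_pos
  haveI : Finite (H P →* ℤˣ) := Nat.finite_of_card_ne_zero (hX ▸ ep.ne')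
  letI : Fintype (H P →* ℤˣ) := Fintype.ofFinite _
  rw [Nat.card_eq_fintype_card] at hX
  have he : Nat.card (H P) = w P 2 := H67.card_in P hP h2
  have e3 := H67.card_I1 P hP h2
  obtain ⟨v1, v2, -, -⟩ := id (hV K P hP h0)
  let B : (H P →* ℤˣ) → Prop := fun χ => ¬ ∃ y, Eg χ y ∧ w P y = 0
  have ex : ∀ χ : H P →* ℤˣ, B χ → ∃ y, Eg χ y ∧ 2 * w P y = Nat.card (H P) := fun χ c => by
    obtain ⟨y, hy⟩ := ex_eg hθ χ
    obtain ⟨z, z1, z2⟩ := red hV hP h0 hy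
    have z3 : w P z < Nat.card (H P) := z2 ▸ Nat.mod_lt _ ep
    have z4 : w P z ≠ 0 := fun k => c ⟨z, z1, k⟩
    obtain ⟨m, hm⟩ := inv hP h0 (z1.mul z1).1 fun s => by
      rw [(z1.mul z1).2, MonoidHom.mul_apply, Units.val_mul, Int.cast_mul, H28.sq, one_mul]
    rw [v1 _ _ z1.1 z1.1] at hm
    refine ⟨z, z1, ?_⟩
    rcases m with _ | _ | m
    · omega
    · omega
    · nlinarith
  have hB : 2 * (Finset.univ.filter B).card ≤ Fintype.card (H P →* ℤˣ) :=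
    half B fun a b ha hb k => by
      obtain ⟨x, x1, x2⟩ := ex a ha
      obtain ⟨y, y1, y2⟩ := ex b hb
      obtain ⟨z, z1, z2⟩ := red hV hP h0 (x1.mul y1)
      rw [v1 _ _ x1.1 y1.1, show w P x + w P y = Nat.card (H P) by omega, Nat.mod_self] at z2
      exact k ⟨z, z1, z2⟩
  have nb : ∀ χ, ¬ B χ → χ ≠ 1 → ∃ y, Eg χ y ∧ y - 1 ∈ P ∧ y * y + 1 ∈ P ^ (w P 2 + 1) :=
    fun χ c n => by
      obtain ⟨y, y1, y2⟩ := not_not.1 c
      obtain ⟨z, z1, z2⟩ := nrm hV hP h0 h2 y1 fun k => by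
        have := (v2 y 1 y1.1).2 (by rwa [pow_one])
        omega
      exact ⟨z, z1, z2, k1 hV hP h0 h2 hφ hc n z1 z2⟩
  have h1 : ((Finset.univ.filter fun χ => ¬ B χ).erase 1).card ≤ 1 := by
    refine Finset.card_le_one.2 fun a ha b hb => ?_
    rw [Finset.mem_erase, Finset.mem_filter] at ha hb
    obtain ⟨x, x1, x2, x3⟩ := nb a ha.2.2 ha.1
    obtain ⟨y, y1, y2, y3⟩ := nb b hb.2.2 hb.1
    have := k0 hV hP h0 h2 (x1.mul y1) (by
      rw [show x * y - 1 = x * (y - 1) + (x - 1) by ring]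
      exact add_mem (P.mul_mem_left _ y2) x2) (by
      rw [show x * y * (x * y) - 1 = y * y * (x * x + 1) - (y * y + 1) by ring]
      exact sub_mem (Ideal.mul_mem_left _ _ x3) y3)
    have bb : b * b = 1 := MonoidHom.ext fun s => Int.units_mul_self (b s)
    exact mul_right_cancel (this.trans bb.symm)
  have h3 := Finset.pred_card_le_card_erase (s := Finset.univ.filter fun χ => ¬ B χ) (a := 1)
  have h4 := Finset.card_filter_add_card_filter_not (s := (Finset.univ : Finset (H P →* ℤˣ))) B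
  rw [Finset.card_univ] at h4
  omega

end Vale.Agent.P022U.H36
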