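import Vale.Agent.P022U.Defs
import Vale.Agent.P022T.WlH28
import Vale.Agent.P022T.WlH23
import Vale.Agent.P022T.CeH67

/-!
# P022U, row CN
-/

set_option linter.all false

open NumberField

noncomputable section

namespace Vale.Agent.P022U.H63

open Vale.Agent.P022T Vale.Agent.P022T.H28

variable {K : Type} [Field K] [NumberField K] [IsGalois ℚ K] {P : Ideal (𝓞 K)}

theorem sm_pow {φ : Ga K} (h : ∀ x ∈ P, φ • x ∈ P) (n : ℕ) {x : 𝓞 K} (hx : x ∈ P ^ n) :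
    φ • x ∈ P ^ n := by
  have a : Ideal.map (MulSemiringAction.toRingHom (Ga K) (𝓞 K) φ) P ≤ P :=
    Ideal.map_le_iff_le_comap.2 fun y hy => h y hy
  have b := Ideal.mem_map_of_mem (MulSemiringAction.toRingHom (Ga K) (𝓞 K) φ) hx
  rw [Ideal.map_pow] at b
  exact Ideal.pow_right_mono a n b

theorem sm_two (s : Ga K) : s • (2 : 𝓞 K) = 2 :=
  map_ofNat (MulSemiringAction.toRingHom (Ga K) (𝓞 K) s) 2

theorem Eg_mul {χ ψ : H P →* ℤˣ} {y z : 𝓞 K} (h : Eg χ y) (k : Eg ψ z) : Eg (χ * ψ) (y * z) :=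
  ⟨mul_ne_zero h.1 k.1, fun s => by
    rw [smul_mul', h.2 s, k.2 s, MonoidHom.mul_apply, Units.val_mul, Int.cast_mul]
    ring⟩

theorem cc (χ : H P →* ℤˣ) : χ * χ = 1 := MonoidHom.ext fun s => Int.units_mul_self (χ s)

theorem Eg_inv {χ : H P →* ℤˣ} {y z : 𝓞 K} (h : Eg χ y) (k : Eg χ z) (s : H P) :
    (s : Ga K) • (y * z) = y * z := by
  have := (Eg_mul h k).2 s
  rw [cc] at this
  simpa using this

section
variable (hV : VAL) (hP : P.IsPrime) (h0 : P ≠ ⊥) (h2 : (2 : 𝓞 K) ∈ P)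
include hV hP h0 h2

theorem up {x : 𝓞 K} (h : ∀ s : H P, (s : Ga K) • x = x) (n : ℕ)
    (hx : x ∈ P ^ (n * w P 2 + 1)) : x ∈ P ^ ((n + 1) * w P 2) := by
  obtain ⟨v1, v2, v3, v4⟩ := hV K P hP h0
  by_cases c : x = 0
  · exact c ▸ zero_mem _
  obtain ⟨j, hj⟩ := inv hP h0 c h
  have e : Nat.card (H P) = w P 2 := H67.card_in P hP h2
  rw [e] at hj
  have a := (v2 x _ c).2 hx
  refine (v2 x _ c).1 ?_
  rw [hj] at a ⊢
  have : n < j := by
    by_contra k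
    have := Nat.mul_le_mul_left (w P 2) (not_lt.1 k)
    nlinarith
  nlinarith

theorem two_mem : (2 : 𝓞 K) ∈ P ^ w P 2 := ((hV K P hP h0).2.1 2 _ two_ne_zero).1 le_rfl

theorem half {a : 𝓞 K} (ha : a ∈ P ^ w P 2) : ∃ b, a - 2 * b ∈ P ^ (w P 2 + 1) := by
  obtain ⟨v1, v2, v3, v4⟩ := hV K P hP h0
  by_cases c : a = 0
  · exact ⟨0, by simp [c]⟩
  obtain ⟨d, z, d1, d2⟩ := v4 a 2 c two_ne_zero ((v2 a _ c).2 ha)
  obtain ⟨d', p, p1, p2⟩ := (hP.isMaximal h0).exists_inv d1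
  refine ⟨d' * z, ?_⟩
  have : a - 2 * (d' * z) = a * p := by linear_combination (-a) * p2 + d' * d2
  rw [this, pow_succ]
  exact Ideal.mul_mem_mul ha p1

theorem canc {c : 𝓞 K} (h : 2 * c ∈ P ^ (w P 2 + 1)) : c ∈ P := by
  obtain ⟨v1, v2, v3, v4⟩ := hV K P hP h0
  by_cases k : c = 0
  · exact k ▸ zero_mem _
  have a := (v2 _ _ (mul_ne_zero two_ne_zero k)).2 h
  rw [v1 _ _ two_ne_zero k] at a
  simpa using (v2 c 1 k).1 (by omega)

theorem triv {χ : H P →* ℤˣ} {y : 𝓞 K} (h : Eg χ y) (k : y * y - 1 ∈ P ^ (w P 2 + 1)) :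
    χ = 1 := by
  obtain ⟨v1, v2, v3, v4⟩ := hV K P hP h0
  have t := two_mem hV hP h0 h2
  have a := up hV hP h0 h2 (x := y * y - 1) (fun s => by rw [smul_sub, Eg_inv h h, smul_one]) 1
    (by rwa [one_mul])
  have b : y - 1 ∈ P ^ w P 2 := by
    by_contra c
    have c' : y + 1 ∉ P ^ w P 2 := fun z => c (by
      have := sub_mem z t
      rwa [show y + 1 - 2 = y - 1 by ring] at this)
    have n1 : y - 1 ≠ 0 := fun z => c (z ▸ zero_mem _)
    have n2 : y + 1 ≠ 0 := fun z => c' (z ▸ zero_mem _)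
    rw [show y * y - 1 = (y - 1) * (y + 1) by ring] at a
    have a1 := (v2 _ _ (mul_ne_zero n1 n2)).2 a
    have a2 := mt (v2 _ (w P 2) n1).1 c
    have a3 := mt (v2 _ (w P 2) n2).1 c'
    rw [v1 _ _ n1 n2] at a1
    omega
  obtain ⟨d, hd⟩ := half hV hP h0 h2 b
  refine MonoidHom.ext fun s => ?_
  by_contra c
  have c1 : χ s = -1 := (Int.units_eq_one_or _).resolve_left c
  have c2 : (s : Ga K) • y = -y := by rw [h.2 s, c1]; simp
  have c3 := sm_pow (φ := (s : Ga K)) (fun x hx => by simpa using add_mem (s.2 x) hx) _ hd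
  rw [smul_sub, smul_sub, smul_one, smul_mul', sm_two, c2] at c3
  have c4 := sub_mem hd c3
  rw [show y - 1 - 2 * d - (-y - 1 - 2 * (s : Ga K) • d) = 2 * (y + ((s : Ga K) • d - d)) by ring]
    at c4
  have c5 : y ∈ P := by simpa using sub_mem (canc hV hP h0 h2 c4) (s.2 d)
  have c6 := sub_mem (P.mul_mem_left y c5) (Ideal.pow_le_self (Nat.succ_ne_zero _) k)
  exact hP.ne_top ((Ideal.eq_top_iff_one _).2 (by simpa using c6))

theorem norm {φ : Ga K} (f1 : ∀ x : 𝓞 K, φ • x - x ^ 2 ∈ P) {χ : H P →* ℤˣ} {y : 𝓞 K}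
    (h : Eg χ y) (k : y ∉ P) : ∃ z, Eg χ z ∧ z - 1 ∈ P := by
  have a : ∀ n : ℕ, (φ ^ n) • y - y ^ (2 ^ n) ∈ P := fun n => by
    induction n with
    | zero => simp
    | succ n ih =>
      have := add_mem (f1 ((φ ^ n) • y)) (P.mul_mem_left ((φ ^ n) • y + y ^ (2 ^ n)) ih)
      rw [pow_succ', mul_smul, pow_succ 2, pow_mul]
      rwa [show φ • (φ ^ n) • y - ((φ ^ n) • y) ^ 2 + ((φ ^ n) • y + y ^ (2 ^ n)) *
        ((φ ^ n) • y - y ^ (2 ^ n)) = φ • (φ ^ n) • y - (y ^ (2 ^ n)) ^ 2 by ring] at this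
  obtain ⟨n, hn⟩ := Nat.exists_eq_succ_of_ne_zero (orderOf_pos φ).ne'
  obtain ⟨m, hm⟩ := Nat.exists_eq_succ_of_ne_zero (Nat.two_pow_pos n).ne'
  have b := a (orderOf φ)
  rw [pow_orderOf_eq_one, one_smul, hn, pow_succ, hm] at b
  have e : ∀ m : ℕ, Eg χ (y * (y * y) ^ m) := fun m =>
    ⟨mul_ne_zero h.1 (pow_ne_zero _ (mul_ne_zero h.1 h.1)), fun s => by
      rw [smul_mul', smul_pow', Eg_inv h h, h.2 s, mul_assoc]⟩
  refine ⟨_, e m, (hP.mem_or_mem (x := y) ?_).resolve_left k⟩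
  have := neg_mem b
  rwa [show -(y - y ^ (m.succ * 2)) = y * (y * (y * y) ^ m - 1) by
    rw [Nat.succ_eq_add_one]; ring] at this

theorem three {φ : Ga K} (f1 : ∀ x : 𝓞 K, φ • x - x ^ 2 ∈ P)
    (f2 : ∀ s : Ga K, In P s → φ * s = s * φ) {χ : H P →* ℤˣ} {y : 𝓞 K}
    (h : Eg χ y) (k : y - 1 ∈ P) (c : χ ≠ 1) : y * y + 1 ∈ P ^ (w P 2 + 1) := by
  have t := two_mem hV hP h0 h2
  have f3 : ∀ x ∈ P, φ • x ∈ P := fun x hx => by
    simpa using add_mem (f1 x) (P.pow_mem_of_mem hx 2 two_pos)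
  have g : Eg χ (φ • y) := ⟨sm_ne h.1 φ, fun s => by
    rw [← mul_smul, ← f2 s s.2, mul_smul, h.2 s, sm_int]⟩
  have k' : φ • y - 1 ∈ P := by simpa [smul_sub] using f3 _ k
  have u : ∀ a b, Eg χ a → Eg χ b → a - 1 ∈ P → b - 1 ∈ P → a * b - 1 ∈ P ^ w P 2 :=
    fun a b a1 b1 a2 b2 => by
      have := up hV hP h0 h2 (x := a * b - 1)
        (fun s => by rw [smul_sub, Eg_inv a1 b1, smul_one]) 0 (by
          have := add_mem (P.mul_mem_left b a2) b2
          rw [show b * (a - 1) + (b - 1) = a * b - 1 by ring] at this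
          simpa using this)
      simpa using this
  have a1 := u _ _ h h k k
  have a2 := u _ _ h g k k'
  have a3 := u _ _ g g k' k'
  have e1 : P ^ w P 2 ≤ P := Ideal.pow_le_self fun z => by
    have := ((hV K P hP h0).2.1 2 1 two_ne_zero).2 (by simpa using h2)
    omega
  obtain ⟨b, hb⟩ := half hV hP h0 h2 a1
  have b1 := sm_pow f3 _ hb
  rw [smul_sub, smul_sub, smul_one, smul_mul', smul_mul', sm_two] at b1
  have m : ∀ a b, a ∈ P ^ w P 2 → b ∈ P → a * b ∈ P ^ (w P 2 + 1) := fun a b a1 b1 => by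
    rw [pow_succ]
    exact Ideal.mul_mem_mul a1 b1
  have b2 := sub_mem (sub_mem (sub_mem (m _ _ a2 (add_mem (e1 a2) h2)) (m _ _ a1 (e1 a3))) hb) b1
  rw [show (y * φ • y - 1) * (y * φ • y - 1 + 2) - (y * y - 1) * (φ • y * φ • y - 1) -
    (y * y - 1 - 2 * b) - (φ • y * φ • y - 1 - 2 * φ • b) = 2 * (b + φ • b) by ring] at b2
  have b3 := sub_mem (canc hV hP h0 h2 b2) (f1 b)
  rw [show b + φ • b - (φ • b - b ^ 2) = b * (b + 1) by ring] at b3
  rcases hP.mem_or_mem b3 with z | z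
  · exact absurd (triv hV hP h0 h2 h (by simpa using add_mem hb (m _ _ t z))) c
  · have := add_mem hb (m _ _ t z)
    rwa [show y * y - 1 - 2 * b + 2 * (b + 1) = y * y + 1 by ring] at this

end

theorem cnC (hV : VAL) : CN := by
  classical
  intro K _ _ _ P hP h0 h2 θ hθ hs φ f1 f2
  obtain ⟨v1, v2, v3, v4⟩ := hV K P hP h0
  obtain ⟨d1, -⟩ := H23.dual (H P) fun s => Subtype.ext (hs s s.2)
  have fin : Finite (H P →* ℤˣ) := Nat.finite_of_card_ne_zero (d1 ▸ Nat.card_pos.ne')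
  letI : Fintype (H P →* ℤˣ) := Fintype.ofFinite _
  have e : Nat.card (H P) = w P 2 := H67.card_in P hP h2
  have e0 : 0 < Nat.card (H P) := Nat.card_pos
  let A : (H P →* ℤˣ) → Prop := fun χ => ∃ y, Eg χ y ∧ w P y = 0
  have a1 : ∀ χ, A χ → χ ≠ 1 → ∃ y, Eg χ y ∧ y * y + 1 ∈ P ^ (w P 2 + 1) := by
    rintro χ ⟨y, y1, y2⟩ c
    obtain ⟨z, z1, z2⟩ := norm hV hP h0 h2 f1 y1 fun k => by
      have := (v2 y 1 y1.1).2 (by simpa using k)
      omega
    exact ⟨z, z1, three hV hP h0 h2 f1 f2 z1 z2 c⟩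
  have a2 : ((Finset.univ.filter A).erase 1).card ≤ 1 := Finset.card_le_one.2 fun χ a ψ b => by
    obtain ⟨y, y1, y2⟩ := a1 χ (Finset.mem_filter.1 (Finset.mem_erase.1 a).2).2
      (Finset.mem_erase.1 a).1
    obtain ⟨z, z1, z2⟩ := a1 ψ (Finset.mem_filter.1 (Finset.mem_erase.1 b).2).2
      (Finset.mem_erase.1 b).1
    have := triv hV hP h0 h2 (Eg_mul y1 z1) (by
      have := sub_mem (Ideal.mul_mem_left _ (z * z) y2) z2
      rwa [show z * z * (y * y + 1) - (z * z + 1) = y * z * (y * z) - 1 by ring] at this)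
    rw [← mul_one χ, ← cc ψ, ← mul_assoc, this, one_mul]
  have a3 : ∀ χ, ¬ A χ → ∃ y, Eg χ y ∧ 2 * w P y = Nat.card (H P) := fun χ c => by
    obtain ⟨y, y1⟩ := ex_eg hθ χ
    obtain ⟨z, z1, z2⟩ := red hV hP h0 y1
    obtain ⟨j, hj⟩ := inv hP h0 (mul_ne_zero z1.1 z1.1) (Eg_inv z1 z1)
    rw [v1 _ _ z1.1 z1.1] at hj
    have l := Nat.mod_lt (w P y) e0
    have n : w P z ≠ 0 := fun k => c ⟨z, z1, k⟩
    refine ⟨z, z1, ?_⟩
    rcases j with _ | _ | j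
    · omega
    · omega
    · nlinarith
  have a4 : (Finset.univ.filter fun χ => ¬ A χ).card ≤ (Finset.univ.filter A).card := by
    rcases (Finset.univ.filter fun χ => ¬ A χ).eq_empty_or_nonempty with k | ⟨ψ, k⟩
    · rw [k]
      exact Nat.zero_le _
    obtain ⟨z, z1, z2⟩ := a3 ψ (Finset.mem_filter.1 k).2
    refine Finset.card_le_card_of_injOn (· * ψ) (fun χ a => ?_) fun a _ b _ c => mul_right_cancel c
    obtain ⟨y, y1, y2⟩ := a3 χ (Finset.mem_filter.1 (Finset.mem_coe.1 a)).2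
    obtain ⟨x, x1, x2⟩ := red hV hP h0 (Eg_mul y1 z1)
    refine Finset.mem_coe.2 (Finset.mem_filter.2 ⟨Finset.mem_univ _, x, x1, ?_⟩)
    rw [x2, v1 _ _ y1.1 z1.1, show w P y + w P z = Nat.card (H P) by omega, Nat.mod_self]
  have a5 := Finset.card_filter_add_card_filter_not (s := (Finset.univ : Finset (H P →* ℤˣ))) A
  rw [Finset.card_univ, ← Nat.card_eq_fintype_card, d1] at a5
  have a6 := Finset.pred_card_le_card_erase (s := Finset.univ.filter A) (a := 1)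
  have a7 := H67.card_I1 P hP h2
  omega

end Vale.Agent.P022U.H63
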