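import Vale.Agent.P022U.Defs
import Vale.Agent.P022T.WlH23
import Vale.Agent.P022T.WlH28
import Vale.Agent.P022T.CeH67

/-!
# P022U, row CN
-/

set_option linter.all false

open NumberField

noncomputable section

namespace Vale.Agent.P022U.H86

open Vale.Agent.P022T Vale.Agent.P022T.H28

variable {K : Type} [Field K] [NumberField K] [IsGalois ℚ K] {P : Ideal (𝓞 K)}

/-- divisible by `2 P` at `P` -/
def Q1 (P : Ideal (𝓞 K)) (x : 𝓞 K) : Prop := ∃ c z, c ∉ P ∧ z ∈ P ∧ c * x = 2 * z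

theorem odd_pow (hP : P.IsPrime) (h0 : P ≠ ⊥) (h2 : (2 : 𝓞 K) ∈ P) :
    ∃ n, Odd n ∧ ∀ y ∉ P, y ^ n - 1 ∈ P := by
  haveI := hP.isMaximal h0
  letI := Ideal.Quotient.field P
  haveI : Finite (𝓞 K ⧸ P) := Ideal.finiteQuotientOfFreeOfNeBot P h0
  letI := Fintype.ofFinite (𝓞 K ⧸ P)
  have c : ringChar (𝓞 K ⧸ P) = 2 := by
    refine CharP.ringChar_of_prime_eq_zero Nat.prime_two ?_
    have := Ideal.Quotient.eq_zero_iff_mem.2 h2
    rwa [map_ofNat] at this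
  have e := FiniteField.even_card_of_char_two c
  have p : 0 < Fintype.card (𝓞 K ⧸ P) := Fintype.card_pos
  refine ⟨Fintype.card (𝓞 K ⧸ P) - 1, Nat.odd_iff.2 (by omega), fun y hy => ?_⟩
  rw [← Ideal.Quotient.eq, map_pow, map_one]
  exact FiniteField.pow_card_sub_one_eq_one _ fun k => hy (Ideal.Quotient.eq_zero_iff_mem.1 k)

theorem eg_pow {χ : H P →* ℤˣ} {y : 𝓞 K} (h : Eg χ y) {n : ℕ} (hn : Odd n) : Eg χ (y ^ n) :=
  ⟨pow_ne_zero _ h.1, fun s => by
    rw [smul_pow', h.2, mul_pow, ← Int.cast_pow, ← Units.val_pow_eq_pow_val]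
    rcases Int.units_eq_one_or (χ s) with k | k <;> rw [k]
    · rw [one_pow]
    · rw [hn.neg_one_pow]⟩

theorem eg_sq {χ : H P →* ℤˣ} {y : 𝓞 K} (h : Eg χ y) (s : H P) :
    (s : Ga K) • (y * y) = y * y := by
  rw [smul_mul', h.2]
  linear_combination (y * y) * H28.sq (K := K) (χ s)

variable (hV : VAL) (hP : P.IsPrime) (h0 : P ≠ ⊥) (h2 : (2 : 𝓞 K) ∈ P)
include hP

theorem nm_out {c : 𝓞 K} (hc : c ∉ P) : Nm P c ∉ P ∧ c ∣ Nm P c := by
  refine ⟨fun k => ?_, ?_⟩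
  · obtain ⟨s, -, k⟩ := (Ideal.IsPrime.prod_mem_iff (hp := hP)).1 k
    exact hc (by simpa using P.sub_mem k (s.2 c))
  · simpa [Nm] using Finset.dvd_prod_of_mem (fun s : H P => (s : Ga K) • c) (Finset.mem_univ 1)

include hV h0 h2

theorem card_H : Nat.card (H P) = w P 2 := H67.card_in P hP h2

theorem inv2 {x : 𝓞 K} (hx : x ∈ P) (h : ∀ s : H P, (s : Ga K) • x = x) :
    ∃ c z, c ∉ P ∧ c * x = 2 * z := by
  obtain ⟨v1, v2, v3, v4⟩ := hV K P hP h0
  by_cases e : x = 0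
  · exact ⟨1, 0, (Ideal.ne_top_iff_one _).1 hP.ne_top, by rw [e, mul_zero, mul_zero]⟩
  have d := inv hP h0 e h
  rw [card_H hV hP h0 h2] at d
  exact v4 x 2 e two_ne_zero (Nat.le_of_dvd ((v2 x 1 e).2 (by simpa using hx)) d)

theorem tri (u : 𝓞 K) : (∃ c z, c ∉ P ∧ c * u = 2 * z) ∨ ∃ c t, c ∉ P ∧ t ∈ P ∧ c * 2 = u * t := by
  obtain ⟨v1, v2, v3, v4⟩ := hV K P hP h0
  by_cases e : u = 0
  · exact Or.inl ⟨1, 0, (Ideal.ne_top_iff_one _).1 hP.ne_top, by rw [e, mul_zero, mul_zero]⟩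
  by_cases l : w P 2 ≤ w P u
  · exact Or.inl (v4 u 2 e two_ne_zero l)
  obtain ⟨c, t, a, b⟩ := v4 2 u two_ne_zero e (by omega)
  have c0 : c ≠ 0 := fun k => a (k ▸ P.zero_mem)
  have t0 : t ≠ 0 := fun k => mul_ne_zero c0 two_ne_zero (by rw [b, k, mul_zero])
  have k := v1 c 2 c0 two_ne_zero
  rw [b, v1 u t e t0] at k
  exact Or.inr ⟨c, t, a, by simpa using (v2 t 1 t0).1 (by omega), b⟩

/-- the trivial character -/
theorem q_one {y : 𝓞 K} (h : Eg (1 : H P →* ℤˣ) y) (h1 : y - 1 ∈ P) : Q1 P (y * y - 1) := by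
  obtain ⟨c, z, a, b⟩ := inv2 hV hP h0 h2 h1 fun s => by
    rw [smul_sub, h.2, smul_one]; simp
  refine ⟨c, z * (y - 1 + 2), a, P.mul_mem_left _ (add_mem h1 h2), ?_⟩
  linear_combination (y + 1) * b

theorem one_of {χ : H P →* ℤˣ} {y : 𝓞 K} (h : Eg χ y) (h1 : y - 1 ∈ P)
    (q : Q1 P (y * y - 1)) : χ = 1 := by
  have o : (1 : 𝓞 K) ∉ P := (Ideal.ne_top_iff_one _).1 hP.ne_top
  obtain ⟨c, z, a, b, e⟩ := q
  obtain ⟨n1, c', n2⟩ := nm_out hP a
  have e1 : Nm P c * (y * y - 1) = 2 * (c' * z) := by rw [n2]; linear_combination c' * e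
  obtain ⟨d, t, d1, d2⟩ := inv2 hV hP h0 h2 (P.mul_mem_left c' b) fun s => by
    have k := congrArg ((s : Ga K) • ·) e1
    simp only [smul_mul' (s : Ga K) (Nm P c), nm_inv, smul_sub, eg_sq h s, smul_one] at k
    have k2 := sm_int (s : Ga K) 2 (c' * z)
    rw [Int.cast_ofNat] at k2
    rw [k2, e1] at k
    exact (mul_left_cancel₀ two_ne_zero k).symm
  have e2 : d * Nm P c * ((y - 1) * (y - 1 + 2)) = 4 * t := by
    linear_combination d * e1 + 2 * d2
  have dn : d * Nm P c ∉ P := fun k => (hP.mem_or_mem k).elim d1 n1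
  rcases tri hV hP h0 h2 (y - 1) with ⟨f, x, f1, f2⟩ | ⟨f, x, f1, f2, f3⟩
  · refine MonoidHom.ext fun s => (Int.units_eq_one_or (χ s)).resolve_right fun k => ?_
    have k1 := h.2 s
    rw [k] at k1
    have k2 := congrArg ((s : Ga K) • ·) f2
    have k3 := sm_int (s : Ga K) 2 x
    rw [Int.cast_ofNat] at k3
    simp only [smul_mul' (s : Ga K) f, smul_sub, smul_one, k1, k3] at k2
    have g1 : (s : Ga K) • f - f ∈ P := s.2 f
    have g2 : (s : Ga K) • x - x ∈ P := s.2 x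
    generalize (s : Ga K) • f = f' at k2 g1
    generalize (s : Ga K) • x = x' at k2 g2
    push_cast at k2
    have k4 : 2 * (f * f' * y) = 2 * (f' * x - f * x') := by
      linear_combination f' * f2 - f * k2
    have k5 := mul_left_cancel₀ two_ne_zero k4
    have k6 : f * f' * y ∈ P := by
      rw [k5, show f' * x - f * x' = (f' - f) * x - f * (x' - x) by ring]
      exact sub_mem (P.mul_mem_right _ g1) (P.mul_mem_left _ g2)
    rcases hP.mem_or_mem k6 with k7 | k7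
    · exact (hP.mem_or_mem k7).elim f1 fun k8 => f1 (by simpa using sub_mem k8 g1)
    · exact o (by simpa using sub_mem k7 h1)
  · exfalso
    have u0 : y - 1 ≠ 0 := fun k => mul_ne_zero (fun z : f = 0 => f1 (z ▸ P.zero_mem))
      two_ne_zero (by rw [f3, k, zero_mul])
    generalize y - 1 = u at e2 f3 u0
    have k : (u * u) * (d * Nm P c * (f * (f + x))) = (u * u) * (x * (x * t)) := by
      linear_combination (f * f) * e2 - (d * Nm P c * f * u) * f3 + (t * (f * 2 + u * x)) * f3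
    have k1 := mul_left_cancel₀ (mul_ne_zero u0 u0) k
    have k2 : d * Nm P c * (f * (f + x)) ∈ P := k1 ▸ P.mul_mem_right _ f2
    exact (hP.mem_or_mem k2).elim dn fun k3 => (hP.mem_or_mem k3).elim f1
      fun k4 => f1 (by simpa using sub_mem k4 f2)

variable {φ : Ga K} (hφ : ∀ x : 𝓞 K, φ • x - x ^ 2 ∈ P) (hc : ∀ s : Ga K, In P s → φ * s = s * φ)
include hφ hc

theorem q_ne {χ : H P →* ℤˣ} {y : 𝓞 K} (h : Eg χ y) (h1 : y - 1 ∈ P) (hχ : χ ≠ 1) :
    Q1 P (y * y + 1) := by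
  have fp : ∀ x ∈ P, φ • x ∈ P := fun x hx => by
    simpa using add_mem (hφ x) (P.pow_mem_of_mem hx 2 two_pos)
  have a0 : y * y - 1 ∈ P := by
    rw [show y * y - 1 = (y - 1) * (y + 1) by ring]
    exact P.mul_mem_right _ h1
  have h' : Eg χ (φ • y) := ⟨sm_ne h.1 φ, fun s => by
    rw [← mul_smul, ← hc s s.2, mul_smul, h.2, sm_int]⟩
  have h1' : φ • y - 1 ∈ P := by simpa [smul_sub] using fp _ h1
  have m := h.mul h'
  rw [show χ * χ = 1 from MonoidHom.ext fun s => Int.units_mul_self (χ s)] at m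
  obtain ⟨d, t, d1, d2, d3⟩ := q_one hV hP h0 h2 m (by
    rw [show y * φ • y - 1 = (y - 1) * φ • y + (φ • y - 1) by ring]
    exact add_mem (P.mul_mem_right _ h1) h1')
  obtain ⟨c, z, a, b⟩ := inv2 hV hP h0 h2 a0 fun s => by rw [smul_sub, eg_sq h s, smul_one]
  have z1 : z ∉ P := fun k => hχ (one_of hV hP h0 h2 h h1 ⟨c, z, a, k, b⟩)
  have b' := congrArg (φ • ·) b
  have k3 := sm_int φ 2 z
  rw [Int.cast_ofNat] at k3
  simp only [smul_mul' φ c, smul_sub, smul_one, smul_mul' φ y, k3] at b'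
  have g1 := hφ c
  have g2 := hφ z
  generalize φ • c = c' at b' g1
  generalize φ • z = z' at b' g2
  generalize φ • y = y' at b' d3
  have k4 : 2 * (d * (c' * z + c * z' + 2 * z * z')) = 2 * (c * c' * t) := by
    linear_combination (c * c') * d3 - d * (c' * (y' * y')) * b - d * (c + 2 * z) * b'
  have k5 := mul_left_cancel₀ two_ne_zero k4
  have k6 : c' * z + c * z' + 2 * z * z' ∈ P :=
    (hP.mem_or_mem (k5 ▸ P.mul_mem_left _ d2)).resolve_left d1
  have k7 : c * z * (c + z) ∈ P := by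
    rw [show c * z * (c + z) = c' * z + c * z' + 2 * z * z' - (c' - c ^ 2) * z - c * (z' - z ^ 2)
      - 2 * (z * z') by ring]
    exact sub_mem (sub_mem (sub_mem k6 (P.mul_mem_right _ g1)) (P.mul_mem_left _ g2))
      (P.mul_mem_right _ h2)
  refine ⟨c, c + z, a, (hP.mem_or_mem k7).resolve_left fun k => (hP.mem_or_mem k).elim a z1, ?_⟩
  linear_combination b

theorem uniq {χ ψ : H P →* ℤˣ} {y z : 𝓞 K} (h : Eg χ y) (k : Eg ψ z) (hy : y ∉ P) (hz : z ∉ P)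
    (hχ : χ ≠ 1) (hψ : ψ ≠ 1) : χ * ψ = 1 := by
  obtain ⟨n, n1, n2⟩ := odd_pow hP h0 h2
  have a := eg_pow h n1
  have b := eg_pow k n1
  have a1 := n2 y hy
  have b1 := n2 z hz
  generalize y ^ n = u at a a1
  generalize z ^ n = v at b b1
  obtain ⟨c, s, c1, c2, c3⟩ := q_ne hV hP h0 h2 hφ hc a a1 hχ
  obtain ⟨d, t, d1, d2, d3⟩ := q_ne hV hP h0 h2 hφ hc b b1 hψ
  refine one_of hV hP h0 h2 (a.mul b) (by
    rw [show u * v - 1 = (u - 1) * v + (v - 1) by ring]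
    exact add_mem (P.mul_mem_right _ a1) b1) ⟨c * d, d * (v * v) * s - c * t,
      fun e => (hP.mem_or_mem e).elim c1 d1,
      sub_mem (P.mul_mem_left _ c2) (P.mul_mem_left _ d2), ?_⟩
  linear_combination (d * (v * v)) * c3 - c * d3

end Vale.Agent.P022U.H86

namespace Vale.Agent.P022U.H86

open Vale.Agent.P022T Vale.Agent.P022T.H28

theorem cnt {X : Type} [CommGroup X] [Finite X] (h : ∀ a : X, a * a = 1) (T : X → Prop)
    (h1 : ∀ a b, T a → T b → a ≠ 1 → b ≠ 1 → a * b = 1) (h2 : ∀ a b, ¬ T a → ¬ T b → T (a * b)) :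
    Nat.card X ≤ 4 := by
  classical
  obtain ⟨a, ha⟩ : ∃ a : X, ∀ b, T b → b = 1 ∨ b = a := by
    by_cases c : ∃ a, T a ∧ a ≠ 1
    · obtain ⟨a, a1, a2⟩ := c
      refine ⟨a, fun b hb => or_iff_not_imp_left.2 fun e => ?_⟩
      have := h1 a b a1 hb a2 e
      rw [← h a] at this
      exact mul_left_cancel this
    · exact ⟨1, fun b hb => Or.inl (by_contra fun e => c ⟨b, hb, e⟩)⟩
  obtain ⟨p, hp⟩ : ∃ p : X, ∀ b, ¬ T b → T (b * p) := by
    by_cases c : ∃ p, ¬ T p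
    · obtain ⟨p, hp⟩ := c
      exact ⟨p, fun b hb => h2 b p hb hp⟩
    · exact ⟨1, fun b hb => absurd ⟨b, hb⟩ c⟩
  letI := Fintype.ofFinite X
  have s : (Finset.univ : Finset X) ⊆ {1, a, p, a * p} := fun b _ => by
    simp only [Finset.mem_insert, Finset.mem_singleton]
    by_cases c : T b
    · exact (ha b c).elim Or.inl fun e => Or.inr (Or.inl e)
    · have e : b = b * p * p := by rw [mul_assoc, h, mul_one]
      rcases ha _ (hp b c) with k | k
      · exact Or.inr (Or.inr (Or.inl (by rw [e, k, one_mul])))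
      · exact Or.inr (Or.inr (Or.inr (by rw [e, k])))
  rw [Nat.card_eq_fintype_card, ← Finset.card_univ]
  exact (Finset.card_le_card s).trans Finset.card_le_four

theorem cnC (hV : VAL) : CN := by
  intro K _ _ _ P hP h0 h2 θ hθ hs φ hφ hc
  obtain ⟨v1, v2, v3, v4⟩ := hV K P hP h0
  obtain ⟨d1, -⟩ := H23.dual (H P) fun s => Subtype.ext (hs s s.2)
  have cH := card_H hV hP h0 h2
  have p : 0 < Nat.card (H P) := Nat.card_pos
  haveI : Finite (H P →* ℤˣ) := Nat.finite_of_card_ne_zero (d1 ▸ p.ne')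
  have out : ∀ y, y ≠ 0 → (y ∉ P ↔ w P y = 0) := fun y hy => by
    have := v2 y 1 hy
    rw [pow_one] at this
    rw [← this]
    omega
  have hf : ∀ χ : H P →* ℤˣ, (¬ ∃ y, Eg χ y ∧ y ∉ P) →
      ∃ y, Eg χ y ∧ 2 * w P y = Nat.card (H P) := fun χ hχ => by
    obtain ⟨y, hy⟩ := ex_eg hθ χ
    obtain ⟨z, z1, z2⟩ := red hV hP h0 hy
    have l : w P z < Nat.card (H P) := z2 ▸ Nat.mod_lt _ p
    have n : w P z ≠ 0 := fun e => hχ ⟨z, z1, (out z z1.1).2 e⟩
    obtain ⟨m, hm⟩ := inv hP h0 (mul_ne_zero z1.1 z1.1) (eg_sq z1)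
    rw [v1 _ _ z1.1 z1.1] at hm
    refine ⟨z, z1, ?_⟩
    rcases m with _ | _ | m
    · omega
    · omega
    · nlinarith
  have k := cnt (X := H P →* ℤˣ) (fun χ => MonoidHom.ext fun s => Int.units_mul_self (χ s))
    (fun χ => ∃ y, Eg χ y ∧ y ∉ P)
    (fun χ ψ ⟨y, a, b⟩ ⟨z, c, d⟩ => uniq hV hP h0 h2 hφ hc a c b d) fun χ ψ a b => by
      obtain ⟨y, y1, y2⟩ := hf χ a
      obtain ⟨z, z1, z2⟩ := hf ψ b
      obtain ⟨u, u1, u2⟩ := red hV hP h0 (y1.mul z1)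
      refine ⟨u, u1, (out u u1.1).2 ?_⟩
      rw [u2, v1 _ _ y1.1 z1.1, show w P y + w P z = Nat.card (H P) by omega, Nat.mod_self]
  have := H67.card_I1 P hP h2
  omega

end Vale.Agent.P022U.H86
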