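import Vale.Agent.P022U.Defs

/-!
# P022U: the bound for the discriminant from the bound for lattices
-/

set_option linter.all false

open NumberField NumberField.InfinitePlace NumberField.mixedEmbedding MeasureTheory

noncomputable section

namespace Vale.Agent.P022U.H51

variable {K : Type} [Field K] [NumberField K]

open Classical in
theorem nsq (v : euclidean.mixedSpace K) (x : K) (h : euclidean.toMixed K v = mixedEmbedding K x) :
    ‖v‖ ^ 2 = ∑ w : InfinitePlace K, w x ^ 2 := by
  rw [WithLp.prod_norm_sq_eq_of_L2, EuclideanSpace.norm_sq_eq, EuclideanSpace.norm_sq_eq,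
    sum_eq_sum_add_sum]
  refine congrArg₂ (· + ·) (Finset.sum_congr rfl fun w _ => ?_) (Finset.sum_congr rfl fun w _ => ?_)
  · have e : v.fst w = (mixedEmbedding K x).1 w := by rw [← h]; rfl
    rw [e, mixedEmbedding_apply_isReal, norm_embedding_of_isReal]
  · have e : v.snd w = (mixedEmbedding K x).2 w := by rw [← h]; rfl
    rw [e, mixedEmbedding_apply_isComplex, norm_embedding_eq]

theorem pm : ∏ w : InfinitePlace K, (mult w : ℝ) ^ mult w = 4 ^ nrComplexPlaces K := by
  classical
  rw [prod_eq_prod_mul_prod]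
  simp only [mult_isReal, mult_isComplex, Nat.cast_one, one_pow, Finset.prod_const_one, one_mul,
    Finset.prod_const, Finset.card_univ, Nat.cast_ofNat]
  norm_num [nrComplexPlaces]

theorem amgm {x : 𝓞 K} (hx : x ≠ 0) :
    Module.finrank ℚ K * ((4 : ℝ)⁻¹ ^ nrComplexPlaces K) ^ ((Module.finrank ℚ K : ℝ)⁻¹) ≤
      ∑ w : InfinitePlace K, w x ^ 2 := by
  have n0 : (0 : ℝ) < Module.finrank ℚ K := Nat.cast_pos.2 Module.finrank_pos
  have m0 (w : InfinitePlace K) : (0 : ℝ) < mult w := Nat.cast_pos.2 mult_pos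
  have k := Real.geom_mean_le_arith_mean_weighted (Finset.univ : Finset (InfinitePlace K))
    (fun w => mult w * (Module.finrank ℚ K : ℝ)⁻¹) (fun w => w x ^ 2 / mult w)
    (fun w _ => by have := m0 w; positivity)
    (by rw [← Finset.sum_mul, ← Nat.cast_sum, sum_mult_eq, mul_inv_cancel₀ n0.ne'])
    (fun w _ => by have := m0 w; positivity)
  have e1 : ∑ w : InfinitePlace K, mult w * (Module.finrank ℚ K : ℝ)⁻¹ * (w x ^ 2 / mult w) =
      (Module.finrank ℚ K : ℝ)⁻¹ * ∑ w : InfinitePlace K, w x ^ 2 := by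
    rw [Finset.mul_sum]
    exact Finset.sum_congr rfl fun w _ => by have := m0 w; field_simp
  have e2 : ∏ w : InfinitePlace K, (w x ^ 2 / mult w) ^ (mult w * (Module.finrank ℚ K : ℝ)⁻¹) =
      (∏ w : InfinitePlace K, (w x ^ 2 / mult w) ^ mult w) ^ ((Module.finrank ℚ K : ℝ)⁻¹) := by
    rw [← Real.finset_prod_rpow _ _ (fun w _ => by have := m0 w; positivity)]
    exact Finset.prod_congr rfl fun w _ => by
      rw [Real.rpow_mul (by have := m0 w; positivity), Real.rpow_natCast]
  have h1 : (1 : ℝ) ≤ |Algebra.norm ℚ (x : K)| := by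
    rw [← Algebra.coe_norm_int, ← Int.cast_one, ← Int.cast_abs, Rat.cast_intCast, Int.cast_le]
    exact Int.one_le_abs (Algebra.norm_ne_zero_iff.2 hx)
  have e3 : (4 : ℝ)⁻¹ ^ nrComplexPlaces K ≤ ∏ w : InfinitePlace K, (w x ^ 2 / mult w) ^ mult w := by
    simp only [div_pow, ← pow_mul, mul_comm 2]
    simp only [pow_mul]
    rw [Finset.prod_div_distrib, Finset.prod_pow, pm, prod_eq_abs_norm, inv_pow, inv_eq_one_div]
    exact div_le_div_of_nonneg_right (one_le_pow₀ h1) (by positivity)
  rw [e1, e2] at k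
  have k2 := (Real.rpow_le_rpow (by positivity) e3 (inv_nonneg.2 n0.le)).trans k
  calc _ ≤ Module.finrank ℚ K * ((Module.finrank ℚ K : ℝ)⁻¹ * ∑ w : InfinitePlace K, w x ^ 2) :=
        mul_le_mul_of_nonneg_left k2 n0.le
    _ = _ := by rw [mul_inv_cancel_left₀ n0.ne']

/-- **row DB** -/
theorem dbC (hB : BL) : DB := by
  classical
  intro K _ _ k hk hn
  have k0 : (0 : ℝ) < k := Nat.cast_pos.2 hk
  obtain ⟨c, hc⟩ : ∃ c : ℝ, c = ((4 : ℝ)⁻¹ ^ nrComplexPlaces K) ^ ((Module.finrank ℚ K : ℝ)⁻¹) :=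
    ⟨_, rfl⟩
  have c0 : 0 < c := by rw [hc]; positivity
  have c1 : c ^ k = 2⁻¹ ^ nrComplexPlaces K := by
    refine (pow_left_inj₀ (by positivity) (by positivity) two_ne_zero).1 ?_
    rw [← pow_mul, mul_comm k, ← hn, hc, Real.rpow_inv_natCast_pow (by positivity)
      Module.finrank_pos.ne', ← pow_mul, mul_comm, pow_mul]
    norm_num
  have h := hB (euclidean.mixedSpace K) (euclidean.integerLattice K) (√(k * c)) (by positivity) (by
    rintro v ⟨x, hx⟩ hv
    have x0 : x ≠ 0 := fun e => hv ((euclidean.toMixed K).injective (by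
      rw [map_zero]; exact hx.symm.trans (by rw [e, map_zero])))
    rw [nsq v x hx.symm, Real.sq_sqrt (by positivity)]
    have := amgm x0
    rw [← hc, hn] at this
    push_cast at this
    linarith)
  have fr : Module.finrank ℝ (euclidean.mixedSpace K) = 2 * k := (euclidean.finrank K).trans hn
  rw [InnerProductSpace.volume_ball_of_dim_even fr, fr, euclidean.integerLattice,
    ZLattice.covolume_comap _ _ _ (euclidean.volumePreserving_toMixed K), covolume_integerLattice,
    pow_mul (√(k * c)), Real.sq_sqrt (by positivity), mul_pow, c1, ENNReal.ofReal_one, one_pow,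
    one_mul, ENNReal.toReal_ofReal (by positivity)] at h
  have t0 : (0 : ℝ) < 2⁻¹ ^ nrComplexPlaces K := by positivity
  have f0 : (0 : ℝ) < k.factorial := Nat.cast_pos.2 k.factorial_pos
  have h2 : (Real.pi * k) ^ k / (k + 1).factorial ≤ √|(discr K : ℝ)| := by
    rw [Nat.factorial_succ, mul_pow, div_le_iff₀ (by positivity)]
    push_cast at h ⊢
    rw [div_mul_eq_mul_div, div_mul_eq_mul_div, div_le_iff₀ f0] at h
    have := mul_le_mul_of_nonneg_left h (inv_nonneg.2 (mul_pos two_pos t0).le)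
    refine le_of_eq_of_le ?_ (this.trans_eq ?_)
    · field_simp
    · field_simp
  have h3 := pow_le_pow_left₀ (by positivity) h2 2
  rw [Real.sq_sqrt (abs_nonneg _)] at h3
  rwa [Nat.cast_natAbs, Int.cast_abs]

end Vale.Agent.P022U.H51
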