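import Vale.Agent.P022U.Defs

/-!
# P022U: the bound for the discriminant from the bound for lattices
-/

set_option linter.all false

open NumberField MeasureTheory NumberField.InfinitePlace NumberField.mixedEmbedding

noncomputable section

namespace Vale.Agent.P022U.H79

variable {K : Type} [Field K] [NumberField K]

open scoped Classical in
theorem nrm (v : euclidean.mixedSpace K) (x : K) (h : euclidean.toMixed K v = mixedEmbedding K x) :
    ‖v‖ ^ 2 = ∑ w : InfinitePlace K, w x ^ 2 := by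
  rw [WithLp.prod_norm_sq_eq_of_L2, EuclideanSpace.norm_sq_eq, EuclideanSpace.norm_sq_eq,
    sum_eq_sum_add_sum]
  refine congrArg₂ (· + ·) (Finset.sum_congr rfl fun w _ => ?_) (Finset.sum_congr rfl fun w _ => ?_)
  · rw [← normAtPlace_apply w.1 x, ← h, normAtPlace_apply_of_isReal w.2]
    rfl
  · rw [← normAtPlace_apply w.1 x, ← h, normAtPlace_apply_of_isComplex w.2]
    rfl

theorem amgm (x : 𝓞 K) (hx : x ≠ 0) :
    (Module.finrank ℚ K : ℝ) * ((1 / 4 : ℝ) ^ nrComplexPlaces K) ^ (Module.finrank ℚ K : ℝ)⁻¹ ≤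
      ∑ w : InfinitePlace K, w (x : K) ^ 2 := by
  classical
  have hs : ∑ w : InfinitePlace K, (mult w : ℝ) = Module.finrank ℚ K := by
    rw [← sum_mult_eq, Nat.cast_sum]
  have hn : (0 : ℝ) < Module.finrank ℚ K := Nat.cast_pos.2 Module.finrank_pos
  have hm : ∀ w : InfinitePlace K, (0 : ℝ) < mult w := fun w => Nat.cast_pos.2 mult_pos
  have h := Real.geom_mean_le_arith_mean Finset.univ (fun w : InfinitePlace K => (mult w : ℝ))
    (fun w => w (x : K) ^ 2 / mult w) (fun w _ => (hm w).le) (hs ▸ hn)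
    fun w _ => div_nonneg (sq_nonneg _) (hm w).le
  rw [hs, le_div_iff₀ hn, mul_comm, Finset.sum_congr rfl fun w _ => mul_div_cancel₀ _ (hm w).ne']
    at h
  refine le_trans (mul_le_mul_of_nonneg_left
    (Real.rpow_le_rpow (by positivity) ?_ (by positivity)) hn.le) h
  have e1 : ∏ w : InfinitePlace K, ((mult w : ℝ) ^ mult w)⁻¹ = (1 / 4 : ℝ) ^ nrComplexPlaces K := by
    rw [prod_eq_prod_mul_prod]
    simp only [mult_isReal, mult_isComplex, Finset.prod_const, Finset.card_univ]
    norm_num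
  have e2 : (1 : ℝ) ≤ ∏ w : InfinitePlace K, w (x : K) ^ mult w := by
    rw [prod_eq_abs_norm, ← Algebra.coe_norm_int, ← Int.cast_abs, Rat.cast_intCast]
    exact_mod_cast Int.one_le_abs (Algebra.norm_ne_zero_iff.2 hx)
  have e3 : ∏ w : InfinitePlace K, (w (x : K) ^ 2 / mult w) ^ (mult w : ℝ) =
      (∏ w : InfinitePlace K, w (x : K) ^ mult w) ^ 2 * (1 / 4 : ℝ) ^ nrComplexPlaces K := by
    rw [← e1, ← Finset.prod_pow, ← Finset.prod_mul_distrib]
    refine Finset.prod_congr rfl fun w _ => ?_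
    rw [Real.rpow_natCast, div_pow, ← pow_mul, ← pow_mul, mul_comm 2, div_eq_mul_inv]
  rw [e3]
  exact le_mul_of_one_le_left (by positivity) (one_le_pow₀ e2)

theorem dbC (hB : BL) : DB := by
  intro K _ _ k hk hn
  classical
  have k0 : (0 : ℝ) < k := Nat.cast_pos.2 hk
  obtain ⟨c, hc⟩ : ∃ c : ℝ, c = ((1 / 4 : ℝ) ^ nrComplexPlaces K) ^ (Module.finrank ℚ K : ℝ)⁻¹ :=
    ⟨_, rfl⟩
  have c0 : 0 < c := hc ▸ by positivity
  have c1 : c ^ k = (2⁻¹ : ℝ) ^ nrComplexPlaces K := by
    refine (sq_eq_sq₀ (by positivity) (by positivity)).1 ?_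
    rw [← pow_mul, mul_comm, ← hn, hc, Real.rpow_inv_natCast_pow (by positivity)
      Module.finrank_pos.ne', ← pow_mul, mul_comm, pow_mul]
    norm_num
  have r2 : √(k * c) ^ 2 = k * c := Real.sq_sqrt (by positivity)
  have h := hB (euclidean.mixedSpace K) (euclidean.integerLattice K) √(k * c) (by positivity)
    fun v hv h0 => by
      obtain ⟨x, hx⟩ : euclidean.toMixed K v ∈ mixedEmbedding.integerLattice K := hv
      have x0 : x ≠ 0 := fun e => h0 ((euclidean.toMixed K).injective (by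
        rw [← hx, e, map_zero, map_zero]))
      rw [nrm v (x : K) hx.symm, r2, ← mul_assoc]
      refine le_trans (le_of_eq ?_) (amgm x x0)
      rw [← hc, hn]
      push_cast
      rfl
  rw [InnerProductSpace.volume_ball_of_dim_even (k := k) ((euclidean.finrank K).trans hn),
    euclidean.finrank, hn, euclidean.integerLattice,
    ZLattice.covolume_comap _ _ _ (euclidean.volumePreserving_toMixed K), covolume_integerLattice,
    ENNReal.ofReal_one, one_pow, one_mul, ENNReal.toReal_ofReal (by positivity), pow_mul, r2,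
    mul_pow, c1] at h
  have d0 : (0 : ℝ) < (2⁻¹ : ℝ) ^ nrComplexPlaces K := by positivity
  have f0 : (0 : ℝ) < k.factorial := Nat.cast_pos.2 k.factorial_pos
  have h2 : (Real.pi * k) ^ k / (k + 1).factorial ≤ √|(discr K : ℝ)| := by
    rw [Nat.factorial_succ, div_le_iff₀ (by positivity), mul_pow]
    have h3 := mul_le_mul_of_nonneg_left h (div_nonneg f0.le (mul_pos two_pos d0).le)
    push_cast at h3 ⊢
    field_simp at h3
    nlinarith [h3]
  refine (pow_le_pow_left₀ (by positivity) h2 2).trans (le_of_eq ?_)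
  rw [Real.sq_sqrt (abs_nonneg _), Nat.cast_natAbs, Int.cast_abs]

end Vale.Agent.P022U.H79
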