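import Vale.Agent.P022T.Defs

/-!
# P022U: residual representations which are unramified outside six and tame at three (statements)
-/

set_option linter.all false

open NumberField MeasureTheory

noncomputable section

namespace Vale.Agent.P022U

open Vale.Agent.P022 Vale.Agent.P022T

/-- the bound of Blichfeldt for a lattice -/
def BL : Prop := ∀ (E : Type) [NormedAddCommGroup E] [InnerProductSpace ℝ E]
  [FiniteDimensional ℝ E] [MeasurableSpace E] [BorelSpace E] [Nontrivial E] (L : Submodule ℤ E)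
  [DiscreteTopology L] [IsZLattice ℝ L] (ρ : ℝ), 0 < ρ →
  (∀ v ∈ L, v ≠ 0 → 2 * ρ ^ 2 ≤ ‖v‖ ^ 2) →
  (volume (Metric.ball (0 : E) 1)).toReal * ρ ^ Module.finrank ℝ E * 2 ≤
    (Module.finrank ℝ E + 2) * ZLattice.covolume L volume

/-- the bound for the discriminant -/
def DB : Prop := ∀ (K : Type) [Field K] [NumberField K] (k : ℕ), 1 ≤ k →
  Module.finrank ℚ K = 2 * k →
  ((Real.pi * k) ^ k / (k + 1).factorial) ^ 2 ≤ ((discr K).natAbs : ℝ)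

/-- the numbers -/
def NU : Prop := ∀ k : ℕ, 30 ≤ k → (48 : ℝ) ^ k < ((Real.pi * k) ^ k / (k + 1).factorial) ^ 2

/-- the order of a group which is not solvable -/
def G60 : Prop := ∀ (G : Type) [Group G] [Finite G] (k : Type) [Field k] [CharP k 2]
  (ι : G →* GL (Fin 2) k), Function.Injective ι → ¬ Group.IsSolvable G →
  60 ≤ Nat.card G ∧ Even (Nat.card G)

/-- the centraliser of an involution is commutative -/
def GP : Prop := ∀ (G : Type) [Group G] (k : Type) [Field k] [CharP k 2]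
  (ι : G →* GL (Fin 2) k), Function.Injective ι → ∀ s a b : G, s ≠ 1 → s * s = 1 →
  a * s = s * a → b * s = s * b → a * b = b * a

/-- Frobenius elements -/
def FB : Prop := Al fun K _ _ _ P => (2 : 𝓞 K) ∈ P → ∃ φ : Ga K, ∀ x : 𝓞 K, φ • x - x ^ 2 ∈ P

/-- the abelian case -/
def CN : Prop := Al fun K _ _ _ P => (2 : 𝓞 K) ∈ P → ∀ θ : 𝓞 K,
  (∀ s : Ga K, s ≠ 1 → s • θ - θ ≠ 0) → (∀ s : Ga K, In P s → s * s = 1) →
  ∀ φ : Ga K, (∀ x : 𝓞 K, φ • x - x ^ 2 ∈ P) → (∀ s : Ga K, In P s → φ * s = s * φ) →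
  (I1 P).card ≤ 3

/-- the other case -/
def NC : Prop := Al fun K _ _ _ P => (2 : 𝓞 K) ∈ P → ∀ θ, Ap P θ →
  (∀ s : Ga K, s ≠ 1 → s • θ - θ ≠ 0) → (∀ s : Ga K, In P s → s * s = 1) →
  ∀ φ : Ga K, (∀ x : 𝓞 K, φ • x - x ^ 2 ∈ P) → (∀ s : Ga K, In P s → φ * s = s * φ → s = 1) →
  ∑ s ∈ I1 P, w P (s • θ - θ) ≤ 2 * w P 2

/-- the tame prime -/
def T3 : Prop := Al fun K _ _ _ P => (3 : 𝓞 K) ∈ P → ∀ θ, Ap P θ →
  (∀ s : Ga K, s ≠ 1 → s • θ - θ ≠ 0) → (∀ s : Ga K, In P s → s * s = 1) →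
  2 * ∑ s ∈ I1 P, w P (s • θ - θ) ≤ w P 3

/-- from the primes to the discriminant -/
def GC : Prop := ∀ (K : Type) [Field K] [NumberField K],
  (∀ P : Ideal (𝓞 K), P.IsPrime → P ≠ ⊥ →
    2 * multiplicity P (differentIdeal ℤ (𝓞 K)) ≤ 4 * w P 2 + w P 3) →
  (discr K).natAbs ^ 2 ≤ 48 ^ Module.finrank ℚ K

/-- the theorem for a finite extension -/
def U0 : Prop := ∀ (K : Type) [Field K] [NumberField K] [IsGalois ℚ K] (k : Type) [Field k]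
  [CharP k 2] (ι : Ga K →* GL (Fin 2) k), Function.Injective ι →
  (∀ P : Ideal (𝓞 K), P.IsPrime → P ≠ ⊥ → (2 : 𝓞 K) ∉ P → (3 : 𝓞 K) ∉ P → ∀ s, In P s → s = 1) →
  (∀ P : Ideal (𝓞 K), P.IsPrime → (3 : 𝓞 K) ∈ P → ∀ s, In P s → s * s = 1) →
  Group.IsSolvable (Ga K)

/-- the theorem -/
def LV3 : Prop := ∀ (k : Type) [Field k] [CharP k 2]
  (ρ : (AlgebraicClosure ℚ ≃ₐ[ℚ] AlgebraicClosure ℚ) →* GL (Fin 2) k),
  IsOpen {g | ρ g = 1} → (∀ p : ℕ, p.Prime → 3 < p → St.UnrAt ρ p) →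
  (∀ P : Ideal (𝓞 (AlgebraicClosure ℚ)), P.IsPrime → (3 : 𝓞 (AlgebraicClosure ℚ)) ∈ P →
    ∀ s : AlgebraicClosure ℚ ≃ₐ[ℚ] AlgebraicClosure ℚ,
      (∀ x : 𝓞 (AlgebraicClosure ℚ), s • x - x ∈ P) → ρ s * ρ s = 1) →
  Group.IsSolvable ρ.range

end Vale.Agent.P022U
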