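import Vale.Agent.P022U.Defs

/-!
# P022U: subgroups of odd order of `GL₂` in characteristic two are solvable
-/

set_option linter.all false

namespace Vale.Agent.P022U.H77

open Matrix

variable {k : Type} [Field k]

theorem par {v w : Fin 2 → k} (hv : v ≠ 0) (h : v 0 * w 1 - v 1 * w 0 = 0) :
    ∃ c : k, w = c • v := by
  by_cases h0 : v 0 = 0
  · have h1 : v 1 ≠ 0 := fun h1 => hv (funext (Fin.forall_fin_two.2 ⟨h0, h1⟩))
    refine ⟨w 1 / v 1, funext (Fin.forall_fin_two.2 ⟨?_, ?_⟩)⟩
    · rw [Pi.smul_apply, h0, smul_zero]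
      rw [h0, zero_mul, zero_sub, neg_eq_zero] at h
      exact (mul_eq_zero.1 h).resolve_left h1
    · rw [Pi.smul_apply, smul_eq_mul, div_mul_cancel₀ _ h1]
  · refine ⟨w 0 / v 0, funext (Fin.forall_fin_two.2 ⟨?_, ?_⟩)⟩
    · rw [Pi.smul_apply, smul_eq_mul, div_mul_cancel₀ _ h0]
    · rw [Pi.smul_apply, smul_eq_mul]
      field_simp
      linear_combination h

theorem ent {A : Matrix (Fin 2) (Fin 2) k} {v : Fin 2 → k} {l : k} (h : A *ᵥ v = l • v)
    (i : Fin 2) : A i 0 * v 0 + A i 1 * v 1 = l * v i := by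
  have := congrFun h i
  rwa [mulVec, dotProduct, Fin.sum_univ_two] at this

theorem sc [CharP k 2] {A : Matrix (Fin 2) (Fin 2) k} {v w : Fin 2 → k} {l : k}
    (h1 : A *ᵥ v = l • v) (h2 : A *ᵥ w = l • w) (hd : A.det = 1)
    (h : v 0 * w 1 - v 1 * w 0 ≠ 0) : A = 1 := by
  have t : (2 : k) = 0 := CharP.cast_eq_zero k 2
  have a0 := ent h1 0
  have a1 := ent h1 1
  have b0 := ent h2 0
  have b1 := ent h2 1
  have e0 : A 0 0 = l := mul_right_cancel₀ h (by linear_combination w 1 * a0 - v 1 * b0)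
  have e1 : A 0 1 = 0 := mul_right_cancel₀ h (by linear_combination v 0 * b0 - w 0 * a0)
  have e2 : A 1 0 = 0 := mul_right_cancel₀ h (by linear_combination w 1 * a1 - v 1 * b1)
  have e3 : A 1 1 = l := mul_right_cancel₀ h (by linear_combination v 0 * b1 - w 0 * a1)
  rw [det_fin_two, e0, e1, e2, e3] at hd
  have : (l - 1) * (l - 1) = 0 := by linear_combination hd + (1 - l) * t
  have e : l = 1 := sub_eq_zero.1 (mul_self_eq_zero.1 this)
  rw [eta_fin_two A, e0, e1, e2, e3, e, one_fin_two]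

theorem uni [CharP k 2] {B : Matrix (Fin 2) (Fin 2) k} {v : Fin 2 → k} (hv : v ≠ 0)
    (h : B *ᵥ v = (1 : k) • v) (hd : B.det = 1) : B * B = 1 := by
  have t : (2 : k) = 0 := CharP.cast_eq_zero k 2
  have a0 := ent h 0
  have a1 := ent h 1
  rw [det_fin_two] at hd
  have tr : B 0 0 + B 1 1 = 0 := by
    by_cases h0 : v 0 = 0
    · have h1 : v 1 ≠ 0 := fun h1 => hv (funext (Fin.forall_fin_two.2 ⟨h0, h1⟩))
      exact mul_right_cancel₀ h1 (by
        linear_combination B 1 0 * a0 - (B 0 0 - 1) * a1 + v 1 * hd + v 1 * t)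
    · exact mul_right_cancel₀ h0 (by
        linear_combination B 0 1 * a1 - (B 1 1 - 1) * a0 + v 0 * hd + v 0 * t)
  rw [eta_fin_two B, mul_fin_two, one_fin_two]
  have q0 : B 0 0 * B 0 0 + B 0 1 * B 1 0 = 1 := by linear_combination B 0 0 * tr - hd - t
  have q1 : B 0 0 * B 0 1 + B 0 1 * B 1 1 = 0 := by linear_combination B 0 1 * tr
  have q2 : B 1 0 * B 0 0 + B 1 1 * B 1 0 = 0 := by linear_combination B 1 0 * tr
  have q3 : B 1 0 * B 0 1 + B 1 1 * B 1 1 = 1 := by linear_combination B 1 1 * tr - hd - t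
  rw [q0, q1, q2, q3]

theorem cyc [CharP k 2] [IsAlgClosed k] {P : Type} [Group P] [Finite P]
    (ρ : P →* Matrix (Fin 2) (Fin 2) k) (hρ : Function.Injective ρ) (hd : ∀ g, (ρ g).det = 1)
    (ho : ∀ g : P, g * g = 1 → g = 1) {z : P} (hz : z ≠ 1) (hc : ∀ g, g * z = z * g) :
    IsCyclic P := by
  obtain ⟨l, hl⟩ := Module.End.exists_eigenvalue (Matrix.toLin' (ρ z))
  obtain ⟨v, hv⟩ := hl.exists_hasEigenvector
  have e : ρ z *ᵥ v = l • v := hv.apply_eq_smul
  have ex : ∀ g, ∃ c : k, ρ g *ᵥ v = c • v := fun g => par hv.2 (by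
    by_contra h
    refine hz (hρ ((sc e (w := ρ g *ᵥ v) ?_ (hd z) h).trans (map_one ρ).symm))
    rw [mulVec_mulVec, ← map_mul, ← hc, map_mul, ← mulVec_mulVec, e, mulVec_smul])
  choose c hcv using ex
  have un : ∀ a b : k, a • v = b • v → a = b := fun a b h => smul_left_injective k hv.2 h
  let χ : P →* k :=
    { toFun := c
      map_one' := un _ _ (by rw [← hcv, map_one, one_mulVec, one_smul])
      map_mul' := fun a b => un _ _ (by
        rw [← hcv, map_mul, ← mulVec_mulVec, hcv b, mulVec_smul, hcv a, smul_smul, mul_comm]) }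
  refine isCyclic_of_injective_ringHom χ ((injective_iff_map_eq_one χ).2 fun g hg => ho g (hρ ?_))
  rw [map_mul, map_one]
  exact uni hv.2 ((hcv g).trans (congrArg (· • v) hg)) (hd g)

/-- a group which is not solvable has even order -/
theorem even (G : Type) [Group G] [Finite G] (k : Type) [Field k] [CharP k 2]
    (ι : G →* GL (Fin 2) k) (hι : Function.Injective ι) (h : ¬ Group.IsSolvable G) :
    Even (Nat.card G) := by
  by_contra ho
  have od : ∀ g : G, g * g = 1 → g = 1 := fun g hg => by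
    by_contra c
    refine ho (even_iff_two_dvd.2 ?_)
    rw [← orderOf_eq_prime (p := 2) ((sq g).trans hg) c]
    exact orderOf_dvd_natCard g
  let f := algebraMap k (AlgebraicClosure k)
  let ρ : G →* Matrix (Fin 2) (Fin 2) (AlgebraicClosure k) :=
    (f.mapMatrix : _ →+* _).toMonoidHom.comp ((Units.coeHom _).comp ι)
  have hρ : Function.Injective ρ := fun a b e =>
    hι (Units.ext (Matrix.map_injective f.injective e))
  let d : G →* kˣ := Matrix.GeneralLinearGroup.det.comp ι
  haveI : IsZGroup d.ker := ⟨fun p hp P => by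
    haveI := Fact.mk hp
    by_cases n : Nontrivial P
    · obtain ⟨⟨z, z1⟩, z2⟩ := @exists_ne _ P.2.center_nontrivial 1
      refine cyc (ρ.comp (d.ker.subtype.comp (P : Subgroup d.ker).subtype))
        (hρ.comp (Subtype.val_injective.comp Subtype.val_injective)) (fun g => ?_)
        (fun g hg => Subtype.ext (Subtype.ext (od _ (congrArg (fun x : P => ((x : d.ker) : G)) hg))))
        (fun e => z2 (Subtype.ext e)) (Subgroup.mem_center_iff.1 z1)
      have e : (ι g.1.1 : Matrix (Fin 2) (Fin 2) k).det = 1 :=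
        congrArg Units.val (MonoidHom.mem_ker.1 g.1.2)
      exact (RingHom.map_det f _).symm.trans ((congrArg f e).trans (map_one f))
    · haveI := not_nontrivial_iff_subsingleton.1 n
      infer_instance⟩
  exact h (Group.isSolvable_of_ker_le_range d.ker.subtype d (by rw [Subgroup.range_subtype]))

end Vale.Agent.P022U.H77
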