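import Vale.Agent.P022U.Defs
import Vale.Agent.P022T.Proj
import Vale.Agent.P022T.Res

/-!
# P022U: the twisted form, and the form for a representation in characteristic zero
-/

set_option linter.all false

open NumberField

noncomputable section

namespace Vale.Agent.P022U.H12

open Vale.Agent.P022 Vale.Agent.P022T

theorem sq_of_trace {k : Type} [Field k] (A : Matrix (Fin 2) (Fin 2) k) (h : A.trace = 0) :
    A * A = (-A.det) • (1 : Matrix (Fin 2) (Fin 2) k) := by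
  rw [Matrix.trace_fin_two] at h
  have h1 : A 1 1 = -A 0 0 := by linear_combination h
  ext i j
  fin_cases i <;> fin_cases j <;>
    simp [Matrix.mul_apply, Fin.sum_univ_two, Matrix.det_fin_two, h1] <;> ring

theorem proj3 (hT : LV3) (k : Type) [Field k] [CharP k 2]
    (ρ : (AlgebraicClosure ℚ ≃ₐ[ℚ] AlgebraicClosure ℚ) →* GL (Fin 2) k)
    (ho : IsOpen {g | ρ g = 1})
    (hs : ∀ p : ℕ, p.Prime → 3 < p → ∀ P : Ideal (𝓞 (AlgebraicClosure ℚ)), P.IsPrime →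
      (p : 𝓞 (AlgebraicClosure ℚ)) ∈ P → ∀ g : AlgebraicClosure ℚ ≃ₐ[ℚ] AlgebraicClosure ℚ,
      (∀ x : 𝓞 (AlgebraicClosure ℚ), g • x - x ∈ P) →
      ∃ c : k, (ρ g : Matrix (Fin 2) (Fin 2) k) = c • (1 : Matrix (Fin 2) (Fin 2) k))
    (h3 : ∀ P : Ideal (𝓞 (AlgebraicClosure ℚ)), P.IsPrime →
      (3 : 𝓞 (AlgebraicClosure ℚ)) ∈ P → ∀ g : AlgebraicClosure ℚ ≃ₐ[ℚ] AlgebraicClosure ℚ,
      (∀ x : 𝓞 (AlgebraicClosure ℚ), g • x - x ∈ P) →
      (ρ g : Matrix (Fin 2) (Fin 2) k).trace = 0) :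
    Group.IsSolvable ρ.range := by
  have hG : CompactSpace (AlgebraicClosure ℚ ≃ₐ[ℚ] AlgebraicClosure ℚ) := by
    have h1 : Algebra.IsAlgebraic ℚ (AlgebraicClosure ℚ) := AlgebraicClosure.isAlgebraic ℚ
    have h2 : IsAlgClosure ℚ (AlgebraicClosure ℚ) := ⟨inferInstance, inferInstance⟩
    have h3 : IsGalois ℚ (AlgebraicClosure ℚ) := IsAlgClosure.isGalois ℚ _
    infer_instance
  let d := Matrix.GeneralLinearGroup.det.comp ρ
  have hk : ρ.ker ≤ d.ker := fun g hg => by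
    rw [MonoidHom.mem_ker] at hg ⊢
    rw [MonoidHom.comp_apply, hg, map_one]
  haveI : Finite (_ ⧸ d.ker) :=
    Subgroup.quotient_finite_of_isOpen _ (Subgroup.isOpen_mono hk ho)
  haveI : Finite d.range := Finite.of_equiv _ (QuotientGroup.quotientKerEquivRange d).toEquiv
  obtain ⟨n, hn⟩ := ex_sqrt d
  let χ := (powMonoidHom n).comp d
  have hχ : ∀ g, χ g ^ 2 = d g := hn
  have hχ' : ∀ g, ((χ g : kˣ) : k) ^ 2 = (ρ g : Matrix (Fin 2) (Fin 2) k).det := fun g => by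
    rw [← Units.val_pow_eq_pow_val, hχ]
    rfl
  let ρ₁ : (AlgebraicClosure ℚ ≃ₐ[ℚ] AlgebraicClosure ℚ) →* GL (Fin 2) k :=
    MonoidHom.mk' (fun g => sc k (χ g)⁻¹ * ρ g) fun a b => by
      rw [map_mul, map_mul, mul_inv, map_mul]
      exact ((sc_comm (χ b)⁻¹ (ρ a)).symm.mul_mul_mul_comm _ _).symm
  have e1 : ∀ g, ρ₁ g = sc k (χ g)⁻¹ * ρ g := fun _ => rfl
  have hk1 : ρ.ker ≤ ρ₁.ker := fun g hg => by
    have h1 : χ g = 1 := by
      change d g ^ n = 1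
      rw [MonoidHom.mem_ker.1 (hk hg), one_pow]
    rw [MonoidHom.mem_ker, e1, h1, MonoidHom.mem_ker.1 hg, inv_one, map_one, one_mul]
  haveI := hT k ρ₁ (Subgroup.isOpen_mono hk1 ho) (fun p hp h2 P hP hpP g hg => by
    obtain ⟨c, hc⟩ := hs p hp h2 P hP hpP g hg
    have h1 : ((χ g : kˣ) : k) ^ 2 = c ^ 2 := by
      rw [hχ', hc, Matrix.det_smul, Matrix.det_one, mul_one, Fintype.card_fin]
    have h3 : (((χ g : kˣ) : k) - c) ^ 2 = 0 := by rw [sub_pow_char, h1, sub_self]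
    have h4 : ((χ g : kˣ) : k) = c := sub_eq_zero.1 (pow_eq_zero_iff two_ne_zero |>.1 h3)
    have h5 : ρ g = sc k (χ g) := Units.ext (by rw [sc_val, hc, h4])
    rw [e1, h5, ← map_mul, inv_mul_cancel, map_one]) fun P hP hpP g hg => by
    have h1 : ρ g * ρ g = sc k (χ g * χ g) := Units.ext (by
      rw [sc_val, Units.val_mul, sq_of_trace _ (h3 P hP hpP g hg), Units.val_mul,
        ← sq, hχ', CharTwo.neg_eq])
    rw [e1, ((sc_comm (χ g)⁻¹ (ρ g)).symm.mul_mul_mul_comm _ _), h1, ← map_mul (sc k),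
      ← map_mul (sc k), ← mul_inv, inv_mul_cancel, map_one]
  let Φ : kˣ × ρ₁.range →* GL (Fin 2) k :=
    (sc k).noncommCoprod ρ₁.range.subtype fun c g => sc_comm c g
  haveI : Group.IsSolvable Φ.range := Group.isSolvable_of_surjective Φ.rangeRestrict_surjective
  have hle : ρ.range ≤ Φ.range := by
    rintro _ ⟨g, rfl⟩
    refine ⟨(χ g, ⟨ρ₁ g, g, rfl⟩), ?_⟩
    change sc k (χ g) * ρ₁ g = ρ g
    rw [e1, ← mul_assoc, ← map_mul, mul_inv_cancel, map_one, one_mul]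
  exact Group.isSolvable_of_isSolvable_injective (Subgroup.inclusion_injective hle)

theorem res_zero {E : Type} [NontriviallyNormedField E] [NormedAlgebra ℚ_[2] E] {k : Type}
    [Field k] [CharP k 2] (O : Subring E) (π : O →+* k) (hO : ∀ x : E, x ∈ O ↔ ‖x‖ ≤ 1) (t : O)
    (ht : ‖(t : E)‖ < 1) : π t = 0 := by
  have h2 : (2 : E) ≠ 0 := by
    have h := (algebraMap ℚ_[2] E).injective.ne (two_ne_zero (α := ℚ_[2]))
    rwa [map_ofNat, map_zero] at h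
  obtain ⟨n, hn⟩ := exists_pow_lt_of_lt_one (norm_pos_iff.2 h2) ht
  have hu : (t : E) ^ n / 2 ∈ O := (hO _).2 (by
    rw [norm_div, norm_pow]
    exact (div_le_one (norm_pos_iff.2 h2)).2 hn.le)
  have e : t ^ n = 2 * ⟨_, hu⟩ := Subtype.ext (by
    change (t : E) ^ n = 2 * ((t : E) ^ n / 2)
    field_simp)
  have h : π t ^ n = 0 := by
    rw [← map_pow, e, map_mul, map_ofNat, CharTwo.two_eq_zero, zero_mul]
  exact eq_zero_of_pow_eq_zero h

theorem exThree (hT : LV3) (E : Type) [NontriviallyNormedField E] [NormedAlgebra ℚ_[2] E]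
    [FiniteDimensional ℚ_[2] E]
    (r : (AlgebraicClosure ℚ ≃ₐ[ℚ] AlgebraicClosure ℚ) →* GL (Fin 2) E) (hc : Continuous r)
    (h1 : ∀ p : ℕ, p.Prime → 3 < p → St.UnrAt r p)
    (h3 : ∀ P : Ideal (𝓞 (AlgebraicClosure ℚ)), P.IsPrime →
      (3 : 𝓞 (AlgebraicClosure ℚ)) ∈ P → ∀ g : AlgebraicClosure ℚ ≃ₐ[ℚ] AlgebraicClosure ℚ,
      (∀ x : 𝓞 (AlgebraicClosure ℚ), g • x - x ∈ P) →
      ‖(r g : Matrix (Fin 2) (Fin 2) E).trace‖ < 1) :
    ∃ (k : Type) (_ : Field k) (_ : CharP k 2) (_ : Finite k)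
      (ρ : (AlgebraicClosure ℚ ≃ₐ[ℚ] AlgebraicClosure ℚ) →* GL (Fin 2) k),
      St.IsRes r ρ ∧ Group.IsSolvable ρ.range := by
  obtain ⟨k, _, _, _, ρ, hr, ho, hk⟩ := resC E r hc
  refine ⟨k, inferInstance, inferInstance, inferInstance, ρ, hr,
    proj3 hT k ρ ho (fun p hp h2 P hP hpP g hg => ⟨1, ?_⟩) fun P hP hpP g hg => ?_⟩
  · rw [hk g (h1 p hp h2 P hP hpP g hg), one_smul, Units.val_one]
  · obtain ⟨O, π, hO, h⟩ := hr
    obtain ⟨t, d, ht, -, h4, -⟩ := h g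
    rw [← h4]
    exact res_zero O π hO t (ht ▸ h3 P hP hpP g hg)

end Vale.Agent.P022U.H12
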