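import Vale.Agent.P022T.Res
import Vale.Agent.P022U.Defs

/-!
P022U: a representation unramified outside six whose inertia elements at three have eigenvalues
congruent to one has a residual representation with solvable image (given the theorem for residual
representations).
-/

set_option linter.all false

open NumberField

noncomputable section

namespace Vale.Agent.P022U.H92

open Vale.Agent.P022 Vale.Agent.P022T Vale.Agent.P022D.Top

theorem pi_zero {E : Type} [NontriviallyNormedField E] [NormedAlgebra ℚ_[2] E]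
    [FiniteDimensional ℚ_[2] E] {k : Type} [Field k] [CharP k 2] (O : Subring E) (π : O →+* k)
    (hO : ∀ x : E, x ∈ O ↔ ‖x‖ ≤ 1) (x : O) (hx : ‖(x : E)‖ < 1) : π x = 0 := by
  have h2 : (2 : E) ≠ 0 := by
    have : (2 : E) = algebraMap ℚ_[2] E 2 := (map_ofNat _ 2).symm
    rw [this, map_ne_zero]
    exact two_ne_zero
  have h2' : 0 < ‖(2 : E)‖ := norm_pos_iff.2 h2
  obtain ⟨n, hn⟩ := exists_pow_lt_of_lt_one h2' hx
  have hy : (x : E) ^ n / 2 ∈ O := by
    rw [hO, norm_div, norm_pow, div_le_one h2']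
    exact hn.le
  have h1 : x ^ n = 2 * (⟨_, hy⟩ : O) := by
    apply Subtype.ext
    have h3 : ((2 : O) : E) = 2 := rfl
    rw [Subring.coe_mul, h3, SubmonoidClass.coe_pow]
    field_simp
  have h4 : π x ^ n = 0 := by
    rw [← map_pow, h1, map_mul, map_ofNat, CharTwo.two_eq_zero, zero_mul]
  exact pow_eq_zero_iff'.1 h4 |>.1

theorem sq_one {k : Type} [Field k] [CharP k 2] (A : GL (Fin 2) k)
    (ht : (A : Matrix (Fin 2) (Fin 2) k).trace = 0) (hd : (A : Matrix (Fin 2) (Fin 2) k).det = 1) :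
    A * A = 1 := by
  refine Units.ext ?_
  rw [Units.val_mul, Units.val_one]
  rw [Matrix.trace_fin_two] at ht
  rw [Matrix.det_fin_two] at hd
  have h2 : (2 : k) = 0 := CharTwo.two_eq_zero
  ext i j
  fin_cases i <;> fin_cases j <;> simp [Matrix.mul_apply, Fin.sum_univ_two]
  · linear_combination (A : Matrix (Fin 2) (Fin 2) k) 0 0 * ht - hd - h2
  · linear_combination (A : Matrix (Fin 2) (Fin 2) k) 0 1 * ht
  · linear_combination (A : Matrix (Fin 2) (Fin 2) k) 1 0 * ht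
  · linear_combination (A : Matrix (Fin 2) (Fin 2) k) 1 1 * ht - hd - h2

theorem exThree (hL : LV3) (E : Type) [NontriviallyNormedField E] [NormedAlgebra ℚ_[2] E]
    [FiniteDimensional ℚ_[2] E]
    (r : (AlgebraicClosure ℚ ≃ₐ[ℚ] AlgebraicClosure ℚ) →* GL (Fin 2) E) (hc : Continuous r)
    (h1 : ∀ p : ℕ, p.Prime → 3 < p → St.UnrAt r p)
    (h3 : ∀ P : Ideal (𝓞 (AlgebraicClosure ℚ)), P.IsPrime → (3 : 𝓞 (AlgebraicClosure ℚ)) ∈ P →
      ∀ s : AlgebraicClosure ℚ ≃ₐ[ℚ] AlgebraicClosure ℚ,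
        (∀ x : 𝓞 (AlgebraicClosure ℚ), s • x - x ∈ P) →
        ‖(r s : Matrix (Fin 2) (Fin 2) E).trace‖ < 1 ∧
          ‖(r s : Matrix (Fin 2) (Fin 2) E).det - 1‖ < 1) :
    ∃ (k : Type) (_ : Field k) (_ : CharP k 2) (_ : Finite k)
      (ρ : (AlgebraicClosure ℚ ≃ₐ[ℚ] AlgebraicClosure ℚ) →* GL (Fin 2) k),
      St.IsRes r ρ ∧ Group.IsSolvable ρ.range := by
  obtain ⟨k, _, _, _, ρ, hr, ho, hk⟩ := resC E r hc
  refine ⟨k, inferInstance, inferInstance, inferInstance, ρ, hr,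
    hL k ρ ho (fun p hp h2 P hP hpP g hg => hk g (h1 p hp h2 P hP hpP g hg)) ?_⟩
  intro P hP h s hs
  obtain ⟨O, π, hO, hπ⟩ := hr
  obtain ⟨t, d, ht, hd, ht', hd'⟩ := hπ s
  obtain ⟨ha, hb⟩ := h3 P hP h s hs
  refine sq_one _ ?_ ?_
  · rw [← ht']
    exact pi_zero O π hO t (by rw [ht]; exact ha)
  · rw [← hd', ← sub_eq_zero, ← map_one π, ← map_sub]
    refine pi_zero O π hO _ ?_
    have h5 : ((d - 1 : O) : E) = (d : E) - 1 := rfl
    rw [h5, hd]
    exact hb

end Vale.Agent.P022U.H92
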