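import Vale.Agent.P022U.Defs
import Vale.Agent.P022U.SixtyH27
import Vale.Agent.P022T.GtH27

/-!
# P022U: the row `G60`
-/

set_option linter.all false

open Matrix

namespace Vale.Agent.P022U.H27

open Vale.Agent.P022T.H27

variable {k : Type} [Field k] [CharP k 2]

theorem sq1 {M : Matrix (Fin 2) (Fin 2) k} {v : Fin 2 → k} (hv : v ≠ 0) (g1 : M *ᵥ v = v)
    (g2 : M.det = 1) : M * M = 1 := by
  have two : (2 : k) = 0 := CharP.cast_eq_zero k 2
  have a := congrFun g1 0
  have b := congrFun g1 1
  simp only [mulVec, dotProduct, Fin.sum_univ_two] at a b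
  rw [det_fin_two] at g2
  have t : M 0 0 + M 1 1 = 0 := by
    by_contra t
    apply hv
    ext i
    refine (mul_eq_zero.1 (?_ : (M 0 0 + M 1 1) * v i = 0)).resolve_left t
    fin_cases i
    · simp only [Fin.zero_eta, Fin.isValue]
      linear_combination (1 - M 1 1) * a + M 0 1 * b + v 0 * g2 + v 0 * two
    · simp only [Fin.mk_one, Fin.isValue]
      linear_combination (1 - M 0 0) * b + M 1 0 * a + v 1 * g2 + v 1 * two
  ext i j
  fin_cases i <;> fin_cases j <;> simp [Matrix.mul_apply, Fin.sum_univ_two]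
  · linear_combination M 0 0 * t - g2 - two
  · linear_combination M 0 1 * t
  · linear_combination M 1 0 * t
  · linear_combination M 1 1 * t - g2 - two

theorem cyc [IsAlgClosed k] {P : Type} [Group P] [Finite P] {p : ℕ} [Fact p.Prime]
    (hP : IsPGroup p P) (ι : P →* GL (Fin 2) k) (hι : Function.Injective ι)
    (hd : ∀ g, (mt ι g).det = 1) (hq : ∀ g : P, g * g = 1 → g = 1) : IsCyclic P := by
  rcases subsingleton_or_nontrivial P with s | s
  · infer_instance
  haveI := hP.center_nontrivial
  obtain ⟨z, hz⟩ := exists_ne (1 : Subgroup.center P)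
  obtain ⟨c, hc⟩ := Module.End.exists_eigenvalue (Matrix.toLin' (mt ι z))
  obtain ⟨v, hv⟩ := hc.exists_hasEigenvector
  have v1 : mt ι z *ᵥ v = c • v := hv.apply_eq_smul
  have v0 : v ≠ 0 := hv.2
  have n0 : mt ι z - c • (1 : Matrix (Fin 2) (Fin 2) k) ≠ 0 := fun e => by
    have e1 := sub_eq_zero.1 e
    have e2 := hd z
    rw [e1, det_smul, det_one, mul_one, Fintype.card_fin] at e2
    refine hz (Subtype.ext (hq _ (eq_one ι hι ?_)))
    rw [mt_mul, e1, smul_mul_smul_comm, one_mul, ← sq, e2, one_smul]
  have k1 : ∀ g, ∃ a : k, mt ι g *ᵥ v = a • v := fun g => prop v0 (by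
    by_contra k'
    refine n0 (zero_of k' ?_ ?_)
    · rw [sub_mulVec, smul_mulVec, one_mulVec, v1, sub_self]
    · rw [sub_mulVec, smul_mulVec, one_mulVec, ← act, ← Subgroup.mem_center_iff.1 z.2 g, act, v1,
        mulVec_smul, sub_self])
  choose χ hχ using k1
  let f : P →* k :=
    { toFun := χ
      map_one' := smul_left_injective k v0 (by
        change χ 1 • v = (1 : k) • v
        rw [← hχ, mt_one, one_mulVec, one_smul])
      map_mul' := fun a b => smul_left_injective k v0 (by
        change χ (a * b) • v = (χ a * χ b) • v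
        rw [← hχ, act, hχ b, mulVec_smul, hχ a, smul_smul, mul_comm]) }
  refine isCyclic_of_injective_ringHom f ((injective_iff_map_eq_one f).2 fun g hg => ?_)
  have e : χ g = 1 := hg
  exact hq g (eq_one ι hι (by
    rw [mt_mul]
    exact sq1 v0 (by rw [hχ, e, one_smul]) (hd g)))

theorem odd {G : Type} [Group G] [Finite G] (ι : G →* GL (Fin 2) k) (hι : Function.Injective ι)
    (h : Odd (Nat.card G)) : Group.IsSolvable G := by
  have hq : ∀ g : G, g * g = 1 → g = 1 := fun g hg => by
    obtain ⟨m, hm⟩ := h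
    have := pow_card_eq_one' (x := g)
    rwa [hm, pow_succ, pow_mul, sq, hg, one_pow, one_mul] at this
  let j := algebraMap k (AlgebraicClosure k)
  let ι' : G →* GL (Fin 2) (AlgebraicClosure k) := (Matrix.GeneralLinearGroup.map j).comp ι
  have i' : Function.Injective ι' := fun a b e => hι (Units.ext (Matrix.ext fun r s =>
    j.injective (congrArg (fun x : GL (Fin 2) (AlgebraicClosure k) => x.val r s) e)))
  let D : G →* (AlgebraicClosure k)ˣ := Matrix.GeneralLinearGroup.det.comp ι'
  haveI : IsZGroup D.ker := ⟨fun p hp P => by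
    haveI := Fact.mk hp
    exact cyc P.isPGroup' (ι'.comp (D.ker.subtype.comp (P : Subgroup D.ker).subtype))
      (i'.comp (Subtype.val_injective.comp Subtype.val_injective))
      (fun g => congrArg Units.val g.1.2)
      fun g hg => Subtype.ext (Subtype.ext (hq _ (congrArg (fun x : P => (x.1.1 : G)) hg)))⟩
  exact solvable_of_ker_le_range D.ker.subtype D (by simp)

theorem g60C : G60 := fun G _ _ k _ _ ι hι h =>
  ⟨sixty G h, Nat.not_odd_iff_even.1 fun c => h (odd ι hι c)⟩

end Vale.Agent.P022U.H27
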