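import Vale.Agent.P022U.T3H29
import Vale.Agent.P022T.T0H57
import Vale.Agent.P022T.Inf

/-!
# P022U: residual representations which are unramified outside `2 p` and tame at `p`
-/

set_option linter.all false

open NumberField Polynomial

noncomputable section

namespace Vale.Agent.P022U.H37

open Vale.Agent.P022 Vale.Agent.P022.H916 Vale.Agent.P022T Vale.Agent.P022T.H29
open Vale.Agent.P022U.H29 (up all2)

/-- the tame prime -/
def TP (p : ℕ) : Prop := Al fun K _ _ _ P => (p : 𝓞 K) ∈ P → ∀ θ, Ap P θ →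
  (∀ s : Ga K, s ≠ 1 → s • θ - θ ≠ 0) → (∀ s : Ga K, In P s → s * s = 1) →
  2 * ∑ s ∈ I1 P, w P (s • θ - θ) ≤ w P p

/-- from the primes to the discriminant -/
def GCP (p : ℕ) : Prop := ∀ (K : Type) [Field K] [NumberField K],
  (∀ P : Ideal (𝓞 K), P.IsPrime → P ≠ ⊥ →
    2 * multiplicity P (differentIdeal ℤ (𝓞 K)) ≤ 4 * w P 2 + w P p) →
  (discr K).natAbs ^ 2 ≤ (16 * p) ^ Module.finrank ℚ K

/-- the lower bound for the discriminant -/
def BD (p : ℕ) : Prop := ∀ (K : Type) [Field K] [NumberField K], 60 ≤ Module.finrank ℚ K →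
  Even (Module.finrank ℚ K) → (16 * p) ^ Module.finrank ℚ K < (discr K).natAbs ^ 2

/-- the theorem for a finite extension -/
def U0P (p : ℕ) : Prop := ∀ (K : Type) [Field K] [NumberField K] [IsGalois ℚ K] (k : Type) [Field k]
  [CharP k 2] (ι : Ga K →* GL (Fin 2) k), Function.Injective ι →
  (∀ P : Ideal (𝓞 K), P.IsPrime → P ≠ ⊥ → (2 : 𝓞 K) ∉ P → (p : 𝓞 K) ∉ P → ∀ s, In P s → s = 1) →
  (∀ P : Ideal (𝓞 K), P.IsPrime → (p : 𝓞 K) ∈ P → ∀ s, In P s → s * s = 1) →
  Group.IsSolvable (Ga K)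

/-- the theorem -/
def LVP (p : ℕ) : Prop := ∀ (k : Type) [Field k] [CharP k 2]
  (ρ : (AlgebraicClosure ℚ ≃ₐ[ℚ] AlgebraicClosure ℚ) →* GL (Fin 2) k),
  IsOpen {g | ρ g = 1} → (∀ l : ℕ, l.Prime → l ≠ 2 → l ≠ p → St.UnrAt ρ l) →
  (∀ P : Ideal (𝓞 (AlgebraicClosure ℚ)), P.IsPrime → (p : 𝓞 (AlgebraicClosure ℚ)) ∈ P →
    ∀ s : AlgebraicClosure ℚ ≃ₐ[ℚ] AlgebraicClosure ℚ,
      (∀ x : 𝓞 (AlgebraicClosure ℚ), s • x - x ∈ P) → ρ s * ρ s = 1) →
  Group.IsSolvable ρ.range

theorem BD.mono {p q : ℕ} (h : BD q) (hp : p ≤ q) : BD p := fun K _ _ a b =>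
  (Nat.pow_le_pow_left (Nat.mul_le_mul_left _ hp) _).trans_lt (h K a b)

theorem half {K : Type} [Field K] [NumberField K] {P : Ideal (𝓞 K)} {p : ℕ} (hp : Odd p)
    (h3 : (p : 𝓞 K) ∈ P) {n : ℕ} {y : 𝓞 K} (hy : y ∈ P ^ n) (h : 2 * y ∈ P ^ (n + 1)) :
    y ∈ P ^ (n + 1) := by
  obtain ⟨m, rfl⟩ := hp
  have := sub_mem (show ((2 * m + 1 : ℕ) : 𝓞 K) * y ∈ P ^ (n + 1) by
    rw [pow_succ']; exact Ideal.mul_mem_mul h3 hy) (Ideal.mul_mem_left _ (m : 𝓞 K) h)
  rwa [show ((2 * m + 1 : ℕ) : 𝓞 K) * y - m * (2 * y) = y by push_cast; ring] at this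

theorem tpC (hV : VAL) {p : ℕ} (hp : Odd p) : TP p := by
  intro K _ _ _ P hP h0 h3 θ hA n0 hs
  obtain ⟨v1, v2, -, v4⟩ := hV K P hP h0
  have mem : ∀ s, s ∈ I1 P ↔ In P s ∧ s ≠ 1 := fun s => by
    classical
    simp only [I1, Finset.mem_filter, Finset.mem_univ, true_and]
  have neg : ∀ s : Ga K, In P s → s • (s • θ - θ) = -(s • θ - θ) := fun s h => by
    rw [smul_sub, ← mul_smul, hs s h, one_smul, neg_sub]
  have B : ∀ s ∈ I1 P, s • θ - θ ∉ P ^ 2 := fun s h c => by
    obtain ⟨h1, h2⟩ := (mem s).1 h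
    have y0 := n0 s h2
    have m := (v2 _ _ y0).1 (le_refl (w P (s • θ - θ)))
    have k := up h1 (all2 hA h1 c) _ _ m
    rw [neg s h1, show -(s • θ - θ) - (s • θ - θ) = -(2 * (s • θ - θ)) by ring, neg_mem_iff] at k
    have := (v2 _ _ y0).2 (half hp h3 m k)
    omega
  have W : ∀ s ∈ I1 P, w P (s • θ - θ) ≤ 1 := fun s h => by
    by_contra c
    exact B s h ((v2 _ 2 (n0 s ((mem s).1 h).2)).1 (by omega))
  have C : ∀ s ∈ I1 P, ∀ b ∈ P, s • b + b ∈ P ^ 2 := fun s h b hb => by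
    obtain ⟨h1, h2⟩ := (mem s).1 h
    by_cases b0 : b = 0
    · rw [b0, smul_zero, add_zero]; exact zero_mem _
    obtain ⟨c, z, hc, e⟩ := v4 b _ b0 (n0 s h2)
      ((W s h).trans ((v2 b 1 b0).2 (by rwa [pow_one])))
    have e' : s • c * s • b = -(s • θ - θ) * s • z := by
      rw [← smul_mul', e, smul_mul', neg s h1]
    have sb : s • b ∈ P := by
      have := pow_mem h1 1 (x := b) (by rwa [pow_one])
      rwa [pow_one] at this
    have k : c * (s • b + b) ∈ P ^ 2 := by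
      have : c * (s • b + b) = -((s • c - c) * s • b) - (s • θ - θ) * (s • z - z) := by
        linear_combination e + e'
      rw [this, sq]
      exact sub_mem (neg_mem (Ideal.mul_mem_mul (h1 c) sb)) (Ideal.mul_mem_mul (h1 θ) (h1 z))
    by_cases z0 : s • b + b = 0
    · rw [z0]; exact zero_mem _
    have c0 : c ≠ 0 := fun e => hc (e ▸ zero_mem _)
    have w0 : w P c = 0 := by
      by_contra c1
      exact hc (by simpa using (v2 c 1 c0).1 (by omega))
    have := (v2 _ 2 (mul_ne_zero c0 z0)).2 k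
    rw [v1 _ _ c0 z0, w0, zero_add] at this
    exact (v2 _ 2 z0).1 this
  have D : ∀ s ∈ I1 P, ∀ t ∈ I1 P, s = t := fun s h t ht => by
    by_contra c
    obtain ⟨h1, h2⟩ := (mem s).1 h
    obtain ⟨t1, t2⟩ := (mem t).1 ht
    have u : s * t ∈ I1 P := (mem _).2 ⟨fun x => by
      have := add_mem (h1 (t • x)) (t1 x)
      rwa [sub_add_sub_cancel, ← mul_smul] at this, fun e =>
      c (mul_right_cancel (e.trans (hs t t1).symm))⟩
    have hb := h1 θ
    have k1 := C _ u _ hb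
    have k2 := pow_mem h1 2 (C _ ht _ hb)
    have k3 := C _ h _ hb
    rw [smul_add, ← mul_smul] at k2
    refine B s h (half hp h3 (n := 1) (by rwa [pow_one]) ?_)
    have := add_mem (sub_mem k1 k2) k3
    generalize s • θ - θ = y at this ⊢
    rwa [show (s * t) • y + y - ((s * t) • y + s • y) + (s • y + y) = 2 * y by ring] at this
  rcases (I1 P).eq_empty_or_nonempty with e | ⟨s, h⟩
  · rw [e, Finset.sum_empty]
    exact Nat.zero_le _
  · rw [show I1 P = {s} from Finset.eq_singleton_iff_unique_mem.2 ⟨h, fun t ht => D t ht s h⟩,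
      Finset.sum_singleton]
    have k := C s h p h3
    have e3 : s • (p : 𝓞 K) = p := map_natCast (MulSemiringAction.toRingHom (Ga K) (𝓞 K) s) p
    rw [e3, ← two_mul] at k
    have := (v2 p 2 (Nat.cast_ne_zero.2 hp.pos.ne')).2 (half hp h3 (n := 1) (by rwa [pow_one]) k)
    have := W s h
    omega

theorem gcpC {p : ℕ} (hp : Odd p) : GCP p := by
  intro K _ _ h
  have hD : differentIdeal ℤ (𝓞 K) ≠ ⊥ := differentIdeal_ne_bot
  have h2 : Ideal.span {(2 : 𝓞 K)} ≠ ⊥ := by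
    rw [Ne, Ideal.span_singleton_eq_bot]
    exact two_ne_zero
  have h3 : Ideal.span {(p : 𝓞 K)} ≠ ⊥ := by
    rw [Ne, Ideal.span_singleton_eq_bot]
    exact Nat.cast_ne_zero.2 hp.pos.ne'
  have hd : differentIdeal ℤ (𝓞 K) ^ 2 ∣ Ideal.span {(2 : 𝓞 K)} ^ 4 * Ideal.span {(p : 𝓞 K)} := by
    rw [UniqueFactorizationMonoid.dvd_iff_emultiplicity_le (pow_ne_zero 2 hD)]
    intro P hP
    have k := h P (Ideal.isPrime_of_prime hP) hP.ne_zero
    rw [emultiplicity_mul hP, emultiplicity_pow hP, emultiplicity_pow hP,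
      (FiniteMultiplicity.of_prime_left hP hD).emultiplicity_eq_multiplicity,
      (FiniteMultiplicity.of_prime_left hP h2).emultiplicity_eq_multiplicity,
      (FiniteMultiplicity.of_prime_left hP h3).emultiplicity_eq_multiplicity]
    exact_mod_cast k
  have hn := map_dvd Ideal.absNorm hd
  have e2 : Ideal.absNorm (Ideal.span {(2 : 𝓞 K)}) = 2 ^ Module.finrank ℚ K := by
    have := Ideal.absNorm_span_natCast (S := 𝓞 K) 2
    rw [RingOfIntegers.rank] at this
    exact_mod_cast this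
  have e3 : Ideal.absNorm (Ideal.span {(p : 𝓞 K)}) = p ^ Module.finrank ℚ K := by
    have := Ideal.absNorm_span_natCast (S := 𝓞 K) p
    rw [RingOfIntegers.rank] at this
    exact_mod_cast this
  rw [map_mul, map_pow, map_pow, absNorm_differentIdeal K (𝓞 K), e2, e3, ← pow_mul, mul_comm _ 4,
    pow_mul, ← mul_pow] at hn
  have := hp.pos
  exact Nat.le_of_dvd (by positivity) hn

theorem u0pC (hV : VAL) (hTH : TH) (hDF : DF) (hWL : WL) (hTM : TM) (hCE : CE) (hG : G60)
    (hP' : GP) (hFB : FB) (hCN : CN) (hNC : NC) {p : ℕ} (hp : Odd p) (hB : BD p) : U0P p := by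
  intro K _ _ _ k _ _ ι hι hu h3
  by_contra hs
  obtain ⟨h6, m, hm⟩ := hG (Ga K) k ι hι hs
  have en : Nat.card (Ga K) = Module.finrank ℚ K := IsGalois.card_aut_eq_finrank ℚ K
  rw [en] at h6 hm
  have a := hB K h6 ⟨m, hm⟩
  have b : (discr K).natAbs ^ 2 ≤ (16 * p) ^ Module.finrank ℚ K := gcpC hp K fun P hP h0 => by
    obtain ⟨θ, a1, a2⟩ := hTH K P hP h0
    obtain ⟨b1, b2⟩ := hDF K P hP h0 θ a1 a2
    refine (Nat.mul_le_mul_left _ b2).trans ?_
    by_cases h2 : (2 : 𝓞 K) ∈ P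
    · have key : ∑ s ∈ I1 P, w P (s • θ - θ) ≤ 2 * w P 2 := by
        rcases hTM K P hP h0 h2 k ι hι θ a1 b1 with h | h
        · obtain ⟨φ, hφ⟩ := hFB K P hP h0 h2
          by_cases c : ∀ s : Ga K, In P s → φ * s = s * φ → s = 1
          · exact hNC K P hP h0 h2 θ a1 b1 h φ hφ c
          · push Not at c
            obtain ⟨s, c1, c2, c3⟩ := c
            have inv : ∀ t : Ga K, In P t → t⁻¹ = t := fun t ht =>
              inv_eq_of_mul_eq_one_right (h t ht)
            have d := hCN K P hP h0 h2 θ b1 h φ hφ fun t ht =>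
              hP' (Ga K) k ι hι s φ t c3 (h s c1) c2 (by
                have := inv _ ((H57.IG P).mul_mem ht c1)
                rw [mul_inv_rev, inv s c1, inv t ht] at this
                exact this.symm)
            have e := hWL K P hP h0 h2 θ a1 b1 h
            refine Nat.le_of_mul_le_mul_left (c := 2 * ((I1 P).card + 1)) (e.trans ?_) (by omega)
            rw [← mul_assoc]
            exact Nat.mul_le_mul_right _ (by omega)
        · have c : ∑ s ∈ I1 P, w P (s • θ - θ) ≤ (I1 P).card := by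
            simpa using Finset.sum_le_card_nsmul _ _ 1 h
          have d := c.trans (hCE K P hP h0 h2)
          omega
      omega
    · by_cases h4 : (p : 𝓞 K) ∈ P
      · have := tpC hV hp K P hP h0 h4 θ a1 b1 (h3 P hP h4)
        omega
      · have e : I1 P = ∅ := by
          refine Finset.eq_empty_of_forall_notMem fun s hs => ?_
          simp only [I1, Finset.mem_filter, Finset.mem_univ, true_and] at hs
          exact hs.2 (hu P hP h0 h2 h4 s hs.1)
        simp [e]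
  exact absurd a (not_lt.2 b)

theorem lvpC {q : ℕ} (h : U0P q) : LVP q := by
  intro k _ _ ρ hop hun h3
  let j : ℚ →+* Qb := algebraMap ℚ Qb
  have hall : ∀ g : GQ, g ∈ GK j := fun g x => g.commutes x
  obtain ⟨L, _, _, inst, hG, jL, σ, D, -, hker⟩ :=
    exists_fld j ρ.ker hop (fun g _ => hall g)
      (fun g _ u hu => (MonoidHom.normal_ker ρ).conj_mem u hu g)
  obtain rfl : inst = DivisionRing.toRatAlgebra := Subsingleton.elim _ _
  let τ : GK j →* GL (Fin 2) k := ρ.comp (GK j).subtype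
  have hle : σ.ker ≤ τ.ker := fun g hg => (hker g).1 hg
  let ι : Ga L →* GL (Fin 2) k := σ.liftOfSurjective D.surj ⟨τ, hle⟩
  have hι : ∀ g : GK j, ι (σ g) = ρ g := fun g =>
    MonoidHom.liftOfRightInverse_comp_apply σ _ _ ⟨τ, hle⟩ g
  have hinj : Function.Injective ι := by
    rw [injective_iff_map_eq_one]
    intro s hs
    obtain ⟨g, rfl⟩ := D.surj s
    rw [hι] at hs
    exact (hker g).2 hs
  have hs : Group.IsSolvable (Ga L) := by
    refine h L k ι hinj ?_ ?_
    · intro P hP h0 h2 k3 s hs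
      obtain ⟨p, hp, hpP⟩ := inf_ex_prime P hP h0
      have hp2 : p ≠ 2 := by
        rintro rfl
        exact h2 (by simpa using hpP)
      have hp3 : p ≠ q := by
        rintro rfl
        exact k3 hpP
      obtain ⟨Q, hQ, rfl⟩ := exists_above jL P hP
      have hpQ : (p : 𝓞 Qb) ∈ Q := by
        have h1 : RingOfIntegers.mapRingHom jL (p : 𝓞 L) ∈ Q := hpP
        rwa [map_natCast] at h1
      refine D.inertia_eq_bot hQ (fun g hg => (hker g).2 ?_) hs
      exact hun p hp hp2 hp3 Q hQ hpQ g hg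
    · intro P hP k3 s hs
      obtain ⟨Q, hQ, rfl⟩ := exists_above jL P hP
      have hpQ : (q : 𝓞 Qb) ∈ Q := by
        have h1 : RingOfIntegers.mapRingHom jL (q : 𝓞 L) ∈ Q := k3
        rwa [map_natCast] at h1
      obtain ⟨g, rfl, hg⟩ := D.inertia_lift hQ hs
      refine hinj ?_
      rw [map_mul, map_one, hι]
      exact h3 Q hQ hpQ g hg
  have hr : ρ.range = ι.range := by
    ext x
    constructor
    · rintro ⟨g, rfl⟩
      exact ⟨σ ⟨g, hall g⟩, hι _⟩
    · rintro ⟨s, rfl⟩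
      obtain ⟨g, rfl⟩ := D.surj s
      exact ⟨g, (hι g).symm⟩
  rw [hr]
  exact solvable_of_surjective ι.rangeRestrict_surjective

theorem lvp (hV : VAL) (hTH : TH) (hDF : DF) (hWL : WL) (hTM : TM) (hCE : CE) (hG : G60)
    (hP' : GP) (hFB : FB) (hCN : CN) (hNC : NC) {p : ℕ} (hp : Odd p) (hB : BD p) : LVP p :=
  lvpC (u0pC hV hTH hDF hWL hTM hCE hG hP' hFB hCN hNC hp hB)

end Vale.Agent.P022U.H37
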