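import Mathlib

/-!
# P022U: a lower bound for the discriminant from many lattice points
-/

set_option linter.all false

open NumberField NumberField.InfinitePlace NumberField.mixedEmbedding MeasureTheory Module
open scoped ENNReal

noncomputable section

namespace Vale.Agent.P022U.H83

theorem hadamard {m : ℕ} (A : Matrix (Fin m) (Fin m) ℂ) :
    ‖A.det‖ ^ 2 ≤ ∏ i, ∑ k, ‖A i k‖ ^ 2 := by
  let f : Fin m → EuclideanSpace ℂ (Fin m) := fun i => WithLp.toLp 2 (A i)
  have h : finrank ℂ (EuclideanSpace ℂ (Fin m)) = Fintype.card (Fin m) := finrank_euclideanSpace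
  let b := InnerProductSpace.gramSchmidtOrthonormalBasis h f
  let e := EuclideanSpace.basisFun (Fin m) ℂ
  have e1 : e.toBasis.det f = A.det := by
    rw [Basis.det_apply, ← Matrix.det_transpose A]
    rfl
  have e2 : e.toBasis.det f = e.toBasis.det b * b.toBasis.det f := by
    have := DFunLike.congr_fun (e.toBasis.det.eq_smul_basis_det b.toBasis) f
    rwa [AlternatingMap.smul_apply, smul_eq_mul, OrthonormalBasis.coe_toBasis] at this
  rw [← e1, e2, norm_mul, OrthonormalBasis.det_to_matrix_orthonormalBasis, one_mul,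
    InnerProductSpace.gramSchmidtOrthonormalBasis_det, norm_prod, ← Finset.prod_pow]
  refine Finset.prod_le_prod (fun _ _ => by positivity) fun i _ => ?_
  have := norm_inner_le_norm (𝕜 := ℂ) (b i) (f i)
  rw [b.orthonormal.1, one_mul] at this
  exact (pow_le_pow_left₀ (norm_nonneg _) this 2).trans_eq (EuclideanSpace.norm_sq_eq _)

theorem row (m : ℕ) {x : ℝ} (hx : 0 ≤ x) :
    ∑ k : Fin m, x ^ (2 * k.1) / (2 * k.1).factorial ≤ Real.exp x := by
  refine le_trans ?_ (Real.sum_le_exp_of_nonneg hx (2 * m))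
  rw [← Finset.sum_image (s := Finset.univ) (g := fun k : Fin m => 2 * k.1)
    (f := fun j => x ^ j / j.factorial) fun a _ b _ e => Fin.ext (by simpa using e)]
  refine Finset.sum_le_sum_of_subset_of_nonneg (fun j hj => ?_) fun _ _ _ => by positivity
  obtain ⟨k, -, rfl⟩ := Finset.mem_image.1 hj
  exact Finset.mem_range.2 (by have := k.2; omega)

theorem vdm {m : ℕ} (z : Fin m → ℂ) {l : ℝ} (hl : 0 ≤ l) :
    (∏ k : Fin m, l ^ (2 * k.1) / (2 * k.1).factorial) * ‖(Matrix.vandermonde z).det‖ ^ 2 ≤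
      Real.exp (l * ∑ i, ‖z i‖) := by
  let c : Fin m → ℝ := fun k => √(l ^ (2 * k.1) / (2 * k.1).factorial)
  have hc : ∀ k, c k ^ 2 = l ^ (2 * k.1) / (2 * k.1).factorial := fun k =>
    Real.sq_sqrt (by positivity)
  have nc : ∀ k, ‖(c k : ℂ)‖ ^ 2 = l ^ (2 * k.1) / (2 * k.1).factorial := fun k => by
    rw [Complex.norm_real, Real.norm_eq_abs, sq_abs, hc]
  have := hadamard (Matrix.vandermonde z * Matrix.diagonal fun k => (c k : ℂ))
  rw [Matrix.det_mul, Matrix.det_diagonal, norm_mul, mul_pow, norm_prod, ← Finset.prod_pow,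
    Finset.prod_congr rfl fun k _ => nc k, mul_comm] at this
  refine this.trans ?_
  rw [Finset.mul_sum, Real.exp_sum]
  refine Finset.prod_le_prod (fun _ _ => by positivity) fun i _ => ?_
  refine le_trans (le_of_eq (Finset.sum_congr rfl fun k _ => ?_))
    (row m (mul_nonneg hl (norm_nonneg (z i))))
  rw [Matrix.mul_diagonal, Matrix.vandermonde_apply, norm_mul, mul_pow, nc, norm_pow]
  ring

theorem many {E L : Type} [MeasurableSpace E] [AddGroup L] [Countable L] [AddAction L E]
    [MeasurableConstVAdd L E] {μ : Measure E} [VAddInvariantMeasure L E μ] {F S : Set E}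
    (hF : IsAddFundamentalDomain L F μ) (hS : MeasurableSet S) (M : ℕ)
    (h : ∀ (x : E) (T : Finset L), (∀ l ∈ T, l +ᵥ x ∈ S) → T.card ≤ M) : μ S ≤ M * μ F := by
  classical
  rw [← lintegral_indicator_one hS, hF.lintegral_eq_tsum'',
    ← lintegral_tsum (f := fun (l : L) x => S.indicator (1 : E → ℝ≥0∞) (l +ᵥ x)) fun l =>
    ((measurable_one.indicator hS).comp (measurable_const_vadd l)).aemeasurable,
    ← setLIntegral_const]
  refine lintegral_mono fun x => ?_
  change ∑' l : L, S.indicator (1 : E → ℝ≥0∞) (l +ᵥ x) ≤ M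
  rw [ENNReal.tsum_eq_iSup_sum]
  refine iSup_le fun T => ?_
  simp only [Set.indicator_apply, Pi.one_apply, Finset.sum_boole]
  exact Nat.cast_le.2 (h x _ fun l hl => (Finset.mem_filter.1 hl).2)

variable {K : Type} [Field K] [NumberField K]

theorem place (w : InfinitePlace K) (t : mixedSpace K) : ∃ u : ℂ, ∀ x : K,
    normAtPlace w (mixedEmbedding K x + t) = ‖w.embedding x + u‖ := by
  by_cases h : w.IsReal
  · refine ⟨t.1 ⟨w, h⟩, fun x => ?_⟩
    rw [normAtPlace_apply_of_isReal h, Prod.fst_add, Pi.add_apply, mixedEmbedding_apply_isReal,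
      ← Complex.norm_real, Complex.ofReal_add, embedding_of_isReal_apply]
  · refine ⟨t.2 ⟨w, not_isReal_iff_isComplex.1 h⟩, fun x => ?_⟩
    rw [normAtPlace_apply_of_isComplex (not_isReal_iff_isComplex.1 h), Prod.snd_add, Pi.add_apply,
      mixedEmbedding_apply_isComplex]

theorem pts {m : ℕ} (x : Fin m → 𝓞 K) (hx : Function.Injective x) (t : mixedSpace K) {B l : ℝ}
    (hl : 0 ≤ l) (h : ∀ i, mixedEmbedding K (x i) + t ∈ convexBodySum K B) :
    (∏ k : Fin m, l ^ (2 * k.1) / (2 * k.1).factorial) ^ finrank ℚ K ≤ Real.exp (l * (m * B)) := by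
  set c := ∏ k : Fin m, l ^ (2 * k.1) / (2 * k.1).factorial
  have c0 : 0 ≤ c := Finset.prod_nonneg fun _ _ => by positivity
  set D := (Matrix.vandermonde x).det with hD
  have D0 : D ≠ 0 := Matrix.det_vandermonde_ne_zero_iff.2 hx
  have n1 : (1 : ℝ) ≤ ∏ w : InfinitePlace K, w (D : K) ^ w.mult := by
    rw [prod_eq_abs_norm, ← Algebra.coe_norm_int, ← Int.cast_abs, Rat.cast_intCast]
    exact_mod_cast Int.one_le_abs (Algebra.norm_ne_zero_iff.2 D0)
  have k : ∀ w : InfinitePlace K, c * w (D : K) ^ 2 ≤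
      Real.exp (l * ∑ i, normAtPlace w (mixedEmbedding K (x i) + t)) := fun w => by
    obtain ⟨u, hu⟩ := place w t
    have := vdm (fun i => w.embedding (x i : K) + u) hl
    rw [Matrix.det_vandermonde_add] at this
    simp only [hu]
    refine le_trans (le_of_eq ?_) this
    have e : w.embedding (D : K) = (Matrix.vandermonde fun i => w.embedding (x i : K)).det := by
      rw [hD, Matrix.det_vandermonde, Matrix.det_vandermonde]
      simp
    rw [← e, norm_embedding_eq]
  calc c ^ finrank ℚ K ≤ c ^ finrank ℚ K * (∏ w : InfinitePlace K, w (D : K) ^ w.mult) ^ 2 :=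
        le_mul_of_one_le_right (pow_nonneg c0 _) (one_le_pow₀ n1)
    _ = ∏ w : InfinitePlace K, (c * w (D : K) ^ 2) ^ w.mult := by
        rw [← sum_mult_eq, ← Finset.prod_pow_eq_pow_sum, ← Finset.prod_pow,
          ← Finset.prod_mul_distrib]
        exact Finset.prod_congr rfl fun w _ => by ring
    _ ≤ ∏ w : InfinitePlace K,
          Real.exp (w.mult * (l * ∑ i, normAtPlace w (mixedEmbedding K (x i) + t))) :=
        Finset.prod_le_prod (fun w _ => pow_nonneg (mul_nonneg c0 (sq_nonneg _)) _) fun w _ => by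
          rw [Real.exp_nat_mul]
          exact pow_le_pow_left₀ (mul_nonneg c0 (sq_nonneg _)) (k w) _
    _ ≤ _ := by
        rw [← Real.exp_sum, Real.exp_le_exp]
        have : ∑ w : InfinitePlace K, w.mult * (l * ∑ i,
            normAtPlace w (mixedEmbedding K (x i) + t)) =
            l * ∑ i, convexBodySumFun (mixedEmbedding K (x i) + t) := by
          simp only [convexBodySumFun_apply, Finset.mul_sum]
          rw [Finset.sum_comm]
          exact Finset.sum_congr rfl fun i _ => Finset.sum_congr rfl fun w _ => by ring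
        rw [this]
        refine mul_le_mul_of_nonneg_left ?_ hl
        simpa using Finset.sum_le_card_nsmul Finset.univ _ B fun i _ => h i

theorem num1 : Real.exp 1550 < ∏ k : Fin 40, (51 : ℝ) ^ (2 * k.1) / (2 * k.1).factorial := by
  have a : 27183 ^ 1550 * ∏ k : Fin 40, (2 * k.1).factorial <
      (∏ k : Fin 40, 51 ^ (2 * k.1)) * 10000 ^ 1550 := by decide +kernel
  have b : Real.exp 1550 ≤ (27183 / 10000) ^ 1550 := by
    rw [show (1550 : ℝ) = (1550 : ℕ) * 1 by norm_num, Real.exp_nat_mul]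
    exact pow_le_pow_left₀ (Real.exp_pos 1).le (Real.exp_one_lt_d9.le.trans (by norm_num)) _
  refine b.trans_lt ?_
  rw [Finset.prod_div_distrib, div_pow, div_lt_div_iff₀ (by positivity) (by positivity)]
  have := (Nat.cast_lt (α := ℝ)).2 a
  rwa [Nat.cast_mul, Nat.cast_mul, Nat.cast_pow, Nat.cast_pow, Nat.cast_prod, Nat.cast_prod,
    Finset.prod_congr rfl fun k _ => Nat.cast_pow 51 _] at this

open scoped Classical in
theorem vol (K : Type) [Field K] [NumberField K] :
    volume (convexBodySum K (finrank ℚ K * (155 / 204))) ≤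
      (39 : ℕ) * volume (ZSpan.fundamentalDomain (latticeBasis K)) := by
  haveI : Countable (Submodule.span ℤ (Set.range (latticeBasis K))).toAddSubgroup :=
    inferInstanceAs (Countable (Submodule.span ℤ (Set.range (latticeBasis K))))
  refine many (ZSpan.isAddFundamentalDomain' (latticeBasis K) volume)
    (convexBodySum_compact K _).measurableSet 39 fun t T hT => ?_
  by_contra c
  obtain ⟨T', h1, h2⟩ := Finset.exists_subset_card_eq (not_le.1 c)
  let e := (T'.equivFinOfCardEq h2).symm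
  have ex : ∀ i, ∃ y : 𝓞 K, mixedEmbedding K y = ((e i).1 : mixedSpace K) := fun i =>
    (mem_span_latticeBasis K).1 (e i).1.2
  choose x hx using ex
  have := pts x (fun i j k => e.injective (Subtype.ext (Subtype.ext (by rw [← hx, ← hx, k])))) t
    (l := 51) (by norm_num) fun i => by rw [hx]; exact hT _ (h1 (e i).2)
  rw [show (51 : ℝ) * ((39 + 1 : ℕ) * (finrank ℚ K * (155 / 204))) = (finrank ℚ K : ℕ) * 1550 by
    push_cast; ring, Real.exp_nat_mul] at this
  exact absurd this (not_le.2 (pow_lt_pow_left₀ num1 (Real.exp_pos _).le finrank_pos.ne'))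

theorem fact (n : ℕ) (hn : 1 ≤ n) :
    (n.factorial : ℝ) ^ 2 ≤ Real.exp 1 ^ 2 * n * (n / Real.exp 1) ^ (2 * n) := by
  obtain ⟨k, rfl⟩ : ∃ k, n = k + 1 := ⟨n - 1, by omega⟩
  have := Stirling.stirlingSeq'_antitone (Nat.zero_le k)
  change Stirling.stirlingSeq (k + 1) ≤ Stirling.stirlingSeq 1 at this
  rw [Stirling.stirlingSeq_one, Stirling.stirlingSeq, div_le_iff₀ (by positivity)] at this
  refine (pow_le_pow_left₀ (by positivity) this 2).trans_eq ?_
  rw [mul_pow, mul_pow, div_pow, Real.sq_sqrt (by positivity), Real.sq_sqrt (by positivity)]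
  ring

theorem num2 (n : ℕ) (hn : 60 ≤ n) : (11240 : ℝ) * n < 1.265 ^ n := by
  induction n, hn using Nat.le_induction with
  | base => norm_num
  | succ n hn ih =>
    have : (60 : ℝ) ≤ n := by exact_mod_cast hn
    rw [pow_succ]
    push_cast
    nlinarith

theorem num3 : (1.265 : ℝ) * 10.59 ≤ Real.pi * (155 / 204 * Real.exp 1) ^ 2 := by
  have a := Real.pi_gt_d4
  have b := Real.exp_one_gt_d9
  have c : (155 / 204 * 2.7182818283 : ℝ) ^ 2 ≤ (155 / 204 * Real.exp 1) ^ 2 := by gcongr
  refine le_trans (by norm_num) (mul_le_mul a.le c (by positivity) Real.pi_pos.le)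

theorem num4 (n : ℕ) (hn : 60 ≤ n) {d : ℝ}
    (h : Real.pi ^ n * ((n * (155 / 204)) ^ n / n.factorial) ^ 2 ≤ 1521 * d) : 10.59 ^ n < d := by
  have n0 : (0 : ℝ) < n := by exact_mod_cast (by omega : 0 < n)
  have e0 := Real.exp_pos 1
  have e2 : Real.exp 1 ^ 2 ≤ 7.3891 :=
    (pow_le_pow_left₀ e0.le Real.exp_one_lt_d9.le 2).trans (by norm_num)
  have a : (Real.pi * (155 / 204 * Real.exp 1) ^ 2) ^ n / (Real.exp 1 ^ 2 * n) ≤ 1521 * d := by
    refine le_trans ?_ h
    rw [div_pow, ← mul_div_assoc, div_le_div_iff₀ (by positivity) (by positivity)]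
    refine (mul_le_mul_of_nonneg_left (fact n (by omega)) (by positivity)).trans_eq ?_
    have : (155 / 204 * Real.exp 1) * (n / Real.exp 1) = n * (155 / 204) := by field_simp
    rw [← this, mul_pow Real.pi, mul_pow (155 / 204 * Real.exp 1), ← pow_mul]
    ring
  rw [div_le_iff₀ (by positivity)] at a
  have b := (pow_le_pow_left₀ (by norm_num) num3 n).trans a
  rw [mul_pow] at b
  have q : (0 : ℝ) < 10.59 ^ n := by positivity
  have c := mul_lt_mul_of_pos_right (num2 n hn) q
  by_contra k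
  have k1 : 1521 * d * (Real.exp 1 ^ 2 * n) ≤ 1521 * 10.59 ^ n * (7.3891 * n) := by
    gcongr
    exact not_lt.1 k
  nlinarith [mul_pos n0 q]

/-- **the bound** -/
theorem mh (K : Type) [Field K] [NumberField K] (hn : 60 ≤ finrank ℚ K) :
    112 ^ finrank ℚ K < (discr K).natAbs ^ 2 := by
  have v := ENNReal.toReal_mono (by
    rw [volume_fundamentalDomain_latticeBasis]
    exact ENNReal.mul_ne_top (ENNReal.natCast_ne_top _)
      (ENNReal.mul_ne_top (ENNReal.pow_ne_top (by simp)) ENNReal.coe_ne_top)) (vol K)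
  rw [convexBodySum_volume, volume_fundamentalDomain_latticeBasis] at v
  simp only [ENNReal.toReal_mul, ENNReal.toReal_pow, ENNReal.toReal_inv, ENNReal.coe_toReal,
    ENNReal.toReal_ofNat, ENNReal.toReal_natCast, NNReal.coe_div, NNReal.coe_mul, NNReal.coe_pow,
    NNReal.coe_real_pi, NNReal.coe_ofNat, NNReal.coe_natCast, Real.coe_sqrt, coe_nnnorm] at v
  rw [ENNReal.toReal_ofReal (by positivity)] at v
  have r := card_add_two_mul_card_eq_rank K
  set n := finrank ℚ K
  set r1 := nrRealPlaces K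
  set r2 := nrComplexPlaces K
  set u : ℝ := (n * (155 / 204)) ^ n / n.factorial with hu
  have v1 : 2 ^ r1 * Real.pi ^ r2 * u ≤ 39 * √‖discr K‖ := by
    have := mul_le_mul_of_nonneg_left v (show (0 : ℝ) ≤ 2 ^ r2 by positivity)
    refine le_trans (le_of_eq ?_) (this.trans_eq ?_)
    · rw [hu, div_pow]; field_simp
    · rw [inv_pow]; push_cast; field_simp
  have u0 : 0 ≤ u := by positivity
  have v2 := pow_le_pow_left₀ (by positivity) v1 2
  rw [mul_pow 39, Real.sq_sqrt (norm_nonneg _)] at v2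
  have p : Real.pi ^ n ≤ (2 ^ r1 * Real.pi ^ r2) ^ 2 := by
    rw [← r, pow_add, mul_pow, ← pow_mul, ← pow_mul, mul_comm r1, mul_comm r2, pow_mul 2]
    gcongr
    linarith [Real.pi_le_four]
  have q := num4 n hn (d := ‖discr K‖) (by
    rw [← hu]
    refine (mul_le_mul_of_nonneg_right p (sq_nonneg u)).trans ?_
    rw [← mul_pow]
    exact v2.trans_eq (by norm_num))
  have : (112 : ℝ) ^ n < ‖discr K‖ ^ 2 :=
    calc (112 : ℝ) ^ n ≤ (10.59 ^ 2) ^ n := pow_le_pow_left₀ (by norm_num) (by norm_num) n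
      _ = (10.59 ^ n) ^ 2 := by rw [← pow_mul, ← pow_mul, mul_comm]
      _ < _ := pow_lt_pow_left₀ q (by positivity) two_ne_zero
  rw [Int.norm_eq_abs, ← Int.cast_abs, ← Int.natCast_natAbs] at this
  exact_mod_cast this

end Vale.Agent.P022U.H83
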