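import Vale.Agent.P022T.TateH92
import Vale.Agent.P022U.GenH37
import Vale.Agent.P022U.MhH83
import Vale.Agent.P022U.G60H27
import Vale.Agent.P022U.GpH8
import Vale.Agent.P022U.Fb
import Vale.Agent.P022U.Cn
import Vale.Agent.P022U.NcH72

/-!
P022U: residual representations unramified outside `2 q`, `q` odd and at most seven, whose inertia
groups at `q` act by involutions, have solvable image.
-/

set_option linter.all false

noncomputable section

namespace Vale.Agent.P022U.H12

open Vale.Agent.P022T

theorem lvp {q : ℕ} (h : Odd q) (h7 : q ≤ 7) : H37.LVP q :=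
  H37.lvp valC H57.thC (dfC valC) (H83.wlC valC (H88.co valC)) H65.tmC ce H27.g60C H8.gpC fbC
    (Cn.cnC valC) (H72.ncC valC (H88.co valC)) h
    (H37.BD.mono (q := 7) (fun K _ _ h6 _ => Vale.Agent.P022U.H83.mh K h6) h7)

theorem lv7 {q : ℕ} (h : q = 3 ∨ q = 5 ∨ q = 7) : H37.LVP q := by
  rcases h with rfl | rfl | rfl <;> exact lvp (by decide) (by decide)

end Vale.Agent.P022U.H12
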