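import Vale.Agent.P022U.Defs
import Vale.Agent.P022T.GtH13

/-!
# P022U: the order of a linear group which is not solvable
-/

set_option linter.all false

open Matrix

noncomputable section

namespace Vale.Agent.P022U.H48

open Vale.Agent.P022T.H13

variable {k : Type} [Field k] {G : Type} [Group G] {ι : G →* GL (Fin 2) k}

theorem sq1 [CharP k 2] {x : k} (h : x * x = 1) : x = 1 := by
  have h2 : (2 : k) = 0 := CharP.cast_eq_zero k 2
  have : (x - 1) * (x - 1) = 0 := by linear_combination h + (1 - x) * h2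
  exact sub_eq_zero.1 (mul_self_eq_zero.1 this)

theorem pw1 [CharP k 2] : ∀ (n : ℕ) {x : k}, x ^ 2 ^ n = 1 → x = 1
  | 0, x, h => by simpa using h
  | n + 1, x, h => pw1 n (sq1 (by rw [← pow_two, ← pow_mul, ← pow_succ]; exact h))

theorem uni [CharP k 2] (hi : Function.Injective ι) {v : Fin 2 → k} (hv : v ≠ 0) {x : G}
    (h1 : mt ι x *ᵥ v = v) (h2 : (mt ι x).det = 1) : x * x = 1 := by
  have two : (2 : k) = 0 := CharP.cast_eq_zero k 2
  obtain ⟨w, hw⟩ := exw hv
  have h4 := cr_mul (mt ι x) v w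
  rw [h1, h2, one_mul] at h4
  obtain ⟨c, hc⟩ := par (u := mt ι x *ᵥ w - w) hv (by
    unfold cr at h4 ⊢
    simp only [Pi.sub_apply]
    linear_combination h4)
  have h5 : mt ι x *ᵥ w = w + c • v := by rw [← hc]; abel
  refine eq_of hi hw (by rw [mt_mul, h1, h1, mt_one]) ?_
  rw [mt_mul, h5, mulVec_add, mulVec_smul, h1, h5, mt_one]
  funext i
  simp only [Pi.add_apply, Pi.smul_apply, smul_eq_mul]
  linear_combination (c * v i) * two

theorem eig [IsAlgClosed k] (x : G) :
    ∃ (v : Fin 2 → k) (a : k), v ≠ 0 ∧ mt ι x *ᵥ v = a • v := by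
  obtain ⟨a, ha⟩ := Module.End.exists_eigenvalue (Matrix.toLin' (mt ι x))
  obtain ⟨v, hv⟩ := ha.exists_hasEigenvector
  exact ⟨v, a, hv.2, by rw [← Matrix.toLin'_apply]; exact hv.apply_eq_smul⟩

theorem powv {v : Fin 2 → k} {a : k} {x : G} (h : mt ι x *ᵥ v = a • v) :
    ∀ n : ℕ, mt ι (x ^ n) *ᵥ v = a ^ n • v
  | 0 => by rw [pow_zero, pow_zero, mt_one, one_smul]
  | n + 1 => by rw [pow_succ, mt_mul, h, mulVec_smul, powv h n, smul_smul, pow_succ']

theorem two_el [CharP k 2] [IsAlgClosed k] (hi : Function.Injective ι)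
    (hd : ∀ g, (mt ι g).det = 1) {x : G} {n : ℕ} (h : x ^ 2 ^ n = 1) : x * x = 1 := by
  obtain ⟨v, a, hv, ha⟩ := eig (ι := ι) x
  have e := powv ha (2 ^ n)
  rw [h, mt_one] at e
  have e1 : a ^ 2 ^ n = 1 := smul_left_injective k hv (show a ^ 2 ^ n • v = (1 : k) • v by
    rw [← e, one_smul])
  rw [pw1 n e1, one_smul] at ha
  exact uni hi hv ha (hd x)

theorem cyc [CharP k 2] [IsAlgClosed k] [Finite G] (hi : Function.Injective ι)
    (hd : ∀ g, (mt ι g).det = 1) {p : ℕ} [hp : Fact p.Prime] (h2 : p ≠ 2) (P : Subgroup G)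
    (hP : IsPGroup p P) : IsCyclic P := by
  rcases subsingleton_or_nontrivial P with c | c
  · exact isCyclic_of_subsingleton
  have odd : ∀ x : P, (x : G) * x = 1 → x = 1 := fun x hx => by
    obtain ⟨n, hn⟩ := hP x
    have a : orderOf x ∣ 2 := orderOf_dvd_of_pow_eq_one (Subtype.ext (by
      rw [pow_two]; exact hx))
    have b : orderOf x ∣ p ^ n := orderOf_dvd_of_pow_eq_one hn
    have cp : Nat.Coprime 2 (p ^ n) :=
      Nat.Coprime.pow_right n ((Nat.coprime_primes Nat.prime_two hp.out).2 h2.symm)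
    exact orderOf_eq_one_iff.1 (Nat.eq_one_of_dvd_coprimes cp a b)
  haveI := hP.center_nontrivial
  obtain ⟨⟨z, hz⟩, z1⟩ := exists_ne (1 : Subgroup.center P)
  have z1' : z ≠ 1 := fun e => z1 (Subtype.ext e)
  obtain ⟨v, a, hv, ha⟩ := eig (ι := ι) (z : G)
  have inj := smul_left_injective k hv
  have hc : ∀ x : P, cr v (mt ι x *ᵥ v) = 0 := fun x => by
    by_contra hc
    have cm : (z : G) * x = x * z := congrArg Subtype.val (Subgroup.mem_center_iff.1 hz x).symm
    have hb : mt ι z *ᵥ (mt ι x *ᵥ v) = a • (mt ι x *ᵥ v) := by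
      rw [← mt_mul, cm, mt_mul, ha, mulVec_smul]
    have e := cr_mul (mt ι z) v (mt ι x *ᵥ v)
    rw [ha, hb, hd, one_mul] at e
    have a1 : a = 1 := sq1 (mul_right_cancel₀ hc (by
      simp only [cr, Pi.smul_apply, smul_eq_mul] at e ⊢
      linear_combination e))
    rw [a1, one_smul] at ha
    exact z1' (odd z (uni hi hv ha (hd _)))
  choose l hl using fun x => par hv (hc x)
  let χ : P →* k :=
    { toFun := l
      map_one' := inj (show l 1 • v = (1 : k) • v by
        rw [← hl, Subgroup.coe_one, mt_one, one_smul])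
      map_mul' := fun a b => inj (show l (a * b) • v = (l a * l b) • v by
        rw [← hl, Subgroup.coe_mul, mt_mul, hl b, mulVec_smul, hl a, smul_smul, mul_comm]) }
  refine isCyclic_of_injective_ringHom χ ((injective_iff_map_eq_one χ).2 fun x hx => ?_)
  have e : l x = 1 := hx
  exact odd x (uni hi hv (by rw [hl, e, one_smul]) (hd _))

theorem trf [Finite G] (hc : commutator G = ⊤) {p : ℕ} [Fact p.Prime] (P : Sylow p G)
    (h : Subgroup.normalizer (P : Set G) ≤ Subgroup.centralizer (P : Set G)) :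
    (P : Subgroup G) = ⊥ := by
  have c := MonoidHom.ker_transferSylow_isComplement' P h
  have e : (MonoidHom.transferSylow P h).ker = ⊤ := by
    rw [eq_top_iff, ← hc, commutator_def, Subgroup.commutator_le]
    intro a _ b _
    rw [MonoidHom.mem_ker, map_commutatorElement, commutatorElement_eq_one_iff_mul_comm]
    exact Subtype.ext (h (Subgroup.le_normalizer (MonoidHom.transferSylow P h b).2) _
      (MonoidHom.transferSylow P h a).2)
  rw [e] at c
  exact Subgroup.isComplement'_top_left.1 c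

theorem cnt [CharP k 2] [Finite G] (hi : Function.Injective ι) (hG : ¬ Group.IsSolvable G)
    (S N : Subgroup G) (hS : ∀ s ∈ S, s * s = 1) (hSN : S ≤ N)
    (hN : ∀ n ∈ N, ∀ s ∈ S, n⁻¹ * s * n ∈ S) {s0 : G} (h0 : s0 ∈ S) (h1 : s0 ≠ 1) :
    Nat.card N * (Nat.card S + 1) ≤ Nat.card G := by
  obtain ⟨v, hv, hf⟩ := fix hi hS h0 h1
  have hn : ∀ n ∈ N, cr v (mt ι n *ᵥ v) = 0 := fun n hn => by
    by_contra c
    refine h1 (eq_of hi c (by rw [hf _ h0, mt_one]) ?_)
    rw [mt_one, ← mt_mul, show s0 * n = n * (n⁻¹ * s0 * n) by group, mt_mul, hf _ (hN n hn s0 h0)]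
  obtain ⟨g, hg⟩ := not_forall.1 fun e => hG (solv hi hv e)
  have ng : g ∉ N := fun e => hg (hn g e)
  let f : N × Option S → G := fun p => p.2.elim p.1 fun s => s * g * p.1
  have inj : Function.Injective f := by
    rintro ⟨t, _ | s⟩ ⟨t', _ | s'⟩ e
    · exact Prod.ext (Subtype.ext e) rfl
    · refine absurd ?_ ng
      have e' : (t : G) = s' * g * t' := e
      rw [show g = (s' : G)⁻¹ * t * (t' : G)⁻¹ by rw [e']; group]
      exact N.mul_mem (N.mul_mem (N.inv_mem (hSN s'.2)) t.2) (N.inv_mem t'.2)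
    · refine absurd ?_ ng
      have e' : (s : G) * g * t = t' := e
      rw [show g = (s : G)⁻¹ * t' * (t : G)⁻¹ by rw [← e']; group]
      exact N.mul_mem (N.mul_mem (N.inv_mem (hSN s.2)) t'.2) (N.inv_mem t.2)
    · have e' : (s : G) * g * t = s' * g * t' := e
      have e2 : (s' : G)⁻¹ * s * g = g * (t' * (t : G)⁻¹) := by
        rw [mul_assoc, show (s : G) * g = s' * g * t' * (t : G)⁻¹ by rw [← e']; group]
        group
      have m := S.mul_mem (S.inv_mem s'.2) s.2
      obtain ⟨c, hc⟩ := par hv (hn _ (N.mul_mem t'.2 (N.inv_mem t.2)))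
      have gv : mt ι g *ᵥ v ≠ 0 := fun z => hg (by rw [z]; simp [cr])
      have a1 : mt ι ((s' : G)⁻¹ * s) *ᵥ (mt ι g *ᵥ v) = c • (mt ι g *ᵥ v) := by
        rw [← mt_mul, e2, mt_mul, hc, mulVec_smul]
      have a2 : (c * c) • (mt ι g *ᵥ v) = (1 : k) • (mt ι g *ᵥ v) := by
        rw [mul_smul, ← a1, ← mulVec_smul, ← a1, ← mt_mul, hS _ m, mt_one, one_smul]
      have c1 : c = 1 := sq1 (smul_left_injective k gv a2)
      have u : (s' : G)⁻¹ * s = 1 := eq_of hi hg (by rw [hf _ m, mt_one])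
        (by rw [a1, c1, one_smul, mt_one])
      have u' : s = s' := Subtype.ext (inv_mul_eq_one.1 u).symm
      subst u'
      exact Prod.ext (Subtype.ext (mul_left_cancel e')) rfl
  have := Nat.card_le_card_of_injective f inj
  rwa [Nat.card_prod, Finite.card_option] at this

theorem core [CharP k 2] [IsAlgClosed k] [Finite G] (hi : Function.Injective ι)
    (hG : ¬ Group.IsSolvable G) (hc : commutator G = ⊤) : 60 ≤ Nat.card G ∧ Even (Nat.card G) := by
  have hd : ∀ g, (mt ι g).det = 1 := fun g => by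
    have m : g ∈ (GeneralLinearGroup.det.comp ι).ker :=
      Abelianization.commutator_subset_ker _ (hc ▸ Subgroup.mem_top g)
    exact congrArg (fun x : kˣ => (x : k)) (MonoidHom.mem_ker.1 m)
  have h6 := six hG
  have h1 : Nat.card G ≠ 1 := by omega
  have nc : ∀ (p : ℕ) [Fact p.Prime], (Nat.card G).minFac = p → ∀ P : Sylow p G,
      (P : Subgroup G) ≠ ⊥ ∧ ¬ IsCyclic P := fun p _ hp P => by
    have nb : (P : Subgroup G) ≠ ⊥ := P.ne_bot_of_dvd_card (hp ▸ Nat.minFac_dvd _)
    exact ⟨nb, fun c => nb (trf hc P (c.normalizer_le_centralizer hp))⟩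
  have m2 : (Nat.card G).minFac = 2 := by
    by_contra c
    haveI : Fact (Nat.card G).minFac.Prime := ⟨Nat.minFac_prime h1⟩
    obtain ⟨P⟩ : Nonempty (Sylow (Nat.card G).minFac G) := inferInstance
    exact (nc _ rfl P).2 (cyc hi hd c P P.2)
  refine ⟨?_, even_iff_two_dvd.2 (m2 ▸ Nat.minFac_dvd _)⟩
  obtain ⟨P⟩ : Nonempty (Sylow 2 G) := inferInstance
  obtain ⟨nb, ncy⟩ := nc 2 m2 P
  have hS : ∀ s ∈ (P : Subgroup G), s * s = 1 := fun s hs => by
    obtain ⟨n, hn⟩ := P.2 ⟨s, hs⟩
    exact two_el hi hd (congrArg Subtype.val hn)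
  obtain ⟨⟨s0, h0⟩, h1⟩ := (Subgroup.ne_bot_iff_exists_ne_one).1 nb
  have h1' : s0 ≠ 1 := fun e => h1 (Subtype.ext e)
  have le : (P : Subgroup G) ≤ Subgroup.normalizer (P : Set G) := Subgroup.le_normalizer
  have ct := cnt hi hG P (Subgroup.normalizer (P : Set G)) hS le (fun n hn s hs => by
    have := (Subgroup.mem_normalizer_iff.1 (Subgroup.inv_mem _ hn) s).1 hs
    rwa [inv_inv] at this) h0 h1'
  have q4 : 4 ≤ Nat.card P := by
    obtain ⟨n, hn⟩ := P.2.exists_card_eq
    rcases n with _ | _ | n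
    · exact absurd (Subgroup.card_eq_one.1 hn) nb
    · exact absurd (isCyclic_of_prime_card (p := 2) hn) ncy
    · rw [show Nat.card P = 2 ^ (n + 1 + 1) from hn, pow_succ, pow_succ]
      have : 0 < 2 ^ n := by positivity
      omega
  have mu := Subgroup.card_mul_index ((P : Subgroup G).subgroupOf (Subgroup.normalizer (P : Set G)))
  rw [Nat.card_congr (Subgroup.subgroupOfEquivOfLe le).toEquiv] at mu
  set r := ((P : Subgroup G).subgroupOf (Subgroup.normalizer (P : Set G))).index with hr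
  have r2 : ¬ 2 ∣ r := fun e => P.not_dvd_index (e.trans (Subgroup.relIndex_dvd_index_of_le le))
  have r1 : r ≠ 1 := fun e => nb (trf hc P fun n hn => by
    have hn' : n ∈ (P : Subgroup G) := (Subgroup.relIndex_eq_one.1 e) hn
    intro s hs
    have i : ∀ s ∈ (P : Subgroup G), s⁻¹ = s := fun s hs => inv_eq_of_mul_eq_one_right (hS s hs)
    rw [← i _ (Subgroup.mul_mem _ hs hn'), _root_.mul_inv_rev, i s hs, i n hn'])
  have r3 : 3 ≤ r := by omega
  have q4' : 4 ≤ Nat.card (P : Subgroup G) := q4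
  rw [← mu] at ct
  calc 60 = 4 * 3 * (4 + 1) := rfl
    _ ≤ _ := Nat.mul_le_mul (Nat.mul_le_mul q4' r3) (by omega)
    _ ≤ _ := ct

theorem ind (k : Type) [Field k] [CharP k 2] [IsAlgClosed k] : ∀ (n : ℕ) (G : Type) [Group G]
    [Finite G] (ι : G →* GL (Fin 2) k), Nat.card G = n → Function.Injective ι →
    ¬ Group.IsSolvable G → 60 ≤ Nat.card G ∧ Even (Nat.card G) := fun n => by
  induction n using Nat.strong_induction_on with
  | _ n ih =>
    intro G _ _ ι hn hi hG
    by_cases hc : commutator G = ⊤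
    · exact core hi hG hc
    have ns : ¬ Group.IsSolvable (commutator G) := fun c =>
      hG (Group.isSolvable_of_ker_le_range (commutator G).subtype Abelianization.of (by
        rw [Subgroup.range_subtype, Abelianization.ker_of]))
    have le := Subgroup.card_le_card_group (commutator G)
    have lt : Nat.card (commutator G) < n := hn ▸ lt_of_le_of_ne le fun e =>
      hc (Subgroup.eq_top_of_card_eq _ e)
    obtain ⟨a, b⟩ := ih _ lt (commutator G) (ι.comp (commutator G).subtype) rfl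
      (hi.comp (commutator G).subtype_injective) ns
    exact ⟨a.trans le, even_iff_two_dvd.2
      ((even_iff_two_dvd.1 b).trans (Subgroup.card_subgroup_dvd_card _))⟩

theorem g60C : G60 := by
  intro G _ _ k _ _ ι hi hG
  refine ind (AlgebraicClosure k) _ G
    ((GeneralLinearGroup.map (algebraMap k (AlgebraicClosure k))).comp ι) rfl (fun a b e => hi ?_) hG
  refine Units.ext (Matrix.ext fun i j => (algebraMap k (AlgebraicClosure k)).injective ?_)
  exact congrArg (fun x : GL (Fin 2) (AlgebraicClosure k) =>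
    (x : Matrix (Fin 2) (Fin 2) (AlgebraicClosure k)) i j) e

end Vale.Agent.P022U.H48
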