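import Mathlib

/-!
# Groups of order less than sixty are solvable
-/

set_option linter.all false

namespace Vale.Agent.P022U.H52

open Subgroup Group

variable {G : Type} [Group G] [Finite G]

theorem psol {p k : ℕ} (hp : p.Prime) (h : Nat.card G = p ^ k) : Group.IsSolvable G := by
  haveI := Fact.mk hp
  haveI := (IsPGroup.of_card h).isNilpotent
  infer_instance

theorem burn [IsPerfect G] {p : ℕ} [Fact p.Prime] (P : Sylow p G)
    (hP : normalizer (P : Set G) ≤ centralizer (P : Set G)) : ¬ p ∣ Nat.card G := by
  haveI : Group.IsSolvable P := by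
    haveI := P.2.isNilpotent
    infer_instance
  have h1 := MonoidHom.not_dvd_card_ker_transferSylow P hP
  haveI := IsPerfect.range (MonoidHom.transferSylow P hP)
  haveI : Subsingleton (MonoidHom.transferSylow P hP).range := by
    by_contra c
    haveI := not_subsingleton_iff_nontrivial.1 c
    exact IsPerfect.not_isSolvable (MonoidHom.transferSylow P hP).range inferInstance
  have h2 : (MonoidHom.transferSylow P hP).ker = ⊤ := eq_top_iff.2 fun g _ =>
    congrArg Subtype.val (Subsingleton.elim (α := (MonoidHom.transferSylow P hP).range)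
      ⟨_, g, rfl⟩ 1)
  rwa [h2, card_top] at h1

theorem small [IsPerfect G] (h1 : Nat.card G ≠ 1) : (Nat.card G).minFac ^ 2 ∣ Nat.card G := by
  by_contra c
  have hp := Nat.minFac_prime h1
  haveI := Fact.mk hp
  obtain ⟨P⟩ : Nonempty (Sylow (Nat.card G).minFac G) := inferInstance
  obtain ⟨k, hk⟩ := P.2.exists_card_eq
  have h2 : (Nat.card G).minFac ^ k ∣ Nat.card G := hk ▸ card_subgroup_dvd_card _
  have h3 : k ≤ 1 := by
    by_contra e
    exact c ((pow_dvd_pow _ (by omega)).trans h2)
  have h4 : IsCyclic P := isCyclic_of_card_dvd_prime (p := (Nat.card G).minFac) (by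
    rw [hk]
    exact (pow_dvd_pow _ h3).trans (by rw [pow_one]))
  exact burn P (h4.normalizer_le_centralizer rfl) (Nat.minFac_dvd _)

theorem two [IsPerfect G] {q a r b : ℕ} (hq : q.Prime) (hr : r.Prime) (ha : a = 1 ∨ a = 2)
    (hn : Nat.card G = q ^ a * r ^ b) (hf : (q ^ a * r ^ b).factorization q = a)
    (hd : ∀ d ∈ (r ^ b).divisors, d % q = 1 % q → d = 1 ∨ d = r ^ b) : Group.IsSolvable G := by
  haveI := Fact.mk hq
  obtain ⟨P⟩ : Nonempty (Sylow q G) := inferInstance
  have c1 : Nat.card P = q ^ a := by rw [P.card_eq_multiplicity, hn, hf]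
  have c2 : (P : Subgroup G).index = r ^ b := by
    have := (P : Subgroup G).card_mul_index
    rw [c1, hn] at this
    exact Nat.eq_of_mul_eq_mul_left (pow_pos hq.pos _) this
  rcases hd _ (Nat.mem_divisors.2 ⟨c2 ▸ P.card_dvd_index, (pow_pos hr.pos _).ne'⟩)
    (card_sylow_modEq_one q G) with e | e
  · haveI := (Nat.card_eq_one_iff_unique.1 e).1
    haveI := P.normal_of_subsingleton
    haveI := psol (G := P) hq c1
    haveI := psol (G := G ⧸ (P : Subgroup G)) hr c2
    exact isSolvable_of_ker_le_range (P : Subgroup G).subtype (QuotientGroup.mk' P) (by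
      rw [QuotientGroup.ker_mk', range_subtype])
  · have e1 : normalizer (P : Set G) ≤ P := by
      rw [P.card_eq_index_normalizer, ← c2] at e
      have h := relIndex_mul_index (P : Subgroup G).le_normalizer
      have h0 : (P : Subgroup G).index ≠ 0 := c2 ▸ (pow_pos hr.pos _).ne'
      refine relIndex_eq_one.1 (Nat.eq_of_mul_eq_mul_right (Nat.pos_of_ne_zero h0) ?_)
      rw [one_mul]
      exact (congrArg _ e.symm).trans h
    have e2 : ∀ x y : P, x * y = y * x := by
      rcases ha with rfl | rfl
      · haveI : IsCyclic P := isCyclic_of_prime_card (p := q) (c1.trans (pow_one q))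
        exact IsCyclic.commutative.is_comm.comm
      · exact IsPGroup.commutative_of_card_eq_prime_sq c1
    refine absurd ?_ (burn P fun x hx y hy => congrArg Subtype.val (e2 ⟨y, hy⟩ ⟨x, e1 hx⟩))
    rw [hn]
    exact (dvd_pow_self q (by omega)).mul_right _

theorem three [IsPerfect G] (H : Subgroup G) (h : H.index = 3) : False := by
  have h1 : H.normalCore.index ∣ 6 := by
    rw [normalCore_eq_ker, index_ker, show 6 = Nat.factorial H.index by rw [h]; rfl,
      index_eq_card, ← Nat.card_perm]
    exact card_subgroup_dvd_card _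
  have h2 : 3 ∣ H.normalCore.index := h ▸ index_dvd_of_le H.normalCore_le
  have h3 := small (G := G ⧸ H.normalCore)
  rw [← index_eq_card] at h3
  have h4 : H.normalCore.index ≤ 6 := Nat.le_of_dvd (by norm_num) h1
  generalize H.normalCore.index = m at h1 h2 h3 h4
  interval_cases m <;> revert h1 h2 h3 <;> norm_num

theorem syl3 [IsPerfect G] {a : ℕ} (hn : Nat.card G = 2 ^ a * 3)
    (hf : (2 ^ a * 3).factorization 2 = a) : Group.IsSolvable G := by
  obtain ⟨P⟩ : Nonempty (Sylow 2 G) := inferInstance
  have c1 : Nat.card P = 2 ^ a := by rw [P.card_eq_multiplicity, hn, hf]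
  have := (P : Subgroup G).card_mul_index
  rw [c1, hn] at this
  exact (three _ (Nat.eq_of_mul_eq_mul_left (pow_pos two_pos _) this)).elim

theorem fac {q a m : ℕ} (hq : q.Prime) (h : ¬ q ∣ m) : (q ^ a * m).factorization q = a := by
  have m0 : m ≠ 0 := fun e => h (e ▸ dvd_zero q)
  rw [Nat.factorization_mul (pow_pos hq.pos _).ne' m0, Finsupp.add_apply,
    Nat.factorization_eq_zero_of_not_dvd h, hq.factorization_pow, Finsupp.single_eq_same, add_zero]

theorem perf [IsPerfect G] (h : Nat.card G < 60) : Group.IsSolvable G := by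
  by_cases h1 : Nat.card G = 1
  · haveI := (Nat.card_eq_one_iff_unique.1 h1).1
    infer_instance
  have h2 := small h1
  have h0 : 0 < Nat.card G := Nat.card_pos
  have p2 := Nat.prime_two
  have p3 := Nat.prime_three
  have p5 := Nat.prime_five
  have p7 := Nat.prime_seven
  have p11 := Nat.prime_eleven
  have p13 : Nat.Prime 13 := by norm_num
  have h3 : Nat.card G ∈ [4, 8, 16, 32, 9, 27, 25, 49, 12, 24, 48, 20, 28, 40, 44, 45, 52, 36, 56] := by
    generalize Nat.card G = n at h h0 h1 h2
    interval_cases n <;> revert h1 h2 <;> norm_num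
  simp only [List.mem_cons, List.not_mem_nil, or_false] at h3
  rcases h3 with e | e | e | e | e | e | e | e | e | e | e | e | e | e | e | e | e | e | e
  · exact psol (k := 2) p2 e
  · exact psol (k := 3) p2 e
  · exact psol (k := 4) p2 e
  · exact psol (k := 5) p2 e
  · exact psol (k := 2) p3 e
  · exact psol (k := 3) p3 e
  · exact psol (k := 2) p5 e
  · exact psol (k := 2) p7 e
  · exact syl3 (a := 2) e (fac p2 (by norm_num))
  · exact syl3 (a := 3) e (fac p2 (by norm_num))
  · exact syl3 (a := 4) e (fac p2 (by norm_num))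
  · exact two (a := 1) (b := 2) p5 p2 (Or.inl rfl) e (fac p5 (by norm_num)) (by decide)
  · exact two (a := 1) (b := 2) p7 p2 (Or.inl rfl) e (fac p7 (by norm_num)) (by decide)
  · exact two (a := 1) (b := 3) p5 p2 (Or.inl rfl) e (fac p5 (by norm_num)) (by decide)
  · exact two (a := 1) (b := 2) p11 p2 (Or.inl rfl) e (fac p11 (by norm_num)) (by decide)
  · exact two (a := 1) (b := 2) p5 p3 (Or.inl rfl) e (fac p5 (by norm_num)) (by decide)
  · exact two (a := 1) (b := 2) p13 p2 (Or.inl rfl) e (fac p13 (by norm_num)) (by decide)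
  · exact two (a := 2) (b := 2) p3 p2 (Or.inr rfl) e (fac p3 (by norm_num)) (by decide)
  · exact two (a := 1) (b := 3) p7 p2 (Or.inl rfl) e (fac p7 (by norm_num)) (by decide)

theorem aux (n : ℕ) : ∀ (G : Type) [Group G] [Finite G], Nat.card G = n → n < 60 →
    Group.IsSolvable G := by
  induction n using Nat.strong_induction_on with
  | _ n ih =>
    intro G _ _ hn h
    by_cases c : commutator G = ⊤
    · haveI : IsPerfect G := ⟨c⟩
      exact perf (hn ▸ h)
    · have h1 : Nat.card (commutator G) < n := by
        have := (commutator G).card_mul_index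
        have h2 : (commutator G).index ≠ 1 := fun e => c (index_eq_one.1 e)
        have h3 : (commutator G).index ≠ 0 := FiniteIndex.index_ne_zero
        have h4 : 0 < Nat.card (commutator G) := Nat.card_pos
        rw [← hn, ← this]
        exact lt_mul_of_one_lt_right h4 (by omega)
      haveI := ih _ h1 (commutator G) rfl (h1.trans h)
      exact isSolvable_of_ker_le_range (commutator G).subtype (Abelianization.of) (by
        rw [Abelianization.ker_of, range_subtype])

/-- **groups of order less than sixty are solvable** -/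
theorem sixty (G : Type) [Group G] [Finite G] (h : Nat.card G < 60) : Group.IsSolvable G :=
  aux _ G rfl h

end Vale.Agent.P022U.H52
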