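import Vale.Agent.P022U.Defs
import Vale.Agent.P022U.SixH52

/-!
# P022U: the row G60
-/

set_option linter.all false

namespace Vale.Agent.P022U.H52

theorem cm {k : Type} [Field k] [CharP k 2] (A B X : Matrix (Fin 2) (Fin 2) k)
    (hX : X.trace = 1) (hA : A * X = X * A) (hB : B * X = X * B) : A * B = B * A := by
  have h2 : (2 : k) = 0 := CharP.cast_eq_zero k 2
  rw [Matrix.trace_fin_two] at hX
  have key : ∀ C : Matrix (Fin 2) (Fin 2) k, C * X = X * C →
      C 0 1 = X 0 1 * (C 1 1 - C 0 0) ∧ C 1 0 = X 1 0 * (C 0 0 - C 1 1) := fun C h => by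
    have a := congrFun (congrFun h 0) 1
    have b := congrFun (congrFun h 1) 0
    simp only [Matrix.mul_apply, Fin.sum_univ_two] at a b
    exact ⟨by linear_combination a - C 0 1 * hX + C 0 1 * X 0 0 * h2,
      by linear_combination b - C 1 0 * hX + C 1 0 * X 1 1 * h2⟩
  obtain ⟨a1, a2⟩ := key A hA
  obtain ⟨b1, b2⟩ := key B hB
  ext i j
  fin_cases i <;> fin_cases j <;>
    simp only [Matrix.mul_apply, Fin.sum_univ_two, Fin.zero_eta, Fin.mk_one, Fin.isValue] <;>
    (try rw [a1, b1]) <;> (try rw [a2, b2]) <;> ring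

theorem odd (G : Type) [Group G] [Finite G] (k : Type) [Field k] [CharP k 2]
    (ι : G →* GL (Fin 2) k) (hι : Function.Injective ι) (h : Odd (Nat.card G)) (a b : G) :
    a * b = b * a := by
  haveI := Fintype.ofFinite G
  let f : G → Matrix (Fin 2) (Fin 2) k := fun g => ι g
  have fm : ∀ x y, f (x * y) = f x * f y := fun x y => by simp only [f, map_mul, Units.val_mul]
  have f1 : f 1 = 1 := by simp only [f, map_one, Units.val_one]
  let E : Matrix (Fin 2) (Fin 2) k := !![1, 0; 0, 0]
  have hX : (∑ g, f g * E * f g⁻¹).trace = 1 := by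
    rw [Matrix.trace_sum, Finset.sum_congr rfl fun g _ =>
      show (f g * E * f g⁻¹).trace = 1 by
        rw [Matrix.trace_mul_cycle, ← fm, inv_mul_cancel, f1, one_mul, Matrix.trace_fin_two_of,
          add_zero], Finset.sum_const, Finset.card_univ, ← Nat.card_eq_fintype_card, nsmul_one]
    obtain ⟨m, hm⟩ := h
    rw [hm, Nat.cast_add, Nat.cast_mul, CharP.cast_eq_zero k 2, zero_mul, zero_add, Nat.cast_one]
  have hc : ∀ c, f c * (∑ g, f g * E * f g⁻¹) = (∑ g, f g * E * f g⁻¹) * f c := fun c => by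
    rw [Finset.mul_sum, Finset.sum_mul]
    refine Fintype.sum_equiv (Equiv.mulLeft c) _ _ fun g => ?_
    rw [Equiv.coe_mulLeft, mul_assoc _ _ (f c), ← fm, fm c g, mul_inv_rev, inv_mul_cancel_right,
      mul_assoc, mul_assoc, mul_assoc]
  refine hι (Units.ext ?_)
  exact (fm a b).trans ((cm _ _ _ hX (hc a) (hc b)).trans (fm b a).symm)

/-- the row -/
theorem g60C : G60 := fun G _ _ k _ _ ι hι hs =>
  ⟨not_lt.1 fun h => hs (sixty G h), Nat.not_odd_iff_even.1 fun h =>
    hs (Group.isSolvable_of_comm (odd G k ι hι h))⟩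

end Vale.Agent.P022U.H52
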