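import Vale.Agent.P022U.EvenH77
import Vale.Agent.P022U.SixtyH27

/-!
# P022U: the order of a group which is not solvable
-/

set_option linter.all false

namespace Vale.Agent.P022U.H77

theorem g60C : G60 := fun G _ _ k _ _ ι hι h => ⟨H27.sixty G h, even G k ι hι h⟩

end Vale.Agent.P022U.H77
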