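import Vale.Agent.P022U.Defs

/-!
# P022U, rows FB and GC
-/

set_option linter.all false

open NumberField

noncomputable section

namespace Vale.Agent.P022U.H10

open Vale.Agent.P022 Vale.Agent.P022T

/-- **row FB** -/
theorem fbC : FB := by
  intro K _ _ _ P hP h0 h2
  haveI : Finite (𝓞 K ⧸ P) := Ideal.finiteQuotientOfFreeOfNeBot P h0
  obtain ⟨φ, hφ⟩ := IsArithFrobAt.exists_of_isInvariant ℤ (Ga K) P
  have cd : Nat.card (ℤ ⧸ P.under ℤ) = 2 := by
    have : P.under ℤ = Ideal.span {((2 : ℕ) : ℤ)} :=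
      ((Ideal.IsMaximal.eq_of_le (Int.ideal_span_isMaximal_of_prime 2) (Ideal.comap_ne_top _
        hP.ne_top) ((Ideal.span_singleton_le_iff_mem _).2 (by simpa using h2)))).symm
    rw [this, Int.card_ideal_quot]
  exact ⟨φ, fun x => cd ▸ hφ x⟩

/-- **row GC** -/
theorem gcC : GC := by
  intro K _ _ h
  have hD : differentIdeal ℤ (𝓞 K) ≠ ⊥ := differentIdeal_ne_bot
  have h2 : Ideal.span {(2 : 𝓞 K)} ≠ ⊥ := by
    rw [Ne, Ideal.span_singleton_eq_bot]
    exact two_ne_zero
  have h3 : Ideal.span {(3 : 𝓞 K)} ≠ ⊥ := by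
    rw [Ne, Ideal.span_singleton_eq_bot]
    exact_mod_cast (by norm_num : (3 : ℕ) ≠ 0)
  have hd : differentIdeal ℤ (𝓞 K) ^ 2 ∣
      Ideal.span {(2 : 𝓞 K)} ^ 4 * Ideal.span {(3 : 𝓞 K)} := by
    rw [UniqueFactorizationMonoid.dvd_iff_emultiplicity_le (pow_ne_zero 2 hD)]
    intro P hP
    have k := h P (Ideal.isPrime_of_prime hP) hP.ne_zero
    rw [emultiplicity_mul hP, emultiplicity_pow hP, emultiplicity_pow hP,
      (FiniteMultiplicity.of_prime_left hP hD).emultiplicity_eq_multiplicity,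
      (FiniteMultiplicity.of_prime_left hP h2).emultiplicity_eq_multiplicity,
      (FiniteMultiplicity.of_prime_left hP h3).emultiplicity_eq_multiplicity]
    exact_mod_cast k
  have hn := map_dvd Ideal.absNorm hd
  have e2 : Ideal.absNorm (Ideal.span {(2 : 𝓞 K)}) = 2 ^ Module.finrank ℚ K := by
    have := Ideal.absNorm_span_natCast (S := 𝓞 K) 2
    rw [RingOfIntegers.rank] at this
    exact_mod_cast this
  have e3 : Ideal.absNorm (Ideal.span {(3 : 𝓞 K)}) = 3 ^ Module.finrank ℚ K := by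
    have := Ideal.absNorm_span_natCast (S := 𝓞 K) 3
    rw [RingOfIntegers.rank] at this
    exact_mod_cast this
  rw [map_mul, map_pow, map_pow, absNorm_differentIdeal K (𝓞 K), e2, e3, ← pow_mul,
    mul_comm _ 4, pow_mul, ← mul_pow] at hn
  exact Nat.le_of_dvd (by positivity) hn

end Vale.Agent.P022U.H10
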