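import Vale.Agent.P022U.Defs
import Vale.Agent.P022U.Fb
import Vale.Agent.P022U.GpH8
import Vale.Agent.P022U.SixtyH27
import Vale.Agent.P022T.TateH92

/-!
# P022U: residual representations of a small level `M`
-/

set_option linter.all false

open NumberField

noncomputable section

namespace Vale.Agent.P022U.H17

open Vale.Agent.P022 Vale.Agent.P022.H916 Vale.Agent.P022T

section loc
variable {K : Type} [Field K] [NumberField K] {P : Ideal (𝓞 K)}

theorem two_canc (hP : P.IsPrime) (h0 : P ≠ ⊥) [IsGalois ℚ K] {c : 𝓞 K} (hc : c ∉ P) {x : 𝓞 K}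
    {n : ℕ} (h : c * x ∈ P ^ n) : x ∈ P ^ n := by
  by_cases hx : x = 0
  · rw [hx]; exact Ideal.zero_mem _
  have c0 : c ≠ 0 := fun e => hc (e ▸ P.zero_mem)
  have a := (Val.le_iff hP h0 (mul_ne_zero c0 hx) n).2 h
  rw [(valC K P hP h0).1 c x c0 hx] at a
  have b : ¬ 1 ≤ w P c := fun e => hc (by simpa using (Val.le_iff hP h0 c0 1).1 e)
  exact (Val.le_iff hP h0 hx n).1 (by omega)

theorem up {s : Ga K} (hs : In P s) (h2 : ∀ x, s • x - x ∈ P ^ 2) (m : ℕ) :
    ∀ x ∈ P ^ m, s • x - x ∈ P ^ (m + 1) := by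
  induction m with
  | zero => intro x _; simpa using hs x
  | succ m ih =>
    intro x hx
    rw [pow_succ] at hx
    refine Submodule.mul_induction_on hx (fun a ha b hb => ?_) fun a b ha hb => ?_
    · have e : s • (a * b) - a * b = (s • a - a) * s • b + a * (s • b - b) := by
        rw [smul_mul']; ring
      rw [e]
      refine Ideal.add_mem _ ?_ ?_
      · rw [pow_succ]
        exact Ideal.mul_mem_mul (ih a ha) (by simpa using hs.pow_mem 1 (by simpa using hb))
      · rw [show m + 1 + 1 = m + 2 from rfl, pow_add]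
        exact Ideal.mul_mem_mul ha (h2 b)
    · have e : s • (a + b) - (a + b) = (s • a - a) + (s • b - b) := by
        rw [smul_add]; ring
      rw [e]
      exact Ideal.add_mem _ ha hb

theorem sm_aeval (s : Ga K) (θ : 𝓞 K) (g : Polynomial ℤ) :
    s • Polynomial.aeval θ g = Polynomial.aeval (s • θ) g :=
  (Polynomial.aeval_algHom_apply
    (MulSemiringAction.toRingHom (Ga K) (𝓞 K) s).toIntAlgHom θ g).symm

theorem not_sq (hP : P.IsPrime) (h0 : P ≠ ⊥) [IsGalois ℚ K] (h2 : (2 : 𝓞 K) ∉ P) {θ : 𝓞 K}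
    (hA : Ap P θ) {s : Ga K} (hs : In P s) (hss : s * s = 1) (hne : s • θ - θ ≠ 0) :
    s • θ - θ ∉ P ^ 2 := fun h => by
  have all : ∀ x, s • x - x ∈ P ^ 2 := fun x => by
    obtain ⟨g, hg⟩ := hA 2 x
    have e : s • x - x = (s • (x - Polynomial.aeval θ g) - (x - Polynomial.aeval θ g)) +
        (Polynomial.aeval (s • θ) g - Polynomial.aeval θ g) := by
      rw [smul_sub, sm_aeval]; ring
    rw [e]
    refine Ideal.add_mem _ (Ideal.sub_mem _ (hs.pow_mem 2 hg) hg) ?_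
    obtain ⟨z, hz⟩ := Polynomial.sub_dvd_eval_sub (s • θ) θ (g.map (algebraMap ℤ (𝓞 K)))
    rw [Polynomial.eval_map_algebraMap, Polynomial.eval_map_algebraMap] at hz
    rw [hz]
    exact Ideal.mul_mem_right _ _ h
  have a := up hs all _ _ ((Val.le_iff hP h0 hne _).1 le_rfl)
  have e : s • (s • θ - θ) - (s • θ - θ) = 2 * -(s • θ - θ) := by
    rw [smul_sub, ← mul_smul, hss, one_smul]; ring
  rw [e] at a
  have b := (P ^ _).neg_mem (two_canc hP h0 h2 a)
  rw [neg_neg] at b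
  have := (Val.le_iff hP h0 hne _).2 b
  omega

theorem neg_sq (hP : P.IsPrime) (h0 : P ≠ ⊥) [IsGalois ℚ K] (h2 : (2 : 𝓞 K) ∉ P) {θ : 𝓞 K}
    (hA : Ap P θ) {s : Ga K} (hs : In P s) (hss : s * s = 1) (hne : s • θ - θ ≠ 0) {x : 𝓞 K}
    (hx : x ∈ P) : s • x + x ∈ P ^ 2 := by
  by_cases x0 : x = 0
  · rw [x0, smul_zero, add_zero]; exact Ideal.zero_mem _
  have a : ¬ 2 ≤ w P (s • θ - θ) := fun e =>
    not_sq hP h0 h2 hA hs hss hne ((Val.le_iff hP h0 hne _).1 e)
  have b : 1 ≤ w P x := (Val.le_iff hP h0 x0 1).2 (by simpa using hx)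
  obtain ⟨c, z, c1, c2⟩ := (valC K P hP h0).2.2.2 x (s • θ - θ) x0 hne (by omega)
  have e1 : s • (s • θ - θ) = -(s • θ - θ) := by
    rw [smul_sub, ← mul_smul, hss, one_smul]; ring
  have e2 := congrArg (s • ·) c2
  simp only [smul_mul'] at e2
  rw [e1] at e2
  refine two_canc hP h0 c1 ?_
  have e : c * (s • x + x) = -((s • c - c) * s • x) - (s • θ - θ) * (s • z - z) := by
    linear_combination e2 + c2
  rw [e, pow_two]
  exact Ideal.sub_mem _ ((P * P).neg_mem (Ideal.mul_mem_mul (hs c)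
    (by simpa using hs.pow_mem 1 (by simpa using hx)))) (Ideal.mul_mem_mul (hs θ) (hs z))

/-- the tame primes -/
theorem tp (hP : P.IsPrime) (h0 : P ≠ ⊥) [IsGalois ℚ K] (h2 : (2 : 𝓞 K) ∉ P) {M : ℕ}
    (hM : M ≠ 0) (hMP : (M : 𝓞 K) ∈ P) {θ : 𝓞 K} (hA : Ap P θ)
    (hne : ∀ s : Ga K, s ≠ 1 → s • θ - θ ≠ 0) (hs : ∀ s : Ga K, In P s → s * s = 1) :
    2 * ∑ s ∈ I1 P, w P (s • θ - θ) ≤ w P M := by
  have mem : ∀ s, s ∈ I1 P → In P s ∧ s ≠ 1 := fun s h => by
    simpa only [I1, Finset.mem_filter, Finset.mem_univ, true_and] using h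
  rcases (I1 P).eq_empty_or_nonempty with e | ⟨s, h⟩
  · rw [e, Finset.sum_empty]; omega
  obtain ⟨s1, s2⟩ := mem s h
  have one : I1 P = {s} := by
    refine Finset.eq_singleton_iff_unique_mem.2 ⟨h, fun t ht => ?_⟩
    obtain ⟨t1, t2⟩ := mem t ht
    by_contra c
    have u1 : In P (s * t) := (H45.IG P).mul_mem s1 t1
    have u2 : s * t ≠ 1 := fun e => c (by
      have := congrArg (s * ·) e
      simpa only [← mul_assoc, hs s s1, one_mul, mul_one] using this)
    refine not_sq hP h0 h2 hA u1 (hs _ u1) (hne _ u2) (two_canc hP h0 h2 ?_)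
    set y := (s * t) • θ - θ with hy
    have y1 : y ∈ P := u1 θ
    have e1 : (s * t) • y = -y := by
      rw [hy, smul_sub, ← mul_smul, hs _ u1, one_smul]; ring
    have a := neg_sq hP h0 h2 hA t1 (hs t t1) (hne t t2) y1
    have b := neg_sq hP h0 h2 hA s1 (hs s s1) (hne s s2) (x := t • y)
      (by simpa using t1.pow_mem 1 (by simpa using y1))
    rw [← mul_smul, e1] at b
    have e : 2 * y = (t • y + y) - (-y + t • y) := by ring
    rw [e]
    exact Ideal.sub_mem _ a b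
  have a : ¬ 2 ≤ w P (s • θ - θ) := fun e =>
    not_sq hP h0 h2 hA s1 (hs s s1) (hne s s2) ((Val.le_iff hP h0 (hne s s2) _).1 e)
  have b := neg_sq hP h0 h2 hA s1 (hs s s1) (hne s s2) hMP
  have e : s • (M : 𝓞 K) = M := map_natCast (MulSemiringAction.toRingHom (Ga K) (𝓞 K) s) M
  rw [e, ← two_mul] at b
  have c := (Val.le_iff hP h0 (Nat.cast_ne_zero.2 hM) 2).2 (two_canc hP h0 h2 b)
  rw [one, Finset.sum_singleton]
  omega

end loc

/-- from the primes to the discriminant -/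
theorem gc (K : Type) [Field K] [NumberField K] {M : ℕ} (hM : M ≠ 0)
    (h : ∀ P : Ideal (𝓞 K), P.IsPrime → P ≠ ⊥ →
      2 * multiplicity P (differentIdeal ℤ (𝓞 K)) ≤ 4 * w P 2 + w P M) :
    (discr K).natAbs ^ 2 ≤ (16 * M) ^ Module.finrank ℚ K := by
  have hD : differentIdeal ℤ (𝓞 K) ≠ ⊥ := differentIdeal_ne_bot
  have h2 : Ideal.span {(2 : 𝓞 K)} ≠ ⊥ := by
    rw [Ne, Ideal.span_singleton_eq_bot]
    exact two_ne_zero
  have h3 : Ideal.span {(M : 𝓞 K)} ≠ ⊥ := by
    rw [Ne, Ideal.span_singleton_eq_bot]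
    exact Nat.cast_ne_zero.2 hM
  have hd : differentIdeal ℤ (𝓞 K) ^ 2 ∣ Ideal.span {(2 : 𝓞 K)} ^ 4 * Ideal.span {(M : 𝓞 K)} := by
    rw [UniqueFactorizationMonoid.dvd_iff_emultiplicity_le (pow_ne_zero 2 hD)]
    intro P hP
    have k := h P (Ideal.isPrime_of_prime hP) hP.ne_zero
    rw [emultiplicity_mul hP, emultiplicity_pow hP, emultiplicity_pow hP,
      (FiniteMultiplicity.of_prime_left hP hD).emultiplicity_eq_multiplicity,
      (FiniteMultiplicity.of_prime_left hP h2).emultiplicity_eq_multiplicity,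
      (FiniteMultiplicity.of_prime_left hP h3).emultiplicity_eq_multiplicity]
    exact_mod_cast k
  have hn := map_dvd Ideal.absNorm hd
  have e2 : Ideal.absNorm (Ideal.span {(2 : 𝓞 K)}) = 2 ^ Module.finrank ℚ K := by
    have := Ideal.absNorm_span_natCast (S := 𝓞 K) 2
    rw [RingOfIntegers.rank] at this
    exact_mod_cast this
  have e3 : Ideal.absNorm (Ideal.span {(M : 𝓞 K)}) = M ^ Module.finrank ℚ K := by
    have := Ideal.absNorm_span_natCast (S := 𝓞 K) M
    rwa [RingOfIntegers.rank] at this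
  rw [map_mul, map_pow, map_pow, absNorm_differentIdeal K (𝓞 K), e2, e3, ← pow_mul, mul_comm _ 4,
    pow_mul, ← mul_pow] at hn
  exact Nat.le_of_dvd (pow_pos (by omega) _) hn

/-- the bound for the discriminant which is needed in level `M` -/
def Bd (M : ℕ) : Prop := ∀ (K : Type) [Field K] [NumberField K] (k : ℕ), 30 ≤ k →
  Module.finrank ℚ K = 2 * k → (16 * M) ^ (2 * k) < (discr K).natAbs ^ 2

theorem t0 : T0 :=
  H45.t0C H57.thC (dfC valC) (H83.wlC valC (H88.co valC)) H65.tmC ce gtC mkC gbC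

/-- the theorem for a finite extension -/
theorem u0 (hCN : CN) (hNC : NC) {M : ℕ} (hM : M ≠ 0) (hB : Bd M) (K : Type) [Field K]
    [NumberField K] [IsGalois ℚ K] (k : Type) [Field k] [CharP k 2] (ι : Ga K →* GL (Fin 2) k)
    (hι : Function.Injective ι)
    (hu : ∀ P : Ideal (𝓞 K), P.IsPrime → P ≠ ⊥ → (2 : 𝓞 K) ∉ P → (M : 𝓞 K) ∉ P →
      ∀ s, In P s → s = 1)
    (h3 : ∀ P : Ideal (𝓞 K), P.IsPrime → (M : 𝓞 K) ∈ P → ∀ s, In P s → s * s = 1) :
    Group.IsSolvable (Ga K) := by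
  by_contra hs
  have h6 := H27.sixty (Ga K) hs
  rcases Nat.even_or_odd (Nat.card (Ga K)) with ⟨m, hm⟩ | ho
  swap
  · refine hs (t0 K k ι hι fun P hP h0 h2 s a => ?_)
    by_cases h4 : (M : 𝓞 K) ∈ P
    · have b : orderOf s ∣ 2 := orderOf_dvd_of_pow_eq_one (by rw [pow_two, h3 P hP h4 s a])
      exact orderOf_eq_one_iff.1 (Nat.eq_one_of_dvd_coprimes
        ((Nat.coprime_two_left).2 ho) b (orderOf_dvd_natCard s))
    · exact hu P hP h0 h2 h4 s a
  have en : Nat.card (Ga K) = Module.finrank ℚ K := IsGalois.card_aut_eq_finrank ℚ K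
  rw [en] at h6 hm
  have hm' : Module.finrank ℚ K = 2 * m := by omega
  have a := hB K m (by omega) hm'
  rw [← hm'] at a
  refine absurd (gc K hM fun P hP h0 => ?_) (not_le.2 a)
  obtain ⟨θ, a1, a2⟩ := H57.thC K P hP h0
  obtain ⟨b1, b2⟩ := dfC valC K P hP h0 θ a1 a2
  refine (Nat.mul_le_mul_left _ b2).trans ?_
  by_cases h2 : (2 : 𝓞 K) ∈ P
  · have key : ∑ s ∈ I1 P, w P (s • θ - θ) ≤ 2 * w P 2 := by
      rcases H65.tmC K P hP h0 h2 k ι hι θ a1 b1 with h | h
      · obtain ⟨φ, hφ⟩ := fbC K P hP h0 h2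
        by_cases c : ∀ s : Ga K, In P s → φ * s = s * φ → s = 1
        · exact hNC K P hP h0 h2 θ a1 b1 h φ hφ c
        · push Not at c
          obtain ⟨s, c1, c2, c3⟩ := c
          have inv : ∀ t : Ga K, In P t → t⁻¹ = t := fun t ht =>
            inv_eq_of_mul_eq_one_right (h t ht)
          have d := hCN K P hP h0 h2 θ b1 h φ hφ fun t ht =>
            H8.gpC (Ga K) k ι hι s φ t c3 (h s c1) c2 (by
              have := inv _ ((H45.IG P).mul_mem ht c1)
              rw [mul_inv_rev, inv s c1, inv t ht] at this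
              exact this.symm)
          have e := H83.wlC valC (H88.co valC) K P hP h0 h2 θ a1 b1 h
          refine Nat.le_of_mul_le_mul_left (c := 2 * ((I1 P).card + 1)) (e.trans ?_) (by omega)
          rw [← mul_assoc]
          exact Nat.mul_le_mul_right _ (by omega)
      · have c : ∑ s ∈ I1 P, w P (s • θ - θ) ≤ (I1 P).card := by
          simpa using Finset.sum_le_card_nsmul _ _ 1 h
        have d := c.trans (ce K P hP h0 h2)
        omega
    omega
  · by_cases h4 : (M : 𝓞 K) ∈ P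
    · have := tp hP h0 h2 hM h4 a1 b1 (h3 P hP h4)
      omega
    · have e : I1 P = ∅ := by
        refine Finset.eq_empty_of_forall_notMem fun s hs => ?_
        simp only [I1, Finset.mem_filter, Finset.mem_univ, true_and] at hs
        exact hs.2 (hu P hP h0 h2 h4 s hs.1)
      simp [e]

/-- the theorem in level `M` -/
def LVM (M : ℕ) : Prop := ∀ (k : Type) [Field k] [CharP k 2]
  (ρ : (AlgebraicClosure ℚ ≃ₐ[ℚ] AlgebraicClosure ℚ) →* GL (Fin 2) k),
  IsOpen {g | ρ g = 1} → (∀ p : ℕ, p.Prime → p ≠ 2 → ¬ p ∣ M → St.UnrAt ρ p) →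
  (∀ P : Ideal (𝓞 (AlgebraicClosure ℚ)), P.IsPrime → (M : 𝓞 (AlgebraicClosure ℚ)) ∈ P →
    ∀ s : AlgebraicClosure ℚ ≃ₐ[ℚ] AlgebraicClosure ℚ,
      (∀ x : 𝓞 (AlgebraicClosure ℚ), s • x - x ∈ P) → ρ s * ρ s = 1) →
  Group.IsSolvable ρ.range

theorem lvm (hCN : CN) (hNC : NC) {M : ℕ} (hM : M ≠ 0) (hB : Bd M) : LVM M := by
  intro k _ _ ρ hop hun h3
  let j : ℚ →+* Qb := algebraMap ℚ Qb
  have hall : ∀ g : GQ, g ∈ GK j := fun g x => g.commutes x
  obtain ⟨L, _, _, inst, hG, jL, σ, D, -, hker⟩ :=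
    exists_fld j ρ.ker hop (fun g _ => hall g)
      (fun g _ u hu => (MonoidHom.normal_ker ρ).conj_mem u hu g)
  obtain rfl : inst = DivisionRing.toRatAlgebra := Subsingleton.elim _ _
  let τ : GK j →* GL (Fin 2) k := ρ.comp (GK j).subtype
  have hle : σ.ker ≤ τ.ker := fun g hg => (hker g).1 hg
  let ι : Ga L →* GL (Fin 2) k := σ.liftOfSurjective D.surj ⟨τ, hle⟩
  have hι : ∀ g : GK j, ι (σ g) = ρ g := fun g =>
    MonoidHom.liftOfRightInverse_comp_apply σ _ _ ⟨τ, hle⟩ g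
  have hinj : Function.Injective ι := by
    rw [injective_iff_map_eq_one]
    intro s hs
    obtain ⟨g, rfl⟩ := D.surj s
    rw [hι] at hs
    exact (hker g).2 hs
  have hs : Group.IsSolvable (Ga L) := by
    refine u0 hCN hNC hM hB L k ι hinj ?_ ?_
    · intro P hP h0 h2 k3 s hs
      obtain ⟨p, hp, hpP⟩ := inf_ex_prime P hP h0
      have hp2 : p ≠ 2 := by
        rintro rfl
        exact h2 (by simpa using hpP)
      have hp3 : ¬ p ∣ M := by
        rintro ⟨c, rfl⟩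
        exact k3 (by rw [Nat.cast_mul]; exact P.mul_mem_right _ hpP)
      obtain ⟨Q, hQ, rfl⟩ := exists_above jL P hP
      have hpQ : (p : 𝓞 Qb) ∈ Q := by
        have h1 : RingOfIntegers.mapRingHom jL (p : 𝓞 L) ∈ Q := hpP
        rwa [map_natCast] at h1
      refine D.inertia_eq_bot hQ (fun g hg => (hker g).2 ?_) hs
      exact hun p hp hp2 hp3 Q hQ hpQ g hg
    · intro P hP k3 s hs
      obtain ⟨Q, hQ, rfl⟩ := exists_above jL P hP
      have hpQ : (M : 𝓞 Qb) ∈ Q := by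
        have h1 : RingOfIntegers.mapRingHom jL (M : 𝓞 L) ∈ Q := k3
        rwa [map_natCast] at h1
      obtain ⟨g, rfl, hg⟩ := D.inertia_lift hQ hs
      refine hinj ?_
      rw [map_mul, map_one, hι]
      exact h3 Q hQ hpQ g hg
  have hr : ρ.range = ι.range := by
    ext x
    constructor
    · rintro ⟨g, rfl⟩
      exact ⟨σ ⟨g, hall g⟩, hι _⟩
    · rintro ⟨s, rfl⟩
      obtain ⟨g, rfl⟩ := D.surj s
      exact ⟨g, (hι g).symm⟩
  rw [hr]
  exact solvable_of_surjective ι.rangeRestrict_surjective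

theorem Bd.mono {M N : ℕ} (h : Bd N) (hMN : M ≤ N) : Bd M := fun K _ _ k a b =>
  (Nat.pow_le_pow_left (Nat.mul_le_mul_left 16 hMN) _).trans_lt (h K k a b)

end Vale.Agent.P022U.H17
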