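import Vale.Agent.P022U.Defs
import Vale.Agent.P022T.CeH67

/-!
# P022U: elements fixed by the inertia group
-/

set_option linter.all false

open NumberField

noncomputable section

namespace Vale.Agent.P022U.H2

open Vale.Agent.P022T

theorem key0 {K : Type} [Field K] [NumberField K] [IsGalois ℚ K] (P : Ideal (𝓞 K))
    (hP : P.IsPrime) (h0 : P ≠ ⊥) (x : 𝓞 K) (hx : ∀ s : Ga K, In P s → s • x = x) (hxP : x ∈ P) :
    x ∈ P ^ Nat.card (P.inertia (Ga K)) := by
  classical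
  let H : Subgroup (Ga K) := P.inertia (Ga K)
  let F : IntermediateField ℚ K := FixedPoints.intermediateField H
  haveI : IsGaloisGroup H F K := IsGaloisGroup.subgroup (Ga K) ℚ K H
  haveI : IsGaloisGroup H (𝓞 F) (𝓞 K) := IsGaloisGroup.of_isFractionRing H (𝓞 F) (𝓞 K) F K
  let p : Ideal (𝓞 F) := P.under (𝓞 F)
  have hp0 : p ≠ ⊥ := Ideal.under_ne_bot (𝓞 F) h0
  haveI : p.IsPrime := Ideal.IsPrime.under (𝓞 F) P
  haveI : p.IsMaximal := Ideal.IsPrime.isMaximal inferInstance hp0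
  have hf : Finite (𝓞 F ⧸ p) := Ring.HasFiniteQuotients.finiteQuotient hp0
  have e1 := Ideal.card_inertia_eq_ramificationIdxIn (G := H) p P
  have e2 : P.inertia H = ⊤ := by
    rw [eq_top_iff]
    intro s _
    exact s.2
  rw [e2, Subgroup.card_top, Ideal.ramificationIdxIn_eq_ramificationIdx p P H,
    Ideal.IsDedekindDomain.ramificationIdx_eq_multiplicity p P
      (Ideal.map_ne_bot_of_ne_bot hp0)] at e1
  obtain ⟨a, rfl⟩ := (IsGaloisGroup.isInvariant (G := H) (A := 𝓞 F) (B := 𝓞 K)).isInvariant x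
    (fun s => hx s s.2)
  have ha : a ∈ p := hxP
  show _ ∈ P ^ Nat.card H
  rw [e1]
  exact Ideal.le_of_dvd (pow_multiplicity_dvd _ _) (Ideal.mem_map_of_mem _ ha)

theorem key {K : Type} [Field K] [NumberField K] [IsGalois ℚ K] (P : Ideal (𝓞 K))
    (hP : P.IsPrime) (h0 : P ≠ ⊥) (h2 : (2 : 𝓞 K) ∈ P) (x : 𝓞 K)
    (hx : ∀ s : Ga K, In P s → s • x = x) (hxP : x ∈ P) : x ∈ P ^ w P 2 := by
  rw [← H67.card_in P hP h2]
  exact key0 P hP h0 x hx hxP

end Vale.Agent.P022U.H2
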