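import Vale.Agent.P022U.Defs
import Vale.Agent.P022T.Val

/-!
# P022U: the tame prime, for any odd prime
-/

set_option linter.all false

open NumberField Polynomial

noncomputable section

namespace Vale.Agent.P022U.H38

open Vale.Agent.P022T

variable {K : Type} [Field K] [NumberField K] [IsGalois ℚ K] {P : Ideal (𝓞 K)}

theorem canc (hP : P.IsPrime) (h0 : P ≠ ⊥) {c a : 𝓞 K} (hc : c ∉ P) {n : ℕ}
    (h : c * a ∈ P ^ n) : a ∈ P ^ n := by
  by_cases ha : a = 0
  · rw [ha]; exact zero_mem _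
  have c0 : c ≠ 0 := fun e => hc (e ▸ P.zero_mem)
  have k1 : w P c = 0 := by
    by_contra k
    exact hc (by simpa using (Val.le_iff hP h0 c0 1).1 (Nat.one_le_iff_ne_zero.2 k))
  have k2 := (Val.le_iff hP h0 (mul_ne_zero c0 ha) n).2 h
  rw [(valC K P hP h0).1 c a c0 ha, k1, zero_add] at k2
  exact (Val.le_iff hP h0 ha n).1 k2

theorem g1 {θ : 𝓞 K} (hA : Ap P θ) {s : Ga K} (hs : In P s) (h : s • θ - θ ∈ P ^ 2) (x : 𝓞 K) :
    s • x - x ∈ P ^ 2 := by
  obtain ⟨g, hg⟩ := hA 2 x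
  have e : s • aeval θ g = aeval (s • θ) g :=
    (aeval_algHom_apply (MulSemiringAction.toRingHom (Ga K) (𝓞 K) s).toIntAlgHom θ g).symm
  have k1 := hs.pow_mem 2 hg
  rw [smul_sub, e] at k1
  have k2 : aeval (s • θ) g - aeval θ g ∈ P ^ 2 := by
    rw [aeval_def, aeval_def, eval₂_eq_eval_map, eval₂_eq_eval_map]
    exact Ideal.mem_of_dvd _ (sub_dvd_eval_sub _ _ _) h
  have := sub_mem (add_mem k1 k2) hg
  rwa [show s • x - aeval (s • θ) g + (aeval (s • θ) g - aeval θ g) - (x - aeval θ g) =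
    s • x - x by ring] at this

theorem up {s : Ga K} (hs : In P s) (h : ∀ x : 𝓞 K, s • x - x ∈ P ^ 2) (n : ℕ) :
    ∀ x ∈ P ^ n, s • x - x ∈ P ^ (n + 1) := by
  induction n with
  | zero => intro x _; simpa using hs x
  | succ n ih =>
    intro x hx
    rw [pow_succ] at hx
    refine Submodule.mul_induction_on hx (fun a ha b hb => ?_) fun a b ha hb => ?_
    · have k1 : (s • a - a) * (s • b) ∈ P ^ (n + 1 + 1) := by
        rw [pow_succ]
        exact Ideal.mul_mem_mul (ih a ha) (by simpa using hs.pow_mem 1 (by simpa using hb))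
      have k2 : a * (s • b - b) ∈ P ^ (n + 1 + 1) := by
        rw [show n + 1 + 1 = n + 2 from rfl, pow_add]
        exact Ideal.mul_mem_mul ha (h b)
      have := add_mem k1 k2
      rwa [show (s • a - a) * (s • b) + a * (s • b - b) = s • (a * b) - a * b by
        rw [smul_mul']; ring] at this
    · have := add_mem ha hb
      rwa [show s • a - a + (s • b - b) = s • (a + b) - (a + b) by rw [smul_add]; ring] at this

theorem tp (p : ℕ) (hp : p.Prime) (p2 : p ≠ 2) : Al fun K _ _ _ P => (p : 𝓞 K) ∈ P → ∀ θ, Ap P θ →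
    (∀ s : Ga K, s ≠ 1 → s • θ - θ ≠ 0) → (∀ s : Ga K, In P s → s * s = 1) →
    2 * ∑ s ∈ I1 P, w P (s • θ - θ) ≤ w P (p : 𝓞 K) := by
  intro K _ _ _ P hP h0 h3 θ hA hne hsq
  classical
  have h2 : (2 : 𝓞 K) ∉ P := fun h => hP.ne_top ((Ideal.eq_top_iff_one _).2 (by
    obtain ⟨m, hm⟩ := hp.odd_of_ne_two p2
    have := sub_mem h3 (P.mul_mem_right (m : 𝓞 K) h)
    rwa [hm, show ((2 * m + 1 : ℕ) : 𝓞 K) - 2 * m = 1 by push_cast; ring] at this))
  have mem : ∀ s : Ga K, s ∈ I1 P ↔ In P s ∧ s ≠ 1 := fun s => by simp [I1]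
  have neg : ∀ s : Ga K, In P s → s • (s • θ - θ) = -(s • θ - θ) := fun s hs => by
    rw [smul_sub, ← mul_smul, hsq s hs, one_smul, neg_sub]
  have n2 : ∀ s : Ga K, In P s → s ≠ 1 → s • θ - θ ∉ P ^ 2 := fun s hs s1 h => by
    have k := up hs (g1 hA hs h) _ _ ((Val.le_iff hP h0 (hne s s1) _).1 le_rfl)
    rw [neg s hs, show -(s • θ - θ) - (s • θ - θ) = 2 * -(s • θ - θ) by ring] at k
    have k2 := (Val.le_iff hP h0 (hne s s1) _).2 (neg_mem_iff.1 (canc hP h0 h2 k))
    omega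
  have w1 : ∀ s : Ga K, In P s → s ≠ 1 → w P (s • θ - θ) ≤ 1 := fun s hs s1 => by
    by_contra k
    exact n2 s hs s1 ((Val.le_iff hP h0 (hne s s1) 2).1 (by omega))
  have act : ∀ s : Ga K, In P s → s ≠ 1 → ∀ x ∈ P, s • x + x ∈ P ^ 2 := fun s hs s1 x hx => by
    by_cases x0 : x = 0
    · rw [x0, smul_zero, add_zero]; exact zero_mem _
    obtain ⟨c, z, hc, e⟩ := (valC K P hP h0).2.2.2 x _ x0 (hne s s1)
      ((w1 s hs s1).trans ((Val.le_iff hP h0 x0 1).2 (by simpa using hx)))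
    have e2 : s • c * s • x = -(s • θ - θ) * s • z := by
      rw [← smul_mul', e, smul_mul', neg s hs]
    refine canc hP h0 hc ?_
    have k1 : -(s • c - c) * s • x ∈ P ^ 2 := by
      rw [pow_two]
      exact Ideal.mul_mem_mul (neg_mem (hs c)) (by simpa using hs.pow_mem 1 (by simpa using hx))
    have k2 : (s • θ - θ) * -(s • z - z) ∈ P ^ 2 := by
      rw [pow_two]
      exact Ideal.mul_mem_mul (hs θ) (neg_mem (hs z))
    have := add_mem k1 k2
    rwa [show -(s • c - c) * s • x + (s • θ - θ) * -(s • z - z) = c * (s • x + x) by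
      linear_combination (-1 : 𝓞 K) * e2 - e] at this
  have one : (I1 P).card ≤ 1 := Finset.card_le_one.2 fun s hs t ht => by
    obtain ⟨s1, s2⟩ := (mem s).1 hs
    obtain ⟨t1, t2⟩ := (mem t).1 ht
    by_contra st
    have u1 : In P (s * t) := fun x => by
      have := add_mem (s1 (t • x)) (t1 x)
      rwa [sub_add_sub_cancel, ← mul_smul] at this
    have u2 : s * t ≠ 1 := fun e => st (by
      rw [← mul_one s, ← hsq t t1, ← mul_assoc, e, one_mul])
    have y1 := s1 θ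
    have a1 := act _ u1 u2 _ y1
    have a2 := s1.pow_mem 2 (act t t1 t2 _ y1)
    have a3 := act s s1 s2 _ y1
    rw [smul_add, ← mul_smul] at a2
    have a4 := sub_mem (add_mem a1 a3) a2
    refine n2 s s1 s2 (canc hP h0 h2 ?_)
    rwa [show (s * t) • (s • θ - θ) + (s • θ - θ) + (s • (s • θ - θ) + (s • θ - θ)) -
      ((s * t) • (s • θ - θ) + s • (s • θ - θ)) = 2 * (s • θ - θ) by ring] at a4
  rcases (I1 P).eq_empty_or_nonempty with e | ⟨s, hs⟩
  · rw [e, Finset.sum_empty]; exact Nat.zero_le _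
  · obtain ⟨s1, s2⟩ := (mem s).1 hs
    have a1 := act s s1 s2 p h3
    have e3 : s • (p : 𝓞 K) = p := map_natCast (MulSemiringAction.toRingHom (Ga K) (𝓞 K) s) p
    rw [e3, ← two_mul] at a1
    have a2 := (Val.le_iff hP h0 (Nat.cast_ne_zero.2 hp.ne_zero : (p : 𝓞 K) ≠ 0) 2).2
      (canc hP h0 h2 a1)
    have a3 : ∑ s ∈ I1 P, w P (s • θ - θ) ≤ (I1 P).card • 1 :=
      Finset.sum_le_card_nsmul _ _ _ fun t ht => w1 t ((mem t).1 ht).1 ((mem t).1 ht).2
    rw [smul_eq_mul, mul_one] at a3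
    omega

end Vale.Agent.P022U.H38
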