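import Vale.Agent.P022T.TateH92
import Vale.Agent.P022U.MhH83
import Vale.Agent.P022U.SixtyH27
import Vale.Agent.P022U.TpH38
import Vale.Agent.P022U.Cn
import Vale.Agent.P022U.NcH72
import Vale.Agent.P022U.GpH8
import Vale.Agent.P022U.Fb

/-!
# P022U: one tame prime among three, five and seven
-/

set_option linter.all false

open NumberField

noncomputable section

namespace Vale.Agent.P022U.H83

open Vale.Agent.P022 Vale.Agent.P022.H916 Vale.Agent.P022T

theorem gc (q : ℕ) (hq : q ≠ 0) (K : Type) [Field K] [NumberField K]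
    (h : ∀ P : Ideal (𝓞 K), P.IsPrime → P ≠ ⊥ →
      2 * multiplicity P (differentIdeal ℤ (𝓞 K)) ≤ 4 * w P 2 + w P q) :
    (discr K).natAbs ^ 2 ≤ (16 * q) ^ Module.finrank ℚ K := by
  have hD : differentIdeal ℤ (𝓞 K) ≠ ⊥ := differentIdeal_ne_bot
  have h2 : Ideal.span {(2 : 𝓞 K)} ≠ ⊥ := by
    rw [Ne, Ideal.span_singleton_eq_bot]
    exact two_ne_zero
  have h3 : Ideal.span {(q : 𝓞 K)} ≠ ⊥ := by
    rw [Ne, Ideal.span_singleton_eq_bot]
    exact Nat.cast_ne_zero.2 hq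
  have hd : differentIdeal ℤ (𝓞 K) ^ 2 ∣ Ideal.span {(2 : 𝓞 K)} ^ 4 * Ideal.span {(q : 𝓞 K)} := by
    rw [UniqueFactorizationMonoid.dvd_iff_emultiplicity_le (pow_ne_zero 2 hD)]
    intro P hP
    have k := h P (Ideal.isPrime_of_prime hP) hP.ne_zero
    rw [emultiplicity_mul hP, emultiplicity_pow hP, emultiplicity_pow hP,
      (FiniteMultiplicity.of_prime_left hP hD).emultiplicity_eq_multiplicity,
      (FiniteMultiplicity.of_prime_left hP h2).emultiplicity_eq_multiplicity,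
      (FiniteMultiplicity.of_prime_left hP h3).emultiplicity_eq_multiplicity]
    exact_mod_cast k
  have hn := map_dvd Ideal.absNorm hd
  have e2 : Ideal.absNorm (Ideal.span {(2 : 𝓞 K)}) = 2 ^ Module.finrank ℚ K := by
    have := Ideal.absNorm_span_natCast (S := 𝓞 K) 2
    rw [RingOfIntegers.rank] at this
    exact_mod_cast this
  have e3 : Ideal.absNorm (Ideal.span {(q : 𝓞 K)}) = q ^ Module.finrank ℚ K := by
    have := Ideal.absNorm_span_natCast (S := 𝓞 K) q
    rwa [RingOfIntegers.rank] at this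
  rw [map_mul, map_pow, map_pow, absNorm_differentIdeal K (𝓞 K), e2, e3, ← pow_mul, mul_comm _ 4,
    pow_mul, ← mul_pow] at hn
  exact Nat.le_of_dvd (by positivity) hn

theorem two {K : Type} [Field K] [NumberField K] [IsGalois ℚ K] {k : Type} [Field k] [CharP k 2]
    {ι : Ga K →* GL (Fin 2) k} (hι : Function.Injective ι) {P : Ideal (𝓞 K)} (hP : P.IsPrime)
    (h0 : P ≠ ⊥) (h2 : (2 : 𝓞 K) ∈ P) {θ : 𝓞 K} (a1 : Ap P θ)
    (b1 : ∀ s : Ga K, s ≠ 1 → s • θ - θ ≠ 0) : ∑ s ∈ I1 P, w P (s • θ - θ) ≤ 2 * w P 2 := by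
  rcases H65.tmC K P hP h0 h2 k ι hι θ a1 b1 with h | h
  · obtain ⟨φ, hφ⟩ := fbC K P hP h0 h2
    by_cases c : ∀ s : Ga K, In P s → φ * s = s * φ → s = 1
    · exact H72.ncC valC (H88.co valC) K P hP h0 h2 θ a1 b1 h φ hφ c
    · push Not at c
      obtain ⟨s, c1, c2, c3⟩ := c
      have inv : ∀ t : Ga K, In P t → t⁻¹ = t := fun t ht =>
        inv_eq_of_mul_eq_one_right (h t ht)
      have d := Cn.cnC valC K P hP h0 h2 θ b1 h φ hφ fun t ht =>
        H8.gpC (Ga K) k ι hι s φ t c3 (h s c1) c2 (by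
          have := inv _ ((P.inertia (Ga K)).mul_mem ht c1)
          rw [mul_inv_rev, inv s c1, inv t ht] at this
          exact this.symm)
      have e := P022T.H83.wlC valC (H88.co valC) K P hP h0 h2 θ a1 b1 h
      refine Nat.le_of_mul_le_mul_left (c := 2 * ((I1 P).card + 1)) (e.trans ?_) (by omega)
      rw [← mul_assoc]
      exact Nat.mul_le_mul_right _ (by omega)
  · have c : ∑ s ∈ I1 P, w P (s • θ - θ) ≤ (I1 P).card := by
      simpa using Finset.sum_le_card_nsmul _ _ 1 h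
    have d := c.trans (ce K P hP h0 h2)
    omega

theorem u0 {q : ℕ} (hq : q.Prime) (q2 : q ≠ 2) (q7 : q ≤ 7) (K : Type) [Field K] [NumberField K]
    [IsGalois ℚ K] (k : Type) [Field k] [CharP k 2] (ι : Ga K →* GL (Fin 2) k)
    (hι : Function.Injective ι)
    (hu : ∀ P : Ideal (𝓞 K), P.IsPrime → P ≠ ⊥ → (2 : 𝓞 K) ∉ P → (q : 𝓞 K) ∉ P →
      ∀ s, In P s → s = 1)
    (h3 : ∀ P : Ideal (𝓞 K), P.IsPrime → (q : 𝓞 K) ∈ P → ∀ s, In P s → s * s = 1) :
    Group.IsSolvable (Ga K) := by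
  by_contra hs
  have h6 := H27.sixty (Ga K) hs
  have en : Nat.card (Ga K) = Module.finrank ℚ K := IsGalois.card_aut_eq_finrank ℚ K
  rw [en] at h6
  have b := gc q hq.ne_zero K fun P hP h0 => by
    obtain ⟨θ, a1, a2⟩ := H57.thC K P hP h0
    obtain ⟨b1, b2⟩ := dfC valC K P hP h0 θ a1 a2
    refine (Nat.mul_le_mul_left _ b2).trans ?_
    by_cases h2 : (2 : 𝓞 K) ∈ P
    · have key := two hι hP h0 h2 a1 b1
      omega
    · by_cases h4 : (q : 𝓞 K) ∈ P
      · have := H38.tp q hq q2 K P hP h0 h4 θ a1 b1 (h3 P hP h4)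
        omega
      · have e : I1 P = ∅ := by
          refine Finset.eq_empty_of_forall_notMem fun s hs => ?_
          simp only [I1, Finset.mem_filter, Finset.mem_univ, true_and] at hs
          exact hs.2 (hu P hP h0 h2 h4 s hs.1)
        simp [e]
  exact absurd (mh K h6) (not_lt.2 (b.trans (Nat.pow_le_pow_left (by omega) _)))

/-- **the theorem** -/
theorem lv7 (k : Type) [Field k] [CharP k 2]
    (ρ : (AlgebraicClosure ℚ ≃ₐ[ℚ] AlgebraicClosure ℚ) →* GL (Fin 2) k)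
    (h : ∃ q : ℕ, (q = 3 ∨ q = 5 ∨ q = 7) ∧ IsOpen {g | ρ g = 1} ∧
      (∀ p : ℕ, p.Prime → p ≠ 2 → p ≠ q → St.UnrAt ρ p) ∧
      ∀ P : Ideal (𝓞 (AlgebraicClosure ℚ)), P.IsPrime → (q : 𝓞 (AlgebraicClosure ℚ)) ∈ P →
        ∀ s : AlgebraicClosure ℚ ≃ₐ[ℚ] AlgebraicClosure ℚ,
          (∀ x : 𝓞 (AlgebraicClosure ℚ), s • x - x ∈ P) → ρ s * ρ s = 1) :
    Group.IsSolvable ρ.range := by
  obtain ⟨q, hq, hop, hun, h3⟩ := h
  have qp : q.Prime := by rcases hq with rfl | rfl | rfl <;> norm_num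
  let j : ℚ →+* Qb := algebraMap ℚ Qb
  have hall : ∀ g : GQ, g ∈ GK j := fun g x => g.commutes x
  obtain ⟨L, _, _, inst, hG, jL, σ, D, -, hker⟩ :=
    exists_fld j ρ.ker hop (fun g _ => hall g)
      (fun g _ u hu => (MonoidHom.normal_ker ρ).conj_mem u hu g)
  obtain rfl : inst = DivisionRing.toRatAlgebra := Subsingleton.elim _ _
  let τ : GK j →* GL (Fin 2) k := ρ.comp (GK j).subtype
  have hle : σ.ker ≤ τ.ker := fun g hg => (hker g).1 hg
  let ι : Ga L →* GL (Fin 2) k := σ.liftOfSurjective D.surj ⟨τ, hle⟩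
  have hι : ∀ g : GK j, ι (σ g) = ρ g := fun g =>
    MonoidHom.liftOfRightInverse_comp_apply σ _ _ ⟨τ, hle⟩ g
  have hinj : Function.Injective ι := by
    rw [injective_iff_map_eq_one]
    intro s hs
    obtain ⟨g, rfl⟩ := D.surj s
    rw [hι] at hs
    exact (hker g).2 hs
  have hs : Group.IsSolvable (Ga L) := by
    refine u0 qp (by omega) (by omega) L k ι hinj ?_ ?_
    · intro P hP h0 h2 k3 s hs
      obtain ⟨p, hp, hpP⟩ := inf_ex_prime P hP h0
      have hp2 : p ≠ 2 := by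
        rintro rfl
        exact h2 (by simpa using hpP)
      have hp3 : p ≠ q := by
        rintro rfl
        exact k3 hpP
      obtain ⟨Q, hQ, rfl⟩ := exists_above jL P hP
      have hpQ : (p : 𝓞 Qb) ∈ Q := by
        have h1 : RingOfIntegers.mapRingHom jL (p : 𝓞 L) ∈ Q := hpP
        rwa [map_natCast] at h1
      refine D.inertia_eq_bot hQ (fun g hg => (hker g).2 ?_) hs
      exact hun p hp hp2 hp3 Q hQ hpQ g hg
    · intro P hP k3 s hs
      obtain ⟨Q, hQ, rfl⟩ := exists_above jL P hP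
      have hpQ : (q : 𝓞 Qb) ∈ Q := by
        have h1 : RingOfIntegers.mapRingHom jL (q : 𝓞 L) ∈ Q := k3
        rwa [map_natCast] at h1
      obtain ⟨g, rfl, hg⟩ := D.inertia_lift hQ hs
      refine hinj ?_
      rw [map_mul, map_one, hι]
      exact h3 Q hQ hpQ g hg
  have hr : ρ.range = ι.range := by
    ext x
    constructor
    · rintro ⟨g, rfl⟩
      exact ⟨σ ⟨g, hall g⟩, hι _⟩
    · rintro ⟨s, rfl⟩
      obtain ⟨g, rfl⟩ := D.surj s
      exact ⟨g, (hι g).symm⟩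
  rw [hr]
  exact solvable_of_surjective ι.rangeRestrict_surjective

end Vale.Agent.P022U.H83
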