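import Vale.Agent.P022U.PreH92
import Vale.Agent.P022U.G60H27
import Vale.Agent.P022U.Cn

/-!
P022U: residual representations unramified outside six and tame at three have solvable image.
-/

set_option linter.all false

noncomputable section

namespace Vale.Agent.P022U.H92

theorem lv3 : LV3 := lv3Of H27.g60C Cn.cnC

end Vale.Agent.P022U.H92
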