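import Vale.Agent.P022U.T3H29

/-!
# P022U: the tame prime, for every odd number
-/

set_option linter.all false

open NumberField Polynomial

noncomputable section

namespace Vale.Agent.P022U.H29

open Vale.Agent.P022T Vale.Agent.P022T.H29

variable {K : Type} [Field K] [NumberField K] {P : Ideal (𝓞 K)}

theorem halfp {p : ℕ} (hp : Odd p) (h3 : (p : 𝓞 K) ∈ P) {n : ℕ} {y : 𝓞 K} (hy : y ∈ P ^ n)
    (h : 2 * y ∈ P ^ (n + 1)) : y ∈ P ^ (n + 1) := by
  obtain ⟨m, rfl⟩ := hp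
  have := sub_mem (show ((2 * m + 1 : ℕ) : 𝓞 K) * y ∈ P ^ (n + 1) by
    rw [pow_succ']; exact Ideal.mul_mem_mul h3 hy) (Ideal.mul_mem_left _ (m : 𝓞 K) h)
  rwa [show ((2 * m + 1 : ℕ) : 𝓞 K) * y - m * (2 * y) = y by push_cast; ring] at this

/-- **the tame prime** -/
theorem tpC (hV : VAL) (p : ℕ) (hp : Odd p) : Al fun K _ _ _ P => (p : 𝓞 K) ∈ P → ∀ θ, Ap P θ →
    (∀ s : Ga K, s ≠ 1 → s • θ - θ ≠ 0) → (∀ s : Ga K, In P s → s * s = 1) →
    2 * ∑ s ∈ I1 P, w P (s • θ - θ) ≤ w P p := by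
  intro K _ _ _ P hP h0 h3 θ hA n0 hs
  obtain ⟨v1, v2, -, v4⟩ := hV K P hP h0
  have mem : ∀ s, s ∈ I1 P ↔ In P s ∧ s ≠ 1 := fun s => by
    classical
    simp only [I1, Finset.mem_filter, Finset.mem_univ, true_and]
  have neg : ∀ s : Ga K, In P s → s • (s • θ - θ) = -(s • θ - θ) := fun s h => by
    rw [smul_sub, ← mul_smul, hs s h, one_smul, neg_sub]
  have B : ∀ s ∈ I1 P, s • θ - θ ∉ P ^ 2 := fun s h c => by
    obtain ⟨h1, h2⟩ := (mem s).1 h
    have y0 := n0 s h2
    have m := (v2 _ _ y0).1 (le_refl (w P (s • θ - θ)))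
    have k := up h1 (all2 hA h1 c) _ _ m
    rw [neg s h1, show -(s • θ - θ) - (s • θ - θ) = -(2 * (s • θ - θ)) by ring, neg_mem_iff] at k
    have := (v2 _ _ y0).2 (halfp hp h3 m k)
    omega
  have W : ∀ s ∈ I1 P, w P (s • θ - θ) ≤ 1 := fun s h => by
    by_contra c
    exact B s h ((v2 _ 2 (n0 s ((mem s).1 h).2)).1 (by omega))
  have C : ∀ s ∈ I1 P, ∀ b ∈ P, s • b + b ∈ P ^ 2 := fun s h b hb => by
    obtain ⟨h1, h2⟩ := (mem s).1 h
    by_cases b0 : b = 0
    · rw [b0, smul_zero, add_zero]; exact zero_mem _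
    obtain ⟨c, z, hc, e⟩ := v4 b _ b0 (n0 s h2)
      ((W s h).trans ((v2 b 1 b0).2 (by rwa [pow_one])))
    have e' : s • c * s • b = -(s • θ - θ) * s • z := by
      rw [← smul_mul', e, smul_mul', neg s h1]
    have sb : s • b ∈ P := by
      have := pow_mem h1 1 (x := b) (by rwa [pow_one])
      rwa [pow_one] at this
    have k : c * (s • b + b) ∈ P ^ 2 := by
      have : c * (s • b + b) = -((s • c - c) * s • b) - (s • θ - θ) * (s • z - z) := by
        linear_combination e + e'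
      rw [this, sq]
      exact sub_mem (neg_mem (Ideal.mul_mem_mul (h1 c) sb)) (Ideal.mul_mem_mul (h1 θ) (h1 z))
    by_cases z0 : s • b + b = 0
    · rw [z0]; exact zero_mem _
    have c0 : c ≠ 0 := fun e => hc (e ▸ zero_mem _)
    have w0 : w P c = 0 := by
      by_contra c1
      exact hc (by simpa using (v2 c 1 c0).1 (by omega))
    have := (v2 _ 2 (mul_ne_zero c0 z0)).2 k
    rw [v1 _ _ c0 z0, w0, zero_add] at this
    exact (v2 _ 2 z0).1 this
  have D : ∀ s ∈ I1 P, ∀ t ∈ I1 P, s = t := fun s h t ht => by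
    by_contra c
    obtain ⟨h1, h2⟩ := (mem s).1 h
    obtain ⟨t1, t2⟩ := (mem t).1 ht
    have u : s * t ∈ I1 P := (mem _).2 ⟨fun x => by
      have := add_mem (h1 (t • x)) (t1 x)
      rwa [sub_add_sub_cancel, ← mul_smul] at this, fun e =>
      c (mul_right_cancel (e.trans (hs t t1).symm))⟩
    have hb := h1 θ
    have k1 := C _ u _ hb
    have k2 := pow_mem h1 2 (C _ ht _ hb)
    have k3 := C _ h _ hb
    rw [smul_add, ← mul_smul] at k2
    refine B s h (halfp hp h3 (n := 1) (by rwa [pow_one]) ?_)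
    have := add_mem (sub_mem k1 k2) k3
    generalize s • θ - θ = y at this ⊢
    rwa [show (s * t) • y + y - ((s * t) • y + s • y) + (s • y + y) = 2 * y by ring] at this
  rcases (I1 P).eq_empty_or_nonempty with e | ⟨s, h⟩
  · rw [e, Finset.sum_empty]
    exact Nat.zero_le _
  · rw [show I1 P = {s} from Finset.eq_singleton_iff_unique_mem.2 ⟨h, fun t ht => D t ht s h⟩,
      Finset.sum_singleton]
    have k := C s h p h3
    have e3 : s • (p : 𝓞 K) = p := map_natCast (MulSemiringAction.toRingHom (Ga K) (𝓞 K) s) p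
    rw [e3, ← two_mul] at k
    have := (v2 p 2 (Nat.cast_ne_zero.2 hp.pos.ne')).2 (halfp hp h3 (n := 1) (by rwa [pow_one]) k)
    have := W s h
    omega

end Vale.Agent.P022U.H29
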