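import Vale.Agent.P022T.TateH92
import Vale.Agent.P022U.GpH8
import Vale.Agent.P022U.Fb
import Vale.Agent.P022U.NcH72
import Vale.Agent.P022U.G60H27
import Vale.Agent.P022U.Cn
import Vale.Agent.P022U.GenH37
import Vale.Agent.P022U.MhH83

/-!
P022U: residual representations unramified outside `2 q`, `q = 3, 5, 7`, whose inertia groups at
`q` have exponent at most two have solvable image.
-/

set_option linter.all false

open NumberField

noncomputable section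

namespace Vale.Agent.P022U.H92

open Vale.Agent.P022 Vale.Agent.P022T

theorem bd7 : H37.BD 7 := fun K _ _ h _ => H83.mh K h

theorem lvq {q : ℕ} (hq : Odd q) (h7 : q ≤ 7) : H37.LVP q :=
  H37.lvp valC H57.thC (dfC valC) (H83.wlC valC (H88.co valC)) H65.tmC ce H27.g60C H8.gpC fbC
    (Cn.cnC valC) (H72.ncC valC (H88.co valC)) hq (bd7.mono h7)

theorem lv7 (k : Type) [Field k] [CharP k 2]
    (ρ : (AlgebraicClosure ℚ ≃ₐ[ℚ] AlgebraicClosure ℚ) →* GL (Fin 2) k)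
    (h : ∃ q : ℕ, (q = 3 ∨ q = 5 ∨ q = 7) ∧ IsOpen {g | ρ g = 1} ∧
      (∀ p : ℕ, p.Prime → p ≠ 2 → p ≠ q → St.UnrAt ρ p) ∧
      ∀ P : Ideal (𝓞 (AlgebraicClosure ℚ)), P.IsPrime → (q : 𝓞 (AlgebraicClosure ℚ)) ∈ P →
        ∀ s : AlgebraicClosure ℚ ≃ₐ[ℚ] AlgebraicClosure ℚ,
          (∀ x : 𝓞 (AlgebraicClosure ℚ), s • x - x ∈ P) → ρ s * ρ s = 1) :
    Group.IsSolvable ρ.range := by
  obtain ⟨q, hq, h1, h2, h3⟩ := h
  refine lvq (q := q) ?_ ?_ k ρ h1 h2 h3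
  · rcases hq with rfl | rfl | rfl <;> decide
  · omega

end Vale.Agent.P022U.H92
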