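import Vale.Agent.P022U.Defs
import Vale.Agent.P022T.WlH28
import Vale.Agent.P022T.Val

/-!
# P022U: row NC
-/

set_option linter.all false

open NumberField

noncomputable section

namespace Vale.Agent.P022U.H24

open Vale.Agent.P022T Vale.Agent.P022T.H28

variable {K : Type} [Field K] [NumberField K] [IsGalois ℚ K] {P : Ideal (𝓞 K)}

theorem pw {s : Ga K} (h : ∀ x ∈ P, s • x ∈ P) (n : ℕ) {x : 𝓞 K} (hx : x ∈ P ^ n) :
    s • x ∈ P ^ n := by
  have e : P.map (MulSemiringAction.toRingHom (Ga K) (𝓞 K) s) ≤ P :=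
    Ideal.map_le_iff_le_comap.2 fun y hy => h y hy
  have k := Ideal.mem_map_of_mem (MulSemiringAction.toRingHom (Ga K) (𝓞 K) s) hx
  rw [Ideal.map_pow] at k
  exact Ideal.pow_right_mono e n k

theorem unit (hP : P.IsPrime) (h0 : P ≠ ⊥) {θ : 𝓞 K}
    (hθ : ∀ s : Ga K, s ≠ 1 → s • θ - θ ≠ 0) (hs : ∀ s : Ga K, In P s → s * s = 1) {φ : Ga K}
    (hφ : ∀ x : 𝓞 K, φ • x - x ^ 2 ∈ P) (hc : ∀ s : Ga K, In P s → φ * s = s * φ → s = 1)
    (χ : H P →* ℤˣ) : ∃ y, Eg χ y ∧ w P y = 0 := by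
  have f1 : ∀ x ∈ P, φ • x ∈ P := fun x hx => by
    have := P.add_mem (hφ x) (P.pow_mem_of_mem hx 2 two_pos)
    rwa [sub_add_cancel] at this
  have f2 : ∀ x ∈ P, φ⁻¹ • x ∈ P := fun x hx => by
    have := P.sub_mem hx (by simpa only [smul_inv_smul] using hφ (φ⁻¹ • x))
    rw [sub_sub_cancel] at this
    exact hP.mem_of_pow_mem 2 this
  have wf : ∀ x, x ≠ 0 → w P (φ • x) = w P x := fun x hx => by
    refine le_antisymm ((Val.le_iff hP h0 hx _).2 ?_) ((Val.le_iff hP h0 (sm_ne hx φ) _).2 ?_)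
    · have k := pw f2 _ ((Val.le_iff hP h0 (sm_ne hx φ) _).1 le_rfl)
      rwa [inv_smul_smul] at k
    · exact pw f1 _ ((Val.le_iff hP h0 hx _).1 le_rfl)
  have s2 : ∀ s : H P, s * s = 1 := fun s => Subtype.ext (hs s s.2)
  letI : CommGroup (H P) := { (inferInstance : Group (H P)) with
    mul_comm := fun a b => by
      rw [← inv_eq_of_mul_eq_one_right (s2 (a * b)), mul_inv_rev,
        inv_eq_of_mul_eq_one_right (s2 a), inv_eq_of_mul_eq_one_right (s2 b)] }
  let c : H P →* H P :=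
    { toFun := fun s => ⟨φ⁻¹ * s * φ, fun x => by
        have := f2 _ (s.2 (φ • x))
        rwa [smul_sub, inv_smul_smul, ← mul_smul, ← mul_smul] at this⟩
      map_one' := Subtype.ext (by simp)
      map_mul' := fun a b => Subtype.ext (by simp [mul_assoc]) }
  have hi : Function.Injective (c * MonoidHom.id (H P)) := (injective_iff_map_eq_one _).2
    fun s h => Subtype.ext (hc s s.2 (by
      have e : c s = s := (eq_inv_of_mul_eq_one_left h).trans (inv_eq_of_mul_eq_one_right (s2 s))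
      have e' : φ⁻¹ * s * φ = s := congrArg Subtype.val e
      rw [mul_assoc, inv_mul_eq_iff_eq_mul] at e'
      exact e'.symm))
  let f := MulEquiv.ofBijective _ (Finite.injective_iff_bijective.1 hi)
  obtain ⟨ψ, hψ⟩ : ∃ ψ : H P →* ℤˣ, ψ.comp c * ψ = χ :=
    ⟨χ.comp f.symm.toMonoidHom, MonoidHom.ext fun s => by
      rw [MonoidHom.mul_apply, MonoidHom.comp_apply, ← map_mul]
      exact congrArg χ (f.symm_apply_apply s)⟩
  obtain ⟨z, hz⟩ := ex_eg hθ ψ
  have k : Eg (ψ.comp c) (φ • z) := ⟨sm_ne hz.1 φ, fun s => by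
    rw [← sm_int, MonoidHom.comp_apply, ← hz.2 (c s), ← mul_smul, ← mul_smul]
    exact congrArg (· • z) (show (s : Ga K) * φ = φ * (φ⁻¹ * s * φ) by group)⟩
  obtain ⟨y, y1, y2⟩ := red valC hP h0 (k.mul hz)
  refine ⟨y, hψ ▸ y1, y2.trans (Nat.mod_eq_zero_of_dvd ?_)⟩
  rw [(valC K P hP h0).1 _ _ k.1 hz.1, wf z hz.1, ← (valC K P hP h0).1 _ _ hz.1 hz.1]
  exact inv hP h0 (hz.mul hz).1 fun s => by
    rw [(hz.mul hz).2, MonoidHom.mul_apply, Units.val_mul, Int.cast_mul, H28.sq, one_mul]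

theorem ncC (hC : CO) : NC := by
  classical
  intro K _ _ _ P hP h0 h2 θ hA hθ hs φ hφ hc
  choose y y1 y2 using unit hP h0 hθ hs hφ hc
  have s2 : ∀ s : H P, s * s = 1 := fun s => Subtype.ext (hs s s.2)
  letI : CommGroup (H P) := { (inferInstance : Group (H P)) with
    mul_comm := fun a b => by
      rw [← inv_eq_of_mul_eq_one_right (s2 (a * b)), mul_inv_rev,
        inv_eq_of_mul_eq_one_right (s2 a), inv_eq_of_mul_eq_one_right (s2 b)] }
  haveI : HasEnoughRootsOfUnity ℤ 2 := ⟨⟨-1, IsPrimitiveRoot.neg_one 0 (by norm_num)⟩, inferInstance⟩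
  haveI : HasEnoughRootsOfUnity ℤ (Monoid.exponent (H P)) := HasEnoughRootsOfUnity.of_dvd ℤ
    (Monoid.exponent_dvd_of_forall_pow_eq_one fun s => (pow_two s).trans (s2 s) : _ ∣ 2)
  have hX := CommGroup.card_monoidHom_of_hasEnoughRootsOfUnity (H P) ℤ
  have ep : 0 < Nat.card (H P) := Nat.card_pos
  haveI : Finite (H P →* ℤˣ) := Nat.finite_of_card_ne_zero (hX ▸ ep.ne')
  letI : Fintype (H P →* ℤˣ) := Fintype.ofFinite _
  rw [Nat.card_eq_fintype_card] at hX
  let i : H P → ℕ := fun t => w P ((t : Ga K) • θ - θ)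
  have co : ∀ χ : H P →* ℤˣ, ∑ t ∈ Finset.univ.filter (fun t => χ t = -1), i t ≤ w P 2 :=
    fun χ => by
      have := hC K P hP h0 θ hA hθ ((Finset.univ.filter fun t : H P => χ t = -1).map
        (Function.Embedding.subtype _)) (y χ) (y1 χ).1 fun s hs => by
          obtain ⟨t, ht, rfl⟩ := Finset.mem_map.1 hs
          refine ⟨t.2, ((y1 χ).2 t).trans ?_⟩
          rw [(Finset.mem_filter.1 ht).2]
          simp
      rwa [Finset.sum_map, y2, add_zero] at this
  have e1 : I1 P = (Finset.univ.filter fun t : H P => t ≠ 1).map (Function.Embedding.subtype _) := by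
    ext s
    simp only [I1, Finset.mem_filter, Finset.mem_univ, true_and, Finset.mem_map]
    exact ⟨fun h => ⟨⟨s, h.1⟩, fun k => h.2 (congrArg Subtype.val k), rfl⟩, by
      rintro ⟨t, ht, rfl⟩
      exact ⟨t.2, fun k => ht (Subtype.ext k)⟩⟩
  have lo : Nat.card (H P) * ∑ s ∈ I1 P, w P (s • θ - θ) ≤
      2 * ∑ χ : H P →* ℤˣ, ∑ t ∈ Finset.univ.filter (fun t => χ t = -1), i t := by
    rw [e1, Finset.sum_map, Finset.sum_comm' (t' := Finset.univ)
      (s' := fun t => Finset.univ.filter fun χ : H P →* ℤˣ => χ t = -1) (by simp),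
      Finset.mul_sum, Finset.mul_sum]
    refine le_trans (Finset.sum_le_sum fun t ht => ?_)
      (Finset.sum_le_sum_of_subset (Finset.filter_subset _ _))
    obtain ⟨a, ha⟩ := CommGroup.exists_apply_ne_one_of_hasEnoughRootsOfUnity (H P) ℤ
      (Finset.mem_filter.1 ht).2
    rw [Finset.sum_const, smul_eq_mul, ← mul_assoc]
    refine Nat.mul_le_mul_right _ (hX ▸ half' _ a fun b hb => ?_)
    rw [MonoidHom.mul_apply, (Int.units_eq_one_or _).resolve_left ha,
      (Int.units_eq_one_or _).resolve_right hb, mul_one]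
  have hi := Finset.sum_le_sum fun χ (_ : χ ∈ Finset.univ) => co χ
  rw [Finset.sum_const, smul_eq_mul, Finset.card_univ, hX] at hi
  refine Nat.le_of_mul_le_mul_left (lo.trans ?_) ep
  rw [mul_left_comm]
  exact Nat.mul_le_mul_left 2 hi

end Vale.Agent.P022U.H24
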