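import Vale.Agent.P022U.Defs
import Vale.Agent.P022T.Wl

/-!
# P022U: the case where Frobenius centralises no element of the inertia group
-/

set_option linter.all false

open NumberField Polynomial

noncomputable section

namespace Vale.Agent.P022U.H41

open Vale.Agent.P022T Vale.Agent.P022T.Wl

variable {K : Type} [Field K] [NumberField K] {P : Ideal (𝓞 K)}

/-- conjugation on the inertia group -/
def cj (g : Ga K) (hg : ∀ x : 𝓞 K, g • x ∈ P ↔ x ∈ P) :
    P.inertia (Ga K) →* P.inertia (Ga K) where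
  toFun s := ⟨g⁻¹ * s * g, fun x => by
    have h : (s : Ga K) • (g • x) - g • x ∈ P := s.2 (g • x)
    have h2 : g • ((g⁻¹ * s * g) • x - x) = (s : Ga K) • (g • x) - g • x := by
      rw [smul_sub, mul_smul, mul_smul, smul_inv_smul]
    exact (hg _).1 (h2 ▸ h)⟩
  map_one' := Subtype.ext (by simp)
  map_mul' s t := Subtype.ext (by simp [mul_assoc])

theorem cj_val (g : Ga K) (hg : ∀ x : 𝓞 K, g • x ∈ P ↔ x ∈ P) (s : P.inertia (Ga K)) :
    (cj g hg s : Ga K) = g⁻¹ * s * g := rfl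

theorem eg_cj (g : Ga K) (hg : ∀ x : 𝓞 K, g • x ∈ P ↔ x ∈ P) {χ : P.inertia (Ga K) →* ℤˣ}
    {y : 𝓞 K} (h : Eg χ y) : Eg (χ.comp (cj g hg)) (g • y) := by
  refine ⟨fun k => h.1 (by simpa using congrArg (fun z => g⁻¹ • z) k), fun s => ?_⟩
  have k := congrArg (fun z => g • z) (h.2 (cj g hg s))
  simp only [smul_sg, cj_val, mul_smul, smul_inv_smul] at k
  exact k

theorem ncC (hV : VAL) (hC : CO) : NC := by
  classical
  intro K _ _ _ P hP h0 h2 θ a1 a2 a3 φ f1 f2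
  obtain ⟨v1, v2, -, v4⟩ := hV K P hP h0
  have sq : ∀ s : P.inertia (Ga K), s * s = 1 := fun s => Subtype.ext (a3 s s.2)
  letI : CommGroup (P.inertia (Ga K)) :=
    { (inferInstance : Group (P.inertia (Ga K))) with
      mul_comm := fun a b => by
        rw [eq_inv_of_mul_eq_one_left (sq (a * b)), mul_inv_rev,
          ← eq_inv_of_mul_eq_one_left (sq a), ← eq_inv_of_mul_eq_one_left (sq b)] }
  haveI : HasEnoughRootsOfUnity ℤ 2 := ⟨⟨-1, IsPrimitiveRoot.neg_one 0 (by norm_num)⟩, inferInstance⟩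
  haveI : HasEnoughRootsOfUnity ℤ (Monoid.exponent (P.inertia (Ga K))) :=
    HasEnoughRootsOfUnity.of_dvd ℤ (n := 2)
      (Monoid.exponent_dvd_of_forall_pow_eq_one fun s => by rw [pow_two, sq])
  have cX := CommGroup.card_monoidHom_of_hasEnoughRootsOfUnity (P.inertia (Ga K)) ℤ
  have eX := fun s => CommGroup.exists_apply_ne_one_of_hasEnoughRootsOfUnity (P.inertia (Ga K)) ℤ
    (a := s)
  rw [card_I] at cX
  haveI : Finite (P.inertia (Ga K) →* ℤˣ) := Nat.finite_of_card_ne_zero (by omega)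
  haveI := Fintype.ofFinite (P.inertia (Ga K) →* ℤˣ)
  rw [Nat.card_eq_fintype_card] at cX
  choose y y1 y2 using fun χ : P.inertia (Ga K) →* ℤˣ => ex_min (w P) (Eg χ) (ex_eg a2 χ)
  have t0 : (2 : 𝓞 K) ≠ 0 := two_ne_zero
  have t1 : Eg (1 : P.inertia (Ga K) →* ℤˣ) (2 : 𝓞 K) ∧ 0 < w P 2 :=
    ⟨⟨t0, fun s => by
      rw [sg_one, one_mul, ← one_add_one_eq_two, smul_add, smul_one]⟩,
      (v2 2 1 t0).2 (by rwa [pow_one])⟩
  obtain ⟨a, ⟨b1, b2⟩, b3⟩ := ex_min (w P)
    (fun a => Eg (1 : P.inertia (Ga K) →* ℤˣ) a ∧ 0 < w P a) ⟨2, t1⟩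
  have cA : ∀ χ, w P (y χ) < w P a := fun χ => by
    by_contra n
    obtain ⟨z, z1, z2⟩ := div hP v1 v2 v4 (y1 χ) b1 (not_lt.1 n)
    rw [mul_one] at z1
    have := y2 χ z z1
    omega
  have cB : ∀ χ, 0 < w P (y χ) → 2 * w P (y χ) = w P a := fun χ h => by
    have e : Eg (1 : P.inertia (Ga K) →* ℤˣ) (y χ * y χ) :=
      ⟨mul_ne_zero (y1 χ).1 (y1 χ).1, fun s => by
        rw [smul_mul', (y1 χ).2, sg_one]
        linear_combination y χ * y χ * sg_sq χ s⟩
    have e1 := v1 _ _ (y1 χ).1 (y1 χ).1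
    have e2 := b3 _ ⟨e, by omega⟩
    obtain ⟨z, z1, z2⟩ := div hP v1 v2 v4 e b1 e2
    rw [mul_one] at z1
    have e3 := cA χ
    by_contra n
    have := b3 z ⟨z1, by omega⟩
    omega
  have wz : ∀ x : 𝓞 K, x ≠ 0 → (w P x = 0 ↔ x ∉ P) := fun x hx => by
    have := v2 x 1 hx
    rw [pow_one] at this
    rw [← this]
    omega
  have m1 : ∀ χ ψ, w P (y χ) = 0 → w P (y ψ) = 0 → w P (y (χ * ψ)) = 0 := fun χ ψ h k => by
    have e : Eg (χ * ψ) (y χ * y ψ) :=
      ⟨mul_ne_zero (y1 χ).1 (y1 ψ).1, fun s => by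
        rw [smul_mul', (y1 χ).2, (y1 ψ).2, sg_mul]
        ring⟩
    have e1 := v1 _ _ (y1 χ).1 (y1 ψ).1
    have := y2 _ _ e
    omega
  have m2 : ∀ χ ψ, w P (y χ) ≠ 0 → w P (y ψ) ≠ 0 → w P (y (χ * ψ)) = 0 := fun χ ψ h k => by
    have e1 := cB χ (Nat.pos_of_ne_zero h)
    have e2 := cB ψ (Nat.pos_of_ne_zero k)
    obtain ⟨z, z1, z2⟩ := div hP v1 v2 v4 (y1 χ) (y1 ψ) (by omega)
    have := y2 _ z z1
    omega
  have sqX : ∀ χ : P.inertia (Ga K) →* ℤˣ, χ * χ = 1 :=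
    fun χ => MonoidHom.ext fun s => Int.units_mul_self _
  have m3 : ∀ χ ψ, w P (y χ) = 0 → w P (y ψ) ≠ 0 → w P (y (χ * ψ)) ≠ 0 := fun χ ψ h k n => by
    have := m1 _ _ h n
    rw [← mul_assoc, sqX, one_mul] at this
    exact k this
  let δ : (P.inertia (Ga K) →* ℤˣ) →* ℤˣ := MonoidHom.mk'
    (fun χ => if w P (y χ) = 0 then 1 else -1) fun χ ψ => by
      by_cases h : w P (y χ) = 0 <;> by_cases k : w P (y ψ) = 0
      · simp [h, k, m1 χ ψ h k]
      · simp [h, k, m3 χ ψ h k]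
      · have := m3 ψ χ k h
        rw [mul_comm] at this
        simp [h, k, this]
      · simp [h, k, m2 χ ψ h k]
  have dv : ∀ χ, δ χ = if w P (y χ) = 0 then 1 else -1 := fun _ => rfl
  haveI : HasEnoughRootsOfUnity ℤ (Monoid.exponent (P.inertia (Ga K) →* ℤˣ)) :=
    HasEnoughRootsOfUnity.of_dvd ℤ (n := 2)
      (Monoid.exponent_dvd_of_forall_pow_eq_one fun s => by rw [pow_two, sqX])
  have cY := CommGroup.card_monoidHom_of_hasEnoughRootsOfUnity (P.inertia (Ga K) →* ℤˣ) ℤ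
  have sep : ∀ s t : P.inertia (Ga K), (∀ χ : P.inertia (Ga K) →* ℤˣ, χ s = χ t) → s = t :=
    fun s t h => by
      by_contra n
      obtain ⟨ψ, hψ⟩ := eX (s * t⁻¹) fun k => n (mul_inv_eq_one.1 k)
      apply hψ
      rw [map_mul, map_inv, h, mul_inv_cancel]
  let ev : P.inertia (Ga K) → ((P.inertia (Ga K) →* ℤˣ) →* ℤˣ) := fun s =>
    MonoidHom.mk' (fun χ => χ s) fun _ _ => rfl
  have ei : Function.Injective ev := fun s t h => sep s t fun χ => DFunLike.congr_fun h χ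
  have cX' : Nat.card (P.inertia (Ga K) →* ℤˣ) = (I1 P).card + 1 := by
    rw [Nat.card_eq_fintype_card, cX]
  haveI : Finite ((P.inertia (Ga K) →* ℤˣ) →* ℤˣ) :=
    Nat.finite_of_card_ne_zero (by rw [cY, cX']; omega)
  have eb : Function.Bijective ev :=
    ei.bijective_of_nat_card_le (by rw [cY, cX', card_I])
  obtain ⟨s0, hs0⟩ := eb.2 δ
  have e0 : ∀ χ, χ s0 = δ χ := fun χ => DFunLike.congr_fun hs0 χ
  have p1 : ∀ x : 𝓞 K, φ • x ∈ P ↔ x ∈ P := fun x => by
    constructor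
    · intro h
      have := P.sub_mem h (f1 x)
      rw [sub_sub_cancel] at this
      exact hP.mem_of_pow_mem 2 this
    · intro h
      have := P.add_mem (f1 x) (P.pow_mem_of_mem h 2 (by norm_num))
      rwa [sub_add_cancel] at this
  have p2 : ∀ x : 𝓞 K, φ⁻¹ • x ∈ P ↔ x ∈ P := fun x => by
    rw [← p1, smul_inv_smul]
  have q : ∀ (g : Ga K) (hg : ∀ x : 𝓞 K, g • x ∈ P ↔ x ∈ P) χ, w P (y χ) = 0 →
      w P (y (χ.comp (cj g hg))) = 0 := fun g hg χ h => by
    have e := eg_cj g hg (y1 χ)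
    have k := y2 _ _ e
    have : w P (g • y χ) = 0 := (wz _ e.1).2 fun n => (wz _ (y1 χ).1).1 h ((hg _).1 n)
    omega
  have q2 : ∀ χ, δ (χ.comp (cj φ p1)) = δ χ := fun χ => by
    rw [dv, dv]
    by_cases h : w P (y χ) = 0
    · rw [if_pos h, if_pos (q φ p1 χ h)]
    · rw [if_neg h, if_neg fun n => h ?_]
      have := q φ⁻¹ p2 _ n
      have e : (χ.comp (cj φ p1)).comp (cj φ⁻¹ p2) = χ := MonoidHom.ext fun s => by
        have : cj φ p1 (cj φ⁻¹ p2 s) = s := Subtype.ext (by simp [cj_val, mul_assoc])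
        rw [MonoidHom.comp_apply, MonoidHom.comp_apply, this]
      rwa [e] at this
  have q3 : cj φ p1 s0 = s0 := sep _ _ fun χ => by
    rw [e0 χ, ← q2 χ, ← e0]
    rfl
  have q4 : (s0 : Ga K) = 1 := f2 s0 s0.2 (by
    have := congrArg Subtype.val q3
    rw [cj_val] at this
    calc φ * s0 = φ * (φ⁻¹ * s0 * φ) := by rw [this]
      _ = s0 * φ := by simp [mul_assoc])
  have cZ : ∀ χ, w P (y χ) = 0 := fun χ => by
    have := e0 χ
    rw [show s0 = 1 from Subtype.ext q4, map_one, dv] at this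
    by_contra n
    rw [if_neg n] at this
    exact absurd this (by decide)
  have ne : ∀ χ, y χ ≠ -y χ := fun χ k => mul_ne_zero t0 (y1 χ).1 (by linear_combination k)
  have cD : ∀ s ∈ I1 P, (I1 P).card + 1 ≤
      2 * (Finset.univ.filter fun χ => s • y χ = -y χ).card := fun s hs => by
    obtain ⟨s1, s2⟩ := mem_I1.1 hs
    obtain ⟨ψ, hψ⟩ := eX ⟨s, s1⟩ fun k => s2 (congrArg Subtype.val k)
    have k : ∀ χ, ¬ s • y χ = -y χ ↔ χ ⟨s, s1⟩ = 1 := fun χ => by
      have := (y1 χ).2 ⟨s, s1⟩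
      rcases Int.units_eq_one_or (χ ⟨s, s1⟩) with h | h
      · simp only [sg, h, Units.val_one, Int.cast_one, one_mul] at this
        rw [this]
        exact ⟨fun _ => h, fun _ => ne χ⟩
      · simp only [sg, h, Units.val_neg, Units.val_one, Int.cast_neg, Int.cast_one, neg_mul,
          one_mul] at this
        rw [h]
        exact ⟨fun n => absurd this n, fun n => absurd n (by decide)⟩
    have a := half (fun χ => ¬ s • y χ = -y χ) (· * ψ) (mul_left_injective ψ) fun χ e => by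
      rw [k, MonoidHom.mul_apply, (k χ).1 e, one_mul]
      exact hψ
    have b := Finset.card_filter_add_card_filter_not (s := Finset.univ)
      fun χ => s • y χ = -y χ
    rw [Finset.card_univ] at b
    omega
  have cE : ∀ χ, 2 * ∑ s ∈ (I1 P).filter fun s => s • y χ = -y χ, w P (s • θ - θ) ≤
      (if χ = 1 then 0 else 2 * w P 2) := fun χ => by
    by_cases h : χ = 1
    · rw [Finset.filter_eq_empty_iff.2 fun s hs k => ne χ ?_]
      · simp
      · rw [← k, (y1 χ).2 ⟨s, (mem_I1.1 hs).1⟩, h, sg_one, one_mul]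
    · have := hC K P hP h0 θ a1 a2 ((I1 P).filter fun s => s • y χ = -y χ) (y χ) (y1 χ).1
        fun s hs => ⟨(mem_I1.1 (Finset.mem_filter.1 hs).1).1, (Finset.mem_filter.1 hs).2⟩
      rw [if_neg h]
      have := cZ χ
      omega
  have s1 := Finset.sum_le_sum fun χ (_ : χ ∈ Finset.univ) => cE χ
  have s2 : ∑ χ, 2 * ∑ s ∈ (I1 P).filter fun s => s • y χ = -y χ, w P (s • θ - θ) =
      ∑ s ∈ I1 P, 2 * (Finset.univ.filter fun χ => s • y χ = -y χ).card * w P (s • θ - θ) := by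
    simp only [Finset.sum_filter, Finset.mul_sum]
    rw [Finset.sum_comm]
    refine Finset.sum_congr rfl fun s _ => ?_
    rw [← Finset.mul_sum, ← Finset.sum_filter, Finset.sum_const, smul_eq_mul, mul_assoc]
  have s3 : ((I1 P).card + 1) * ∑ s ∈ I1 P, w P (s • θ - θ) ≤
      ∑ s ∈ I1 P, 2 * (Finset.univ.filter fun χ => s • y χ = -y χ).card * w P (s • θ - θ) := by
    rw [Finset.mul_sum]
    exact Finset.sum_le_sum fun s hs => Nat.mul_le_mul_right _ (cD s hs)
  have s4 : ∑ χ : P.inertia (Ga K) →* ℤˣ, (if χ = 1 then 0 else 2 * w P 2) =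
      (I1 P).card * (2 * w P 2) := by
    rw [Finset.sum_ite, Finset.sum_const_zero, zero_add, Finset.sum_const, smul_eq_mul,
      Finset.filter_ne', Finset.card_erase_of_mem (Finset.mem_univ _), Finset.card_univ, cX,
      Nat.add_sub_cancel]
  rw [s2, s4] at s1
  have s6 := s3.trans s1
  refine Nat.le_of_mul_le_mul_left (s6.trans ?_) (Nat.succ_pos (I1 P).card)
  exact Nat.mul_le_mul_right _ (Nat.le_succ _)

end Vale.Agent.P022U.H41
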