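import Vale.Agent.P022U.Defs

/-!
# P022U: a numerical inequality
-/

set_option linter.all false

open Real

namespace Vale.Agent.P022U.H56

theorem fac_le {n : ℕ} (hn : 1 ≤ n) :
    ((n.factorial : ℝ)) ^ 2 * exp 1 ^ (2 * n) ≤ exp 1 ^ 2 * n * (n : ℝ) ^ (2 * n) := by
  obtain ⟨m, rfl⟩ := Nat.exists_eq_add_of_le' hn
  have h := Stirling.stirlingSeq'_antitone (Nat.zero_le m)
  simp only [Function.comp, Nat.succ_eq_add_one, zero_add, Stirling.stirlingSeq_one] at h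
  set n := m + 1
  have hp : (0 : ℝ) < n := by positivity
  have he : (0 : ℝ) < exp 1 := exp_pos 1
  rw [Stirling.stirlingSeq, div_le_iff₀ (by positivity)] at h
  have h2 := pow_le_pow_left₀ (by positivity) h 2
  rw [mul_pow, mul_pow, div_pow, sq_sqrt (by positivity), sq_sqrt (by positivity), ← pow_mul,
    div_pow, mul_comm n 2] at h2
  calc _ ≤ exp 1 ^ 2 / 2 * (2 * n * ((n : ℝ) ^ (2 * n) / exp 1 ^ (2 * n))) * exp 1 ^ (2 * n) := by
        gcongr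
    _ = _ := by field_simp

theorem cube (m : ℕ) : 7.4 * ((m + 30 + 1 : ℕ) : ℝ) ^ 3 < 1.51 ^ (m + 30) := by
  induction m with
  | zero => norm_num
  | succ m ih =>
    rw [show m + 1 + 30 = m + 30 + 1 by ring, pow_succ (1.51 : ℝ)]
    have h0 : (0 : ℝ) ≤ m := by positivity
    have : ((m + 30 + 1 + 1 : ℕ) : ℝ) ^ 3 ≤ 1.51 * ((m + 30 + 1 : ℕ) : ℝ) ^ 3 := by
      push_cast
      nlinarith [pow_nonneg h0 2, pow_nonneg h0 3]
    nlinarith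

/-- **the numerical inequality** -/
theorem num {k : ℕ} (hk : 30 ≤ k) :
    (48 : ℝ) ^ k < ((π * k) ^ k / ((k + 1).factorial : ℝ)) ^ 2 := by
  have f := fac_le (n := k + 1) (by omega)
  have c : 7.4 * ((k + 1 : ℕ) : ℝ) ^ 3 < 1.51 ^ k := by
    obtain ⟨m, rfl⟩ := Nat.exists_eq_add_of_le' hk
    exact cube m
  have kp : (0 : ℝ) < k := by exact_mod_cast (by omega : 0 < k)
  have he : (0 : ℝ) < exp 1 := exp_pos 1
  have e1 := exp_one_gt_d9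
  have e2 := exp_one_lt_d9
  have p1 := pi_gt_d2
  have a : ((k + 1 : ℕ) : ℝ) ^ k ≤ exp 1 * (k : ℝ) ^ k := by
    have := one_add_inv_pow_le_exp (n := k)
    rw [show (1 : ℝ) + (k : ℝ)⁻¹ = ((k + 1 : ℕ) : ℝ) / k by push_cast; field_simp, div_pow,
      div_le_iff₀ (by positivity)] at this
    exact this
  have q : (48 * 1.51 : ℝ) ≤ (π * exp 1) ^ 2 := by
    have : (8.52 : ℝ) ≤ π * exp 1 := by nlinarith
    nlinarith
  have e3 : exp 1 ^ 2 ≤ 7.4 := by nlinarith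
  set n : ℝ := ((k + 1 : ℕ) : ℝ)
  have np : 0 < n := by positivity
  rw [div_pow, lt_div_iff₀ (by positivity)]
  refine lt_of_mul_lt_mul_right (a := exp 1 ^ (2 * (k + 1))) ?_ (by positivity)
  calc (48 : ℝ) ^ k * ((k + 1).factorial : ℝ) ^ 2 * exp 1 ^ (2 * (k + 1))
      ≤ 48 ^ k * (exp 1 ^ 2 * n * n ^ (2 * (k + 1))) := by rw [mul_assoc]; gcongr
    _ = 48 ^ k * (exp 1 ^ 2 * n ^ 3) * (n ^ k) ^ 2 := by ring
    _ ≤ 48 ^ k * (exp 1 ^ 2 * n ^ 3) * (exp 1 * (k : ℝ) ^ k) ^ 2 := by gcongr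
    _ = 48 ^ k * (exp 1 ^ 2 * n ^ 3) * (exp 1 ^ 2 * ((k : ℝ) ^ k) ^ 2) := by ring
    _ ≤ 48 ^ k * (7.4 * n ^ 3) * (exp 1 ^ 2 * ((k : ℝ) ^ k) ^ 2) := by gcongr
    _ < 48 ^ k * 1.51 ^ k * (exp 1 ^ 2 * ((k : ℝ) ^ k) ^ 2) := by gcongr
    _ ≤ ((π * exp 1) ^ 2) ^ k * (exp 1 ^ 2 * ((k : ℝ) ^ k) ^ 2) := by
        rw [← mul_pow]; gcongr
    _ = _ := by ring

theorem nuC : NU := fun _ hk => num hk

end Vale.Agent.P022U.H56
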