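import Vale.Agent.P022U.Defs

/-!
# P022U: the numerical inequality
-/

set_option linter.all false

namespace Vale.Agent.P022U.H69

open Real

theorem step (k : ℕ) (hk : 30 ≤ k) :
    (48 : ℝ) * ((k : ℝ) + 2) ^ 2 * (k : ℝ) ^ (2 * k) ≤ π ^ 2 * ((k : ℝ) + 1) ^ (2 * k + 2) := by
  have k0 : (30 : ℝ) ≤ k := by exact_mod_cast hk
  have h1 : (k : ℝ) / (k + 1) ≤ exp (-(1 / (k + 1))) := by
    have := add_one_le_exp (-(1 / ((k : ℝ) + 1)))
    have e : (k : ℝ) / (k + 1) = -(1 / ((k : ℝ) + 1)) + 1 := by field_simp; ring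
    rw [e]; exact this
  have h2 : ((k : ℝ) / (k + 1)) ^ (2 * k + 2) ≤ exp (-2) := by
    refine (pow_le_pow_left₀ (by positivity) h1 _).trans (le_of_eq ?_)
    rw [← exp_nat_mul]
    refine congrArg exp ?_
    push_cast
    field_simp
  have h3 : exp (-2) ≤ 1 / 7 := by
    rw [exp_neg, one_div]
    refine inv_anti₀ (by norm_num) ?_
    have := exp_one_gt_d9
    rw [show (2 : ℝ) = 1 + 1 by norm_num, exp_add]
    nlinarith
  rw [div_pow, div_le_iff₀ (by positivity)] at h2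
  have h4 : (k : ℝ) ^ (2 * k) * k ^ 2 ≤ 1 / 7 * ((k : ℝ) + 1) ^ (2 * k + 2) := by
    rw [← pow_add]
    exact h2.trans (mul_le_mul_of_nonneg_right h3 (by positivity))
  have h5 : (9.8 : ℝ) ≤ π ^ 2 := by have := pi_gt_d2; nlinarith
  have h6 : (48 : ℝ) * ((k : ℝ) + 2) ^ 2 ≤ 9.8 * 7 * k ^ 2 := by nlinarith
  have p1 : (0 : ℝ) ≤ (k : ℝ) ^ (2 * k) := by positivity
  have p2 : (0 : ℝ) ≤ ((k : ℝ) + 1) ^ (2 * k + 2) := by positivity
  calc (48 : ℝ) * ((k : ℝ) + 2) ^ 2 * (k : ℝ) ^ (2 * k)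
      ≤ 9.8 * 7 * k ^ 2 * (k : ℝ) ^ (2 * k) := mul_le_mul_of_nonneg_right h6 p1
    _ = 9.8 * 7 * ((k : ℝ) ^ (2 * k) * k ^ 2) := by ring
    _ ≤ 9.8 * 7 * (1 / 7 * ((k : ℝ) + 1) ^ (2 * k + 2)) :=
      mul_le_mul_of_nonneg_left h4 (by norm_num)
    _ = 9.8 * ((k : ℝ) + 1) ^ (2 * k + 2) := by ring
    _ ≤ _ := mul_le_mul_of_nonneg_right h5 p2

theorem num0 (k : ℕ) (hk : 30 ≤ k) :
    (48 : ℝ) ^ k * ((k + 1).factorial : ℝ) ^ 2 < (π * k) ^ (2 * k) := by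
  induction k, hk using Nat.le_induction with
  | base =>
    have h : (94.2 : ℝ) ≤ π * (30 : ℕ) := by have := pi_gt_d2; push_cast; linarith
    refine lt_of_lt_of_le ?_ (pow_le_pow_left₀ (by norm_num) h _)
    norm_num [Nat.factorial]
  | succ k hk ih =>
    have s := step k hk
    have k0 : (0 : ℝ) < k := by exact_mod_cast (by omega : 0 < k)
    have p1 : (0 : ℝ) < (k : ℝ) ^ (2 * k) := by positivity
    rw [Nat.factorial_succ (k + 1)]
    push_cast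
    rw [mul_pow] at ih
    calc (48 : ℝ) ^ (k + 1) * (((k : ℝ) + 1 + 1) * ((k + 1).factorial : ℝ)) ^ 2
        = 48 * ((k : ℝ) + 2) ^ 2 * ((48 : ℝ) ^ k * ((k + 1).factorial : ℝ) ^ 2) := by ring
      _ < 48 * ((k : ℝ) + 2) ^ 2 * (π ^ (2 * k) * (k : ℝ) ^ (2 * k)) :=
        mul_lt_mul_of_pos_left ih (by positivity)
      _ = π ^ (2 * k) * (48 * ((k : ℝ) + 2) ^ 2 * (k : ℝ) ^ (2 * k)) := by ring
      _ ≤ π ^ (2 * k) * (π ^ 2 * ((k : ℝ) + 1) ^ (2 * k + 2)) :=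
        mul_le_mul_of_nonneg_left s (by positivity)
      _ = _ := by rw [mul_pow]; ring

theorem num (k : ℕ) (hk : 30 ≤ k) :
    (48 : ℝ) ^ k < ((π * k) ^ k / ((k + 1).factorial : ℝ)) ^ 2 := by
  rw [div_pow, lt_div_iff₀ (by positivity), ← pow_mul, mul_comm k 2]
  exact num0 k hk

theorem nuC : NU := num

end Vale.Agent.P022U.H69
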