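import Vale.Agent.P022U.T3H29
import Vale.Agent.P022U.SixtyH27
import Vale.Agent.P022T.T0H57
import Vale.Agent.P022T.Val
import Vale.Agent.P022T.Inf

/-!
# P022U: the levels three and five
-/

set_option linter.all false

open NumberField Polynomial

noncomputable section

namespace Vale.Agent.P022U.H95

open Vale.Agent.P022 Vale.Agent.P022.H916 Vale.Agent.P022T Vale.Agent.P022T.H29
open Vale.Agent.P022U.H29 (up all2)

/-- the bound for the discriminant -/
def VB : Prop := ∀ (K : Type) [Field K] [NumberField K], 60 ≤ Module.finrank ℚ K →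
  80 ^ Module.finrank ℚ K < (discr K).natAbs ^ 2

/-- the theorem -/
def LVP : Prop := ∀ q : ℕ, q = 3 ∨ q = 5 → ∀ (k : Type) [Field k] [CharP k 2]
  (ρ : (AlgebraicClosure ℚ ≃ₐ[ℚ] AlgebraicClosure ℚ) →* GL (Fin 2) k),
  IsOpen {g | ρ g = 1} → (∀ p : ℕ, p.Prime → p ≠ 2 → p ≠ q → St.UnrAt ρ p) →
  (∀ P : Ideal (𝓞 (AlgebraicClosure ℚ)), P.IsPrime → (q : 𝓞 (AlgebraicClosure ℚ)) ∈ P →
    ∀ s : AlgebraicClosure ℚ ≃ₐ[ℚ] AlgebraicClosure ℚ,
      (∀ x : 𝓞 (AlgebraicClosure ℚ), s • x - x ∈ P) → ρ s * ρ s = 1) →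
  Group.IsSolvable ρ.range

/-- a tame prime -/
theorem tq (K : Type) [Field K] [NumberField K] [IsGalois ℚ K] (P : Ideal (𝓞 K)) (hP : P.IsPrime)
    (h0 : P ≠ ⊥) (q : ℕ) (hq : q ≠ 0) (h2 : (2 : 𝓞 K) ∉ P) (h3 : (q : 𝓞 K) ∈ P) (θ : 𝓞 K)
    (hA : Ap P θ) (n0 : ∀ s : Ga K, s ≠ 1 → s • θ - θ ≠ 0) (hs : ∀ s : Ga K, In P s → s * s = 1) :
    2 * ∑ s ∈ I1 P, w P (s • θ - θ) ≤ w P q := by
  obtain ⟨v1, v2, -, v4⟩ := valC K P hP h0
  have half : ∀ {n : ℕ} {y : 𝓞 K}, 2 * y ∈ P ^ n → y ∈ P ^ n := fun {n y} h => by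
    by_cases y0 : y = 0
    · rw [y0]; exact zero_mem _
    have w0 : w P 2 = 0 := by
      by_contra c1
      exact h2 (by simpa using (v2 2 1 two_ne_zero).1 (by omega))
    have := (v2 _ n (mul_ne_zero two_ne_zero y0)).2 h
    rw [v1 _ _ two_ne_zero y0, w0, zero_add] at this
    exact (v2 _ n y0).1 this
  have mem : ∀ s, s ∈ I1 P ↔ In P s ∧ s ≠ 1 := fun s => by
    classical
    simp only [I1, Finset.mem_filter, Finset.mem_univ, true_and]
  have neg : ∀ s : Ga K, In P s → s • (s • θ - θ) = -(s • θ - θ) := fun s h => by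
    rw [smul_sub, ← mul_smul, hs s h, one_smul, neg_sub]
  have B : ∀ s ∈ I1 P, s • θ - θ ∉ P ^ 2 := fun s h c => by
    obtain ⟨h1, h2⟩ := (mem s).1 h
    have y0 := n0 s h2
    have m := (v2 _ _ y0).1 (le_refl (w P (s • θ - θ)))
    have k := up h1 (all2 hA h1 c) _ _ m
    rw [neg s h1, show -(s • θ - θ) - (s • θ - θ) = -(2 * (s • θ - θ)) by ring, neg_mem_iff] at k
    have := (v2 _ _ y0).2 (half k)
    omega
  have W : ∀ s ∈ I1 P, w P (s • θ - θ) ≤ 1 := fun s h => by
    by_contra c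
    exact B s h ((v2 _ 2 (n0 s ((mem s).1 h).2)).1 (by omega))
  have C : ∀ s ∈ I1 P, ∀ b ∈ P, s • b + b ∈ P ^ 2 := fun s h b hb => by
    obtain ⟨h1, h2⟩ := (mem s).1 h
    by_cases b0 : b = 0
    · rw [b0, smul_zero, add_zero]; exact zero_mem _
    obtain ⟨c, z, hc, e⟩ := v4 b _ b0 (n0 s h2)
      ((W s h).trans ((v2 b 1 b0).2 (by rwa [pow_one])))
    have e' : s • c * s • b = -(s • θ - θ) * s • z := by
      rw [← smul_mul', e, smul_mul', neg s h1]
    have sb : s • b ∈ P := by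
      have := pow_mem h1 1 (x := b) (by rwa [pow_one])
      rwa [pow_one] at this
    have k : c * (s • b + b) ∈ P ^ 2 := by
      have : c * (s • b + b) = -((s • c - c) * s • b) - (s • θ - θ) * (s • z - z) := by
        linear_combination e + e'
      rw [this, sq]
      exact sub_mem (neg_mem (Ideal.mul_mem_mul (h1 c) sb)) (Ideal.mul_mem_mul (h1 θ) (h1 z))
    by_cases z0 : s • b + b = 0
    · rw [z0]; exact zero_mem _
    have c0 : c ≠ 0 := fun e => hc (e ▸ zero_mem _)
    have w0 : w P c = 0 := by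
      by_contra c1
      exact hc (by simpa using (v2 c 1 c0).1 (by omega))
    have := (v2 _ 2 (mul_ne_zero c0 z0)).2 k
    rw [v1 _ _ c0 z0, w0, zero_add] at this
    exact (v2 _ 2 z0).1 this
  have D : ∀ s ∈ I1 P, ∀ t ∈ I1 P, s = t := fun s h t ht => by
    by_contra c
    obtain ⟨h1, h2⟩ := (mem s).1 h
    obtain ⟨t1, t2⟩ := (mem t).1 ht
    have u : s * t ∈ I1 P := (mem _).2 ⟨fun x => by
      have := add_mem (h1 (t • x)) (t1 x)
      rwa [sub_add_sub_cancel, ← mul_smul] at this, fun e =>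
      c (mul_right_cancel (e.trans (hs t t1).symm))⟩
    have hb := h1 θ
    have k1 := C _ u _ hb
    have k2 := pow_mem h1 2 (C _ ht _ hb)
    have k3 := C _ h _ hb
    rw [smul_add, ← mul_smul] at k2
    refine B s h (half ?_)
    have := add_mem (sub_mem k1 k2) k3
    generalize s • θ - θ = y at this ⊢
    rwa [show (s * t) • y + y - ((s * t) • y + s • y) + (s • y + y) = 2 * y by ring] at this
  rcases (I1 P).eq_empty_or_nonempty with e | ⟨s, h⟩
  · rw [e, Finset.sum_empty]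
    exact Nat.zero_le _
  · rw [show I1 P = {s} from Finset.eq_singleton_iff_unique_mem.2 ⟨h, fun t ht => D t ht s h⟩,
      Finset.sum_singleton]
    have k := C s h q h3
    have e3 : s • (q : 𝓞 K) = q := map_natCast (MulSemiringAction.toRingHom (Ga K) (𝓞 K) s) q
    rw [e3, ← two_mul] at k
    have := (v2 q 2 (Nat.cast_ne_zero.2 hq)).2 (half k)
    have := W s h
    omega

/-- from the primes to the discriminant -/
theorem gq (K : Type) [Field K] [NumberField K] (q : ℕ) (hq : q ≠ 0)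
    (h : ∀ P : Ideal (𝓞 K), P.IsPrime → P ≠ ⊥ →
      2 * multiplicity P (differentIdeal ℤ (𝓞 K)) ≤ 4 * w P 2 + w P q) :
    (discr K).natAbs ^ 2 ≤ (2 ^ 4 * q) ^ Module.finrank ℚ K := by
  have hD : differentIdeal ℤ (𝓞 K) ≠ ⊥ := differentIdeal_ne_bot
  have h2 : Ideal.span {(2 : 𝓞 K)} ≠ ⊥ := by
    rw [Ne, Ideal.span_singleton_eq_bot]
    exact two_ne_zero
  have h3 : Ideal.span {(q : 𝓞 K)} ≠ ⊥ := by
    rw [Ne, Ideal.span_singleton_eq_bot]
    exact Nat.cast_ne_zero.2 hq
  have hd : differentIdeal ℤ (𝓞 K) ^ 2 ∣ Ideal.span {(2 : 𝓞 K)} ^ 4 * Ideal.span {(q : 𝓞 K)} := by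
    rw [UniqueFactorizationMonoid.dvd_iff_emultiplicity_le (pow_ne_zero 2 hD)]
    intro P hP
    have k := h P (Ideal.isPrime_of_prime hP) hP.ne_zero
    rw [emultiplicity_mul hP, emultiplicity_pow hP, emultiplicity_pow hP,
      (FiniteMultiplicity.of_prime_left hP hD).emultiplicity_eq_multiplicity,
      (FiniteMultiplicity.of_prime_left hP h2).emultiplicity_eq_multiplicity,
      (FiniteMultiplicity.of_prime_left hP h3).emultiplicity_eq_multiplicity]
    exact_mod_cast k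
  have hn := map_dvd Ideal.absNorm hd
  have e2 : Ideal.absNorm (Ideal.span {(2 : 𝓞 K)}) = 2 ^ Module.finrank ℚ K := by
    have := Ideal.absNorm_span_natCast (S := 𝓞 K) 2
    rw [RingOfIntegers.rank] at this
    exact_mod_cast this
  have e3 : Ideal.absNorm (Ideal.span {(q : 𝓞 K)}) = q ^ Module.finrank ℚ K := by
    have := Ideal.absNorm_span_natCast (S := 𝓞 K) q
    rw [RingOfIntegers.rank] at this
    exact_mod_cast this
  rw [map_mul, map_pow, map_pow, absNorm_differentIdeal K (𝓞 K), e2, e3, ← pow_mul, mul_comm _ 4,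
    pow_mul, ← mul_pow] at hn
  exact Nat.le_of_dvd (by positivity) hn

/-- the theorem for a finite extension -/
theorem uq (hVB : VB) (hTH : TH) (hDF : DF) (hWL : WL) (hTM : TM) (hCE : CE) (hP' : GP) (hFB : FB)
    (hCN : CN) (hNC : NC) (q : ℕ) (hq : q ≠ 0) (h5 : q ≤ 5) (K : Type) [Field K] [NumberField K]
    [IsGalois ℚ K] (k : Type) [Field k] [CharP k 2] (ι : Ga K →* GL (Fin 2) k)
    (hι : Function.Injective ι)
    (hu : ∀ P : Ideal (𝓞 K), P.IsPrime → P ≠ ⊥ → (2 : 𝓞 K) ∉ P → (q : 𝓞 K) ∉ P →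
      ∀ s, In P s → s = 1)
    (h3 : ∀ P : Ideal (𝓞 K), P.IsPrime → (q : 𝓞 K) ∈ P → ∀ s, In P s → s * s = 1) :
    Group.IsSolvable (Ga K) := by
  by_contra hs
  have h6 := H27.sixty (Ga K) hs
  have en : Nat.card (Ga K) = Module.finrank ℚ K := IsGalois.card_aut_eq_finrank ℚ K
  rw [en] at h6
  have a := hVB K h6
  have b : (discr K).natAbs ^ 2 ≤ (2 ^ 4 * q) ^ Module.finrank ℚ K := gq K q hq fun P hP h0 => by
    obtain ⟨θ, a1, a2⟩ := hTH K P hP h0
    obtain ⟨b1, b2⟩ := hDF K P hP h0 θ a1 a2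
    refine (Nat.mul_le_mul_left _ b2).trans ?_
    by_cases h2 : (2 : 𝓞 K) ∈ P
    · have key : ∑ s ∈ I1 P, w P (s • θ - θ) ≤ 2 * w P 2 := by
        rcases hTM K P hP h0 h2 k ι hι θ a1 b1 with h | h
        · obtain ⟨φ, hφ⟩ := hFB K P hP h0 h2
          by_cases c : ∀ s : Ga K, In P s → φ * s = s * φ → s = 1
          · exact hNC K P hP h0 h2 θ a1 b1 h φ hφ c
          · push Not at c
            obtain ⟨s, c1, c2, c3⟩ := c
            have inv : ∀ t : Ga K, In P t → t⁻¹ = t := fun t ht =>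
              inv_eq_of_mul_eq_one_right (h t ht)
            have d := hCN K P hP h0 h2 θ b1 h φ hφ fun t ht =>
              hP' (Ga K) k ι hι s φ t c3 (h s c1) c2 (by
                have := inv _ ((H57.IG P).mul_mem ht c1)
                rw [mul_inv_rev, inv s c1, inv t ht] at this
                exact this.symm)
            have e := hWL K P hP h0 h2 θ a1 b1 h
            refine Nat.le_of_mul_le_mul_left (c := 2 * ((I1 P).card + 1)) (e.trans ?_) (by omega)
            rw [← mul_assoc]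
            exact Nat.mul_le_mul_right _ (by omega)
        · have c : ∑ s ∈ I1 P, w P (s • θ - θ) ≤ (I1 P).card := by
            simpa using Finset.sum_le_card_nsmul _ _ 1 h
          have d := c.trans (hCE K P hP h0 h2)
          omega
      omega
    · by_cases h4 : (q : 𝓞 K) ∈ P
      · have := tq K P hP h0 q hq h2 h4 θ a1 b1 (h3 P hP h4)
        omega
      · have e : I1 P = ∅ := by
          refine Finset.eq_empty_of_forall_notMem fun s hs => ?_
          simp only [I1, Finset.mem_filter, Finset.mem_univ, true_and] at hs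
          exact hs.2 (hu P hP h0 h2 h4 s hs.1)
        simp [e]
  exact absurd a (not_lt.2 (b.trans (Nat.pow_le_pow_left (by omega) _)))

/-- **the theorem** -/
theorem lvp (hVB : VB) (hTH : TH) (hDF : DF) (hWL : WL) (hTM : TM) (hCE : CE) (hP' : GP) (hFB : FB)
    (hCN : CN) (hNC : NC) : LVP := by
  intro q hq k _ _ ρ hop hun h3
  let j : ℚ →+* Qb := algebraMap ℚ Qb
  have hall : ∀ g : GQ, g ∈ GK j := fun g x => g.commutes x
  obtain ⟨L, _, _, inst, hG, jL, σ, D, -, hker⟩ :=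
    exists_fld j ρ.ker hop (fun g _ => hall g)
      (fun g _ u hu => (MonoidHom.normal_ker ρ).conj_mem u hu g)
  obtain rfl : inst = DivisionRing.toRatAlgebra := Subsingleton.elim _ _
  let τ : GK j →* GL (Fin 2) k := ρ.comp (GK j).subtype
  have hle : σ.ker ≤ τ.ker := fun g hg => (hker g).1 hg
  let ι : Ga L →* GL (Fin 2) k := σ.liftOfSurjective D.surj ⟨τ, hle⟩
  have hι : ∀ g : GK j, ι (σ g) = ρ g := fun g =>
    MonoidHom.liftOfRightInverse_comp_apply σ _ _ ⟨τ, hle⟩ g
  have hinj : Function.Injective ι := by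
    rw [injective_iff_map_eq_one]
    intro s hs
    obtain ⟨g, rfl⟩ := D.surj s
    rw [hι] at hs
    exact (hker g).2 hs
  have hs : Group.IsSolvable (Ga L) := by
    refine uq hVB hTH hDF hWL hTM hCE hP' hFB hCN hNC q (by omega) (by omega) L k ι hinj ?_ ?_
    · intro P hP h0 h2 k3 s hs
      obtain ⟨p, hp, hpP⟩ := inf_ex_prime P hP h0
      have hp2 : p ≠ 2 := by
        rintro rfl
        exact h2 (by simpa using hpP)
      have hp3 : p ≠ q := by
        rintro rfl
        exact k3 hpP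
      obtain ⟨Q, hQ, rfl⟩ := exists_above jL P hP
      have hpQ : (p : 𝓞 Qb) ∈ Q := by
        have h1 : RingOfIntegers.mapRingHom jL (p : 𝓞 L) ∈ Q := hpP
        rwa [map_natCast] at h1
      refine D.inertia_eq_bot hQ (fun g hg => (hker g).2 ?_) hs
      exact hun p hp hp2 hp3 Q hQ hpQ g hg
    · intro P hP k3 s hs
      obtain ⟨Q, hQ, rfl⟩ := exists_above jL P hP
      have hpQ : (q : 𝓞 Qb) ∈ Q := by
        have h1 : RingOfIntegers.mapRingHom jL (q : 𝓞 L) ∈ Q := k3
        rwa [map_natCast] at h1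
      obtain ⟨g, rfl, hg⟩ := D.inertia_lift hQ hs
      refine hinj ?_
      rw [map_mul, map_one, hι]
      exact h3 Q hQ hpQ g hg
  have hr : ρ.range = ι.range := by
    ext x
    constructor
    · rintro ⟨g, rfl⟩
      exact ⟨σ ⟨g, hall g⟩, hι _⟩
    · rintro ⟨s, rfl⟩
      obtain ⟨g, rfl⟩ := D.surj s
      exact ⟨g, (hι g).symm⟩
  rw [hr]
  exact solvable_of_surjective ι.rangeRestrict_surjective

end Vale.Agent.P022U.H95
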