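import Vale.Agent.P022U.Defs
import Vale.Agent.P022T.Proj

/-!
# P022U: the twisted form
-/

set_option linter.all false

open NumberField

noncomputable section

namespace Vale.Agent.P022U.H54

open Vale.Agent.P022 Vale.Agent.P022T

theorem twist (k : Type) [Field k] [CharP k 2]
    (ρ : (AlgebraicClosure ℚ ≃ₐ[ℚ] AlgebraicClosure ℚ) →* GL (Fin 2) k)
    (ho : IsOpen {g | ρ g = 1}) :
    ∃ ρ₁ : (AlgebraicClosure ℚ ≃ₐ[ℚ] AlgebraicClosure ℚ) →* GL (Fin 2) k,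
      IsOpen {g | ρ₁ g = 1} ∧
      (∀ g, (∃ c : k, (ρ g : Matrix (Fin 2) (Fin 2) k) = c • (1 : Matrix (Fin 2) (Fin 2) k)) →
        ρ₁ g = 1) ∧ (Group.IsSolvable ρ₁.range → Group.IsSolvable ρ.range) := by
  have hG : CompactSpace (AlgebraicClosure ℚ ≃ₐ[ℚ] AlgebraicClosure ℚ) := by
    have h1 : Algebra.IsAlgebraic ℚ (AlgebraicClosure ℚ) := AlgebraicClosure.isAlgebraic ℚ
    have h2 : IsAlgClosure ℚ (AlgebraicClosure ℚ) := ⟨inferInstance, inferInstance⟩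
    have h3 : IsGalois ℚ (AlgebraicClosure ℚ) := IsAlgClosure.isGalois ℚ _
    infer_instance
  let d := Matrix.GeneralLinearGroup.det.comp ρ
  have hk : ρ.ker ≤ d.ker := fun g hg => by
    rw [MonoidHom.mem_ker] at hg ⊢
    rw [MonoidHom.comp_apply, hg, map_one]
  haveI : Finite (_ ⧸ d.ker) :=
    Subgroup.quotient_finite_of_isOpen _ (Subgroup.isOpen_mono hk ho)
  haveI : Finite d.range := Finite.of_equiv _ (QuotientGroup.quotientKerEquivRange d).toEquiv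
  obtain ⟨n, hn⟩ := ex_sqrt d
  let χ := (powMonoidHom n).comp d
  have hχ : ∀ g, χ g ^ 2 = d g := hn
  let ρ₁ : (AlgebraicClosure ℚ ≃ₐ[ℚ] AlgebraicClosure ℚ) →* GL (Fin 2) k :=
    MonoidHom.mk' (fun g => sc k (χ g)⁻¹ * ρ g) fun a b => by
      rw [map_mul, map_mul, mul_inv, map_mul]
      exact ((sc_comm (χ b)⁻¹ (ρ a)).symm.mul_mul_mul_comm _ _).symm
  have e1 : ∀ g, ρ₁ g = sc k (χ g)⁻¹ * ρ g := fun _ => rfl
  have hk1 : ρ.ker ≤ ρ₁.ker := fun g hg => by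
    have h1 : χ g = 1 := by
      change d g ^ n = 1
      rw [MonoidHom.mem_ker.1 (hk hg), one_pow]
    rw [MonoidHom.mem_ker, e1, h1, MonoidHom.mem_ker.1 hg, inv_one, map_one, one_mul]
  refine ⟨ρ₁, Subgroup.isOpen_mono hk1 ho, fun g ⟨c, hc⟩ => ?_, fun _ => ?_⟩
  · have h1 : ((χ g : kˣ) : k) ^ 2 = c ^ 2 := by
      rw [← Units.val_pow_eq_pow_val, hχ]
      change (ρ g : Matrix (Fin 2) (Fin 2) k).det = _
      rw [hc, Matrix.det_smul, Matrix.det_one, mul_one, Fintype.card_fin]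
    have h3 : (((χ g : kˣ) : k) - c) ^ 2 = 0 := by rw [sub_pow_char, h1, sub_self]
    have h4 : ((χ g : kˣ) : k) = c := sub_eq_zero.1 (pow_eq_zero_iff two_ne_zero |>.1 h3)
    have h5 : ρ g = sc k (χ g) := Units.ext (by rw [sc_val, hc, h4])
    rw [e1, h5, ← map_mul, inv_mul_cancel, map_one]
  let Φ : kˣ × ρ₁.range →* GL (Fin 2) k :=
    (sc k).noncommCoprod ρ₁.range.subtype fun c g => sc_comm c g
  haveI : Group.IsSolvable Φ.range := Group.isSolvable_of_surjective Φ.rangeRestrict_surjective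
  have hle : ρ.range ≤ Φ.range := by
    rintro _ ⟨g, rfl⟩
    refine ⟨(χ g, ⟨ρ₁ g, g, rfl⟩), ?_⟩
    change sc k (χ g) * ρ₁ g = ρ g
    rw [e1, ← mul_assoc, ← map_mul, mul_inv_cancel, map_one, one_mul]
  exact Group.isSolvable_of_isSolvable_injective (Subgroup.inclusion_injective hle)

/-- inertia acts by scalars at the primes above three, and its squares do at three -/
theorem proj3 (hT : LV3) (k : Type) [Field k] [CharP k 2]
    (ρ : (AlgebraicClosure ℚ ≃ₐ[ℚ] AlgebraicClosure ℚ) →* GL (Fin 2) k)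
    (ho : IsOpen {g | ρ g = 1})
    (hs : ∀ p : ℕ, p.Prime → p ≠ 2 → ∀ P : Ideal (𝓞 (AlgebraicClosure ℚ)), P.IsPrime →
      (p : 𝓞 (AlgebraicClosure ℚ)) ∈ P → ∀ g : AlgebraicClosure ℚ ≃ₐ[ℚ] AlgebraicClosure ℚ,
      (∀ x : 𝓞 (AlgebraicClosure ℚ), g • x - x ∈ P) →
      ∃ c : k, (ρ (if p = 3 then g * g else g) : Matrix (Fin 2) (Fin 2) k) =
        c • (1 : Matrix (Fin 2) (Fin 2) k)) :
    Group.IsSolvable ρ.range := by
  obtain ⟨ρ₁, a1, a2, a3⟩ := twist k ρ ho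
  refine a3 (hT k ρ₁ a1 (fun p hp h3 P hP hpP g hg => a2 g ?_) fun P hP h3 s hg => ?_)
  · have := hs p hp (by omega) P hP hpP g hg
    rwa [if_neg (by omega)] at this
  · have := hs 3 Nat.prime_three (by norm_num) P hP (by exact_mod_cast h3) s hg
    rw [if_pos rfl] at this
    rw [← map_mul]
    exact a2 _ this

end Vale.Agent.P022U.H54
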