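import Vale.Agent.P022T.TateH92
import Vale.Agent.P022U.DbH74
import Vale.Agent.P022U.Nu
import Vale.Agent.P022U.GpH8
import Vale.Agent.P022U.Fb
import Vale.Agent.P022U.NcH72
import Vale.Agent.P022U.T3H56
import Vale.Agent.P022U.Gc
import Vale.Agent.P022U.U0H33
import Vale.Agent.P022U.Lv3H87
import Vale.Agent.P022U.ExThreeH92
import Vale.Agent.P022U.ProjH54

/-!
P022U: wiring of all rows except the order of the group and the abelian case.
-/

set_option linter.all false

noncomputable section

namespace Vale.Agent.P022U.H92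

open Vale.Agent.P022T

theorem lv3Of (hG : G60) (hC : VAL → CN) : LV3 :=
  H87.lv3C (H33.u0C H57.thC (dfC valC) (H83.wlC valC (H88.co valC)) H65.tmC ce H74.dbC nuC hG
    H8.gpC fbC (hC valC) (H72.ncC valC (H88.co valC)) H56T.t3C gcC)

end Vale.Agent.P022U.H92
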