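import Vale.Agent.P022U.GenH17
import Vale.Agent.P022U.MhH83
import Vale.Agent.P022U.Cn
import Vale.Agent.P022U.NcH72

/-!
# P022U: residual representations of level at most seven
-/

set_option linter.all false

open NumberField

noncomputable section

namespace Vale.Agent.P022U.H17

open Vale.Agent.P022 Vale.Agent.P022T

theorem bd7 : Bd 7 := fun K _ _ k a b => by
  have := H83.mh K (by omega)
  rwa [b] at this

theorem lvm7 {M : ℕ} (h0 : M ≠ 0) (h7 : M ≤ 7) : LVM M :=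
  lvm (Cn.cnC valC) (H72.ncC valC (H88.co valC)) h0 (bd7.mono h7)

/-- levels three, five and seven -/
theorem u7 (k : Type) [Field k] [CharP k 2]
    (ρ : (AlgebraicClosure ℚ ≃ₐ[ℚ] AlgebraicClosure ℚ) →* GL (Fin 2) k) (q : ℕ)
    (hq : q = 3 ∨ q = 5 ∨ q = 7) (ho : IsOpen {g | ρ g = 1})
    (hu : ∀ p : ℕ, p.Prime → p ≠ 2 → p ≠ q → St.UnrAt ρ p)
    (hs : ∀ P : Ideal (𝓞 (AlgebraicClosure ℚ)), P.IsPrime → (q : 𝓞 (AlgebraicClosure ℚ)) ∈ P →
      ∀ s : AlgebraicClosure ℚ ≃ₐ[ℚ] AlgebraicClosure ℚ,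
        (∀ x : 𝓞 (AlgebraicClosure ℚ), s • x - x ∈ P) → ρ s * ρ s = 1) :
    Group.IsSolvable ρ.range := by
  have hp : q.Prime := by
    rcases hq with rfl | rfl | rfl
    · exact Nat.prime_three
    · exact Nat.prime_five
    · exact Nat.prime_seven
  exact lvm7 (M := q) hp.ne_zero (by omega) k ρ ho (fun p a b c => hu p a b fun e => c (e ▸ dvd_rfl))
    hs

end Vale.Agent.P022U.H17
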