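import Vale.Agent.P022U.Defs
import Vale.Agent.P022T.Val
import Vale.Agent.P022T.ThH10

/-!
# P022U: the tame prime
-/

set_option linter.all false

open NumberField Polynomial

noncomputable section

namespace Vale.Agent.P022U.H6

open Vale.Agent.P022T

variable {K : Type} [Field K] [NumberField K] {P : Ideal (𝓞 K)}

theorem up {s : Ga K} (hi : In P s) (h : ∀ x : 𝓞 K, s • x - x ∈ P ^ 2) (n : ℕ) :
    ∀ y ∈ P ^ n, s • y - y ∈ P ^ (n + 1) := by
  induction n with
  | zero => exact fun y _ => by simpa using hi y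
  | succ n ih =>
    intro y hy
    rw [pow_succ] at hy
    refine Submodule.mul_induction_on hy (fun a ha b hb => ?_) fun a b ha hb => ?_
    · have e : s • (a * b) - a * b = (s • a - a) * s • b + a * (s • b - b) := by
        rw [smul_mul']
        ring
      rw [e]
      refine add_mem ?_ ?_
      · rw [pow_succ]
        exact Ideal.mul_mem_mul (ih a ha) (by simpa using hi.pow_mem 1 (by simpa using hb))
      · rw [add_assoc, pow_add]
        exact Ideal.mul_mem_mul ha (h b)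
    · rw [smul_add, add_sub_add_comm]
      exact add_mem ha hb

theorem all {s : Ga K} (hi : In P s) {θ : 𝓞 K} (hA : Ap P θ) (h : s • θ - θ ∈ P ^ 2) (x : 𝓞 K) :
    s • x - x ∈ P ^ 2 := by
  obtain ⟨g, hg⟩ := hA 2 x
  have e1 : s • aeval θ g = aeval (s • θ) g :=
    (aeval_algHom_apply (MulSemiringAction.toRingHom (Ga K) (𝓞 K) s).toIntAlgHom θ g).symm
  have e2 : s • aeval θ g - aeval θ g ∈ P ^ 2 := by
    rw [e1, aeval_def, aeval_def, eval₂_eq_eval_map, eval₂_eq_eval_map]
    obtain ⟨c, hc⟩ := sub_dvd_eval_sub (s • θ) θ (g.map (algebraMap ℤ (𝓞 K)))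
    rw [hc]
    exact Ideal.mul_mem_right _ _ h
  have e3 := add_mem (sub_mem (hi.pow_mem 2 hg) hg) e2
  rwa [smul_sub, show ∀ a b c d : 𝓞 K, a - b - (c - d) + (b - d) = a - c from
    fun _ _ _ _ => by ring] at e3

theorem half (h3 : (3 : 𝓞 K) ∈ P) (n : ℕ) {y : 𝓞 K} (hy : y ∈ P ^ n) (h : 2 * y ∈ P ^ (n + 1)) :
    y ∈ P ^ (n + 1) := by
  have a : y * 3 ∈ P ^ (n + 1) := by
    rw [pow_succ]
    exact Ideal.mul_mem_mul hy h3
  have := sub_mem a h
  rwa [show y * 3 - 2 * y = y by ring] at this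

/-- **row T3** -/
theorem t3C : T3 := by
  classical
  intro K _ _ _ P hP h0 h3 θ hA hθ h2
  have mem : ∀ {s}, s ∈ I1 P ↔ In P s ∧ s ≠ 1 := by
    intro s
    simp only [I1, Finset.mem_filter, Finset.mem_univ, true_and]
  have ng : ∀ s, In P s → s • (s • θ - θ) = -(s • θ - θ) := fun s hs => by
    rw [smul_sub, ← mul_smul, h2 s hs, one_smul, neg_sub]
  have n2 : ∀ s, In P s → s ≠ 1 → s • θ - θ ∉ P ^ 2 := fun s hs s1 h => by
    have y0 := hθ s s1
    have m := (Val.le_iff hP h0 y0 _).1 le_rfl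
    have k := neg_mem (up hs (all hs hA h) _ _ m)
    rw [ng s hs, show ∀ a : 𝓞 K, -(-a - a) = 2 * a from fun _ => by ring] at k
    have := (Val.le_iff hP h0 y0 _).2 (half h3 _ m k)
    omega
  have sg : ∀ s, In P s → s ≠ 1 → ∀ y ∈ P, s • y + y ∈ P ^ 2 := fun s hs s1 y hy => by
    obtain ⟨c, hc⟩ := H10.step h0 (hs θ) (n2 s hs s1) 1 y (by rwa [pow_one])
    rw [pow_one] at hc
    have a : (s • θ - θ) * (c - s • c) ∈ P ^ 2 := by
      rw [sq]
      exact Ideal.mul_mem_mul (hs θ) (by simpa using neg_mem (hs c))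
    have := add_mem (add_mem (hs.pow_mem 2 hc) hc) a
    rwa [smul_sub, smul_mul', ng s hs, show ∀ a b c d e : 𝓞 K,
      a - -b * c + (d - b * e) + b * (e - c) = a + d from fun _ _ _ _ _ => by ring] at this
  have one : ∀ s ∈ I1 P, ∀ t ∈ I1 P, s = t := fun s hs t ht => by
    obtain ⟨s0, s1⟩ := mem.1 hs
    obtain ⟨t0, t1⟩ := mem.1 ht
    by_contra e
    have i : In P (s * t) := fun x => by
      have := add_mem (s0 (t • x)) (t0 x)
      rwa [sub_add_sub_cancel, ← mul_smul] at this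
    have j : s * t ≠ 1 := fun k => e (mul_right_cancel (k.trans (h2 t t0).symm))
    have a := sg _ i j _ (s0 θ)
    have b := s0.pow_mem 2 (sg t t0 t1 _ (s0 θ))
    have c := sub_mem a b
    rw [smul_add, ← mul_smul, ng s s0, show ∀ a b : 𝓞 K, a + b - (a + -b) = 2 * b from
      fun _ _ => by ring] at c
    exact n2 s s0 s1 (half h3 1 (by simpa using s0 θ) c)
  rcases (I1 P).eq_empty_or_nonempty with e | ⟨s, hs⟩
  · rw [e, Finset.sum_empty]
    exact Nat.zero_le _
  · obtain ⟨s0, s1⟩ := mem.1 hs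
    rw [Finset.eq_singleton_iff_unique_mem.2 ⟨hs, fun t ht => one t ht s hs⟩, Finset.sum_singleton]
    have a : w P (s • θ - θ) < 2 :=
      not_le.1 fun h => n2 s s0 s1 ((Val.le_iff hP h0 (hθ s s1) 2).1 h)
    have b : 2 ≤ w P 3 := by
      refine (Val.le_iff hP h0 (by norm_num) 2).2 (half h3 1 (by simpa using h3) ?_)
      have := sg s s0 s1 3 h3
      rwa [show s • (3 : 𝓞 K) = 3 from map_ofNat (MulSemiringAction.toRingHom (Ga K) (𝓞 K) s) 3,
        ← two_mul] at this
    omega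

end Vale.Agent.P022U.H6
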