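import Vale.Agent.P022U.Defs
import Vale.Agent.P022T.T0H20

/-!
# P022U: the theorem for a finite extension from the rows
-/

set_option linter.all false

open NumberField

noncomputable section

namespace Vale.Agent.P022U.H20

open Vale.Agent.P022T Vale.Agent.P022U

theorem num (c S v : ℕ) (hc : c ≤ 3) (h : 2 * (c + 1) * S ≤ (5 * c + 1) * v) : S ≤ 2 * v := by
  interval_cases c <;> omega

theorem u0C (hTH : TH) (hDF : DF) (hWL : WL) (hTM : TM) (hCE : CE) (hDB : DB) (hNU : NU)
    (hG : G60) (hGP : GP) (hFB : FB) (hCN : CN) (hNC : NC) (hT3 : T3) (hGC : GC) : U0 := by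
  intro K _ _ _ k _ _ ι hι hu h3
  by_contra hs
  obtain ⟨h6, m, hm⟩ := hG (Ga K) k ι hι hs
  have hn : Nat.card (Ga K) = Module.finrank ℚ K := IsGalois.card_aut_eq_finrank ℚ K
  rw [hn] at h6 hm
  have hm' : Module.finrank ℚ K = 2 * m := by omega
  have a1 := (hNU m (by omega)).trans_le (hDB K m (by omega) hm')
  have a2 : 48 ^ m < (discr K).natAbs := by exact_mod_cast a1
  have a3 : 48 ^ Module.finrank ℚ K < (discr K).natAbs ^ 2 := by
    rw [hm', mul_comm, pow_mul]
    exact Nat.pow_lt_pow_left a2 two_ne_zero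
  refine absurd (hGC K fun P hP h0 => ?_) (not_le.2 a3)
  obtain ⟨θ, hA, hθ⟩ := hTH K P hP h0
  obtain ⟨hne, hd⟩ := hDF K P hP h0 θ hA hθ
  by_cases h2 : (2 : 𝓞 K) ∈ P
  · suffices ∑ s ∈ I1 P, w P (s • θ - θ) ≤ 2 * w P 2 by omega
    rcases hTM K P hP h0 h2 k ι hι θ hA hne with hw | hw
    · obtain ⟨φ, hφ⟩ := hFB K P hP h0 h2
      by_cases hc : ∀ s : Ga K, In P s → φ * s = s * φ → s = 1
      · exact hNC K P hP h0 h2 θ hA hne hw φ hφ hc
      · push Not at hc
        obtain ⟨s, s1, s2, s3⟩ := hc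
        have iv : ∀ a : Ga K, In P a → a⁻¹ = a := fun a ha => inv_eq_of_mul_eq_one_right (hw a ha)
        refine num _ _ _ (hCN K P hP h0 h2 θ hne hw φ hφ fun a ha => ?_)
          (hWL K P hP h0 h2 θ hA hne hw)
        refine hGP (Ga K) k ι hι s φ a s3 (hw s s1) s2 ?_
        have := iv (a * s) ((H20.Sg P).mul_mem ha s1)
        rw [mul_inv_rev, iv a ha, iv s s1] at this
        exact this.symm
    · have h1 := Finset.sum_le_card_nsmul _ _ _ hw
      rw [smul_eq_mul, mul_one] at h1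
      have := hCE K P hP h0 h2
      omega
  · by_cases h3' : (3 : 𝓞 K) ∈ P
    · have := hT3 K P hP h0 h3' θ hA hne (h3 P hP h3')
      omega
    · have : I1 P = ∅ := by
        rw [Finset.eq_empty_iff_forall_notMem]
        intro s hs
        simp only [I1, Finset.mem_filter] at hs
        exact hs.2.2 (hu P hP h0 h2 h3' s hs.2.1)
      rw [this, Finset.sum_empty] at hd
      omega

end Vale.Agent.P022U.H20
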