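import Mathlib

/-!
# P022U: a bound for the discriminant from many lattice points in a ball
-/

set_option linter.all false

open MeasureTheory Module Set NumberField Matrix

noncomputable section

namespace Vale.Agent.P022U.H65

open scoped ComplexOrder in
theorem hd {m : ℕ} (B : Matrix (Fin m) (Fin m) ℂ) (h : ∑ i, ∑ k, ‖B i k‖ ^ 2 ≤ m) :
    ‖B.det‖ ^ 2 ≤ 1 := by
  have P := Matrix.posSemidef_self_mul_conjTranspose B
  have d := P.1.det_eq_prod_eigenvalues
  have t := P.1.trace_eq_sum_eigenvalues
  have d1 : ‖B.det‖ ^ 2 = ∏ i, P.1.eigenvalues i := by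
    rw [det_mul, det_conjTranspose] at d
    apply Complex.ofReal_injective
    push_cast
    rw [← Complex.mul_conj']
    exact d
  have t1 : ∑ i, ∑ k, ‖B i k‖ ^ 2 = ∑ i, P.1.eigenvalues i := by
    apply Complex.ofReal_injective
    push_cast
    refine Eq.trans ?_ t
    simp only [Matrix.trace, diag_apply, mul_apply, conjTranspose_apply, ← Complex.mul_conj']
    rfl
  rw [d1]
  calc ∏ i, P.1.eigenvalues i ≤ ∏ i, Real.exp (P.1.eigenvalues i - 1) :=
        Finset.prod_le_prod (fun i _ => P.eigenvalues_nonneg i) fun i _ => by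
          have := Real.add_one_le_exp (P.1.eigenvalues i - 1)
          linarith
    _ = Real.exp (∑ i, (P.1.eigenvalues i - 1)) := (Real.exp_sum _ _).symm
    _ ≤ 1 := by
        rw [Real.exp_le_one_iff, Finset.sum_sub_distrib, ← t1]
        simpa using h

theorem vd {m : ℕ} (z : Fin m → ℂ) {μ : ℝ} (h0 : 0 ≤ μ) :
    ‖(vandermonde z).det‖ ^ 2 * ∏ k : Fin m, (μ ^ (k : ℕ) / (k : ℕ).factorial) ≤
      Real.exp (μ * ∑ i, ‖z i‖ ^ 2) := by
  let e : Fin m → ℝ := fun i => √(Real.exp (-(μ * ‖z i‖ ^ 2)))
  let d : Fin m → ℝ := fun k => √(μ ^ (k : ℕ) / (k : ℕ).factorial)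
  have e2 : ∀ i, e i ^ 2 = Real.exp (-(μ * ‖z i‖ ^ 2)) := fun i => Real.sq_sqrt (by positivity)
  have d2 : ∀ k, d k ^ 2 = μ ^ (k : ℕ) / (k : ℕ).factorial := fun i => Real.sq_sqrt (by positivity)
  have H := hd (diagonal (fun i => (e i : ℂ)) * vandermonde z * diagonal fun i => (d i : ℂ)) (by
    refine le_trans (Finset.sum_le_sum (g := fun _ => (1 : ℝ)) fun i _ => ?_) (by simp)
    simp only [mul_diagonal, diagonal_mul, vandermonde_apply, norm_mul, mul_pow, Complex.norm_real,
      Real.norm_eq_abs, sq_abs, e2, d2, norm_pow]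
    have s := Real.sum_le_exp_of_nonneg (x := μ * ‖z i‖ ^ 2) (by positivity) m
    rw [Finset.sum_range] at s
    calc _ = Real.exp (-(μ * ‖z i‖ ^ 2)) *
          ∑ k : Fin m, (μ * ‖z i‖ ^ 2) ^ (k : ℕ) / (k : ℕ).factorial := by
          rw [Finset.mul_sum]
          refine Finset.sum_congr rfl fun k _ => ?_
          rw [mul_pow, ← pow_mul, ← pow_mul, mul_comm (k : ℕ) 2]
          ring
      _ ≤ Real.exp (-(μ * ‖z i‖ ^ 2)) * Real.exp (μ * ‖z i‖ ^ 2) := by gcongr
      _ = 1 := by rw [← Real.exp_add, neg_add_cancel, Real.exp_zero])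
  rw [det_mul, det_mul, det_diagonal, det_diagonal, norm_mul, norm_mul, norm_prod, norm_prod,
    mul_pow, mul_pow, ← Finset.prod_pow, ← Finset.prod_pow] at H
  simp only [Complex.norm_real, Real.norm_eq_abs, sq_abs, e2, d2] at H
  rw [← Real.exp_sum, Finset.sum_neg_distrib, ← Finset.mul_sum, Real.exp_neg, mul_assoc,
    inv_mul_le_iff₀ (Real.exp_pos _), mul_one] at H
  exact H

theorem vl {m : ℕ} (z : Fin m → ℂ) {μ : ℝ} (h0 : 0 < μ) (hz : (vandermonde z).det ≠ 0) :
    2 * Real.log ‖(vandermonde z).det‖ + (∑ k : Fin m, (k : ℕ) : ℕ) * Real.log μ -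
      Real.log (∏ k : Fin m, (k : ℕ).factorial : ℕ) ≤ μ * ∑ i, ‖z i‖ ^ 2 := by
  have H := vd z h0.le
  have p : 0 < ‖(vandermonde z).det‖ := norm_pos_iff.2 hz
  have q : (0 : ℝ) < (∏ k : Fin m, (k : ℕ).factorial : ℕ) :=
    Nat.cast_pos.2 (Finset.prod_pos fun k _ => Nat.factorial_pos _)
  rw [Finset.prod_div_distrib, Finset.prod_pow_eq_pow_sum, ← Nat.cast_prod] at H
  have := Real.log_le_log (by positivity) H
  rw [Real.log_exp, Real.log_mul (by positivity) (by positivity),
    Real.log_div (by positivity) q.ne', Real.log_pow, Real.log_pow] at this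
  push_cast at this ⊢
  linarith

/-- counting -/
theorem cnt {E : Type} [NormedAddCommGroup E] [InnerProductSpace ℝ E] [FiniteDimensional ℝ E]
    [MeasurableSpace E] [BorelSpace E] (L : Submodule ℤ E) [DiscreteTopology L] [IsZLattice ℝ L]
    {k : ℕ} (k0 : 0 < k) (hk : finrank ℝ E = 2 * k) {R : ℝ} (hR : 0 < R) (M : ℕ)
    (h : ∀ (x : E) (a : Fin (M + 1) → L), Function.Injective a → ∃ i, R ≤ ‖(a i : E) + x‖) :
    Real.pi ^ k * (R ^ 2) ^ k / k.factorial ≤ M * ZLattice.covolume L := by
  classical
  haveI : Nontrivial E := Module.nontrivial_of_finrank_pos (R := ℝ) (by omega)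
  have F := ZLattice.isAddFundamentalDomain (Free.chooseBasis ℤ L) (volume : Measure E)
  haveI : MeasurableVAdd L E := (inferInstance : MeasurableVAdd L.toAddSubgroup E)
  haveI : VAddInvariantMeasure L E volume :=
    (inferInstance : VAddInvariantMeasure L.toAddSubgroup E volume)
  haveI : Countable L := (Free.chooseBasis ℤ L).repr.toEquiv.countable_iff.2 inferInstance
  have ms : MeasurableSet (Metric.ball (0 : E) R) := Metric.isOpen_ball.measurableSet
  have mi : Measurable ((Metric.ball (0 : E) R).indicator (1 : E → ENNReal)) :=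
    measurable_one.indicator ms
  have A : volume (Metric.ball (0 : E) R) ≤ M * volume (ZSpan.fundamentalDomain
      ((Free.chooseBasis ℤ L).ofZLatticeBasis ℝ L)) := by
    rw [← lintegral_indicator_one ms, F.lintegral_eq_tsum'', ← lintegral_tsum, ← setLIntegral_const]
    · refine lintegral_mono fun x => ?_
      refine ENNReal.summable.tsum_le_of_sum_le fun s => ?_
      simp only [indicator_apply, Pi.one_apply, Finset.sum_boole]
      rw [Nat.cast_le]
      by_contra c
      obtain ⟨t, ht, hc⟩ := Finset.exists_subset_card_eq (Nat.succ_le_of_lt (not_le.1 c))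
      let q := (t.equivFinOfCardEq hc).symm
      obtain ⟨i, hi⟩ := h x (fun i => (q i : L)) (Subtype.val_injective.comp q.injective)
      have := (Finset.mem_filter.1 (ht (q i).2)).2
      rw [mem_ball_zero_iff] at this
      exact absurd this (not_lt.2 hi)
    · intro g
      exact (mi.comp (continuous_const_add g.1).measurable).aemeasurable
  rw [InnerProductSpace.volume_ball_of_dim_even hk, hk, ← ENNReal.ofReal_pow hR.le,
    ← ENNReal.ofReal_mul (by positivity), ENNReal.ofReal_le_iff_le_toReal (ENNReal.mul_ne_top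
      (ENNReal.natCast_ne_top M) (Bornology.IsBounded.measure_lt_top
      (ZSpan.fundamentalDomain_isBounded _)).ne), ENNReal.toReal_mul, ENNReal.toReal_natCast] at A
  rw [ZLattice.covolume_eq_measure_fundamentalDomain L volume F, measureReal_def]
  refine le_trans (le_of_eq ?_) A
  rw [pow_mul]
  ring

open NumberField.InfinitePlace NumberField.mixedEmbedding in
/-- **the discriminant** -/
theorem disc (K : Type) [Field K] [NumberField K] {k : ℕ} (k0 : 0 < k)
    (hk : finrank ℚ K = 2 * k) (M : ℕ) {ν t : ℝ} (n0 : 0 < ν) (t0 : 0 < t)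
    (H : ν * ((M + 1) * t) < (∑ j : Fin (M + 1), (j : ℕ) : ℕ) * Real.log ν -
      Real.log (∏ j : Fin (M + 1), (j : ℕ).factorial : ℕ)) :
    (Real.pi * (2 * k * t)) ^ k / k.factorial ≤ M * √|(discr K : ℝ)| := by
  classical
  have kp : (0 : ℝ) < k := Nat.cast_pos.2 k0
  set c : ℝ := Real.exp (-(nrComplexPlaces K * Real.log 2) / k) with hc
  have c0 : 0 < c := Real.exp_pos _
  have ck : c ^ k = 2⁻¹ ^ nrComplexPlaces K := by
    rw [hc, ← Real.exp_nat_mul, mul_div_cancel₀ _ kp.ne', Real.exp_neg, Real.exp_nat_mul,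
      Real.exp_log two_pos, inv_pow]
  have r0 : 0 < 2 * k * t * c := by positivity
  have B := cnt (euclidean.integerLattice K) k0 ((euclidean.finrank K).trans hk)
    (Real.sqrt_pos.2 r0) M fun x a ha => by
      by_contra hh
      simp only [not_exists, not_le] at hh
      have ex : ∀ i, ∃ y : 𝓞 K, mixedEmbedding K y = euclidean.toMixed K (a i) := fun i => (a i).2
      choose y hy using ex
      have yi : Function.Injective y := fun i j e => ha (Subtype.ext
        ((euclidean.toMixed K).injective (by rw [← hy, ← hy, e])))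
      have D0 : (vandermonde y).det ≠ 0 := det_vandermonde_ne_zero_iff.2 yi
      set D : 𝓞 K := (vandermonde y).det with hD
      have y0 : (D : K) ≠ 0 := fun e => D0 (RingOfIntegers.ext e)
      let cw : InfinitePlace K → ℂ := fun w =>
        if h : w.IsReal then (x.fst ⟨w, h⟩ : ℂ) else x.snd ⟨w, not_isReal_iff_isComplex.1 h⟩
      let z : InfinitePlace K → Fin (M + 1) → ℂ := fun w i => w.embedding (y i) + cw w
      have n1 : ∀ i, ‖(a i : euclidean.mixedSpace K) + x‖ ^ 2 =
          ∑ w : InfinitePlace K, ‖z w i‖ ^ 2 := fun i => by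
        rw [WithLp.prod_norm_sq_eq_of_L2, EuclideanSpace.norm_sq_eq, EuclideanSpace.norm_sq_eq,
          sum_eq_sum_add_sum]
        refine congrArg₂ _ (Finset.sum_congr rfl fun w _ => ?_) (Finset.sum_congr rfl fun w _ => ?_)
        · have : ((a i : euclidean.mixedSpace K) + x).fst w =
              (mixedEmbedding K (y i)).1 w + x.fst w := by
            rw [hy]
            rfl
          rw [this, mixedEmbedding_apply_isReal]
          simp only [z, cw, dif_pos w.2]
          rw [← embedding_of_isReal_apply w.2, ← Complex.ofReal_add, Complex.norm_real]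
        · have : ((a i : euclidean.mixedSpace K) + x).snd w =
              (mixedEmbedding K (y i)).2 w + x.snd w := by
            rw [hy]
            rfl
          rw [this, mixedEmbedding_apply_isComplex]
          simp only [z, cw, dif_neg (not_isReal_iff_isComplex.2 w.2)]
      have dz : ∀ w : InfinitePlace K, (vandermonde (z w)).det = w.embedding (D : K) := fun w => by
        simp only [z]
        rw [det_vandermonde_add, hD, det_vandermonde, det_vandermonde]
        simp
      have p : ∀ w : InfinitePlace K, 0 < w D := fun w => pos_iff.2 y0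
      have m : ∀ w : InfinitePlace K, (0 : ℝ) < mult w := fun w => Nat.cast_pos.2 mult_pos
      have n2 : 0 ≤ ∑ w : InfinitePlace K, mult w * Real.log (w D) := by
        simp only [← Real.log_pow]
        rw [← Real.log_prod fun w _ => (pow_pos (p w) _).ne', prod_eq_abs_norm]
        refine Real.log_nonneg ?_
        rw [← Algebra.coe_norm_int, ← Int.cast_abs, Rat.cast_intCast]
        exact_mod_cast Int.one_le_abs (Algebra.norm_ne_zero_iff.2 D0)
      have n3 : ∑ w : InfinitePlace K, mult w * Real.log (mult w) =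
          2 * (nrComplexPlaces K * Real.log 2) := by
        rw [sum_eq_sum_add_sum]
        simp [mult_isReal, mult_isComplex, nrComplexPlaces]
        ring
      have n4 : ∑ w : InfinitePlace K, (mult w : ℝ) = 2 * k := by
        rw [← Nat.cast_sum, sum_mult_eq, hk]
        push_cast
        rfl
      set S : ℝ := ((∑ j : Fin (M + 1), (j : ℕ) : ℕ) : ℝ)
      set G : ℝ := Real.log (∏ j : Fin (M + 1), (j : ℕ).factorial : ℕ)
      have n5 : ∀ w ∈ (Finset.univ : Finset (InfinitePlace K)),
          2 * (mult w * Real.log (w D)) - S * (mult w * Real.log (mult w)) +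
            mult w * (S * (Real.log ν - Real.log c) - G) ≤ ν / c * ∑ i, ‖z w i‖ ^ 2 :=
        fun w _ => by
        have mw := m w
        have a := vl (z w) (μ := ν / c / mult w) (by positivity) (by
          rw [dz]
          exact (map_ne_zero _).2 y0)
        rw [dz, norm_embedding_eq, Real.log_div (by positivity) mw.ne',
          Real.log_div n0.ne' c0.ne'] at a
        have b := mul_le_mul_of_nonneg_left a mw.le
        have d : (mult w : ℝ) * (ν / c / mult w * ∑ i, ‖z w i‖ ^ 2) =
            ν / c * ∑ i, ‖z w i‖ ^ 2 := by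
          field_simp
        rw [d] at b
        linarith
      have n6 := Finset.sum_le_sum n5
      rw [Finset.sum_add_distrib, Finset.sum_sub_distrib, ← Finset.mul_sum, ← Finset.mul_sum,
        ← Finset.sum_mul, ← Finset.mul_sum, n3, n4, Finset.sum_comm] at n6
      have n8 : ∑ i, ∑ w : InfinitePlace K, ‖z w i‖ ^ 2 ≤ (M + 1) * (2 * k * t * c) := by
        refine le_trans (Finset.sum_le_sum (g := fun _ => 2 * k * t * c) fun i _ => ?_) (by simp)
        rw [← n1, ← Real.sq_sqrt r0.le]
        exact pow_le_pow_left₀ (norm_nonneg _) (hh i).le 2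
      have n9 := mul_le_mul_of_nonneg_left n8 (div_pos n0 c0).le
      have e1 : ν / c * ((M + 1) * (2 * k * t * c)) = 2 * k * (ν * ((M + 1) * t)) := by
        field_simp
      have n7 : (k : ℝ) * Real.log c = -(nrComplexPlaces K * Real.log 2) := by
        rw [hc, Real.log_exp]
        field_simp
      have n10 := mul_lt_mul_of_pos_left H (mul_pos two_pos kp)
      have e2 : 2 * k * (S * (Real.log ν - Real.log c) - G) =
          2 * k * (S * Real.log ν - G) + S * (2 * (nrComplexPlaces K * Real.log 2)) := by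
        linear_combination (-2 * S) * n7
      linarith
  rw [Real.sq_sqrt r0.le, euclidean.integerLattice,
    ZLattice.covolume_comap _ _ _ (euclidean.volumePreserving_toMixed K), covolume_integerLattice,
    mul_pow, ck] at B
  refine le_of_mul_le_mul_left ?_ (pow_pos (inv_pos.2 two_pos) (nrComplexPlaces K))
  refine le_trans (le_of_eq ?_) (B.trans (le_of_eq ?_))
  · rw [mul_pow Real.pi]
    ring
  · ring

theorem nm : (14.6 : ℝ) * (((19 : ℕ) + 1) * 0.65) <
    (∑ j : Fin (19 + 1), (j : ℕ) : ℕ) * Real.log 14.6 -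
      Real.log (∏ j : Fin (19 + 1), (j : ℕ).factorial : ℕ) := by
  have a : (∑ j : Fin (19 + 1), (j : ℕ) : ℕ) = 190 := by decide
  have b : (∏ j : Fin (19 + 1), (j : ℕ).factorial : ℕ) * 272 ^ 190 < 1460 ^ 190 := by
    decide +kernel
  have q : (0 : ℝ) < (∏ j : Fin (19 + 1), (j : ℕ).factorial : ℕ) :=
    Nat.cast_pos.2 (Finset.prod_pos fun k _ => Nat.factorial_pos _)
  generalize (∏ j : Fin (19 + 1), (j : ℕ).factorial : ℕ) = G at b q
  have b2 : (G : ℝ) * 272 ^ 190 < 1460 ^ 190 := by exact_mod_cast b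
  have b3 := Real.log_lt_log (by positivity) b2
  rw [Real.log_mul q.ne' (by positivity), Real.log_pow, Real.log_pow,
    show (1460 : ℝ) = 14.6 * 100 by norm_num, show (272 : ℝ) = 2.72 * 100 by norm_num,
    Real.log_mul (by norm_num) (by norm_num), Real.log_mul (by norm_num) (by norm_num)] at b3
  have c : 1 ≤ Real.log 2.72 := by
    rw [Real.le_log_iff_exp_le (by norm_num)]
    have := Real.exp_one_lt_d9
    linarith
  rw [a]
  push_cast at b3 ⊢
  linarith

theorem step (k : ℕ) (hk : 30 ≤ k) :
    (9 : ℝ) * (k : ℝ) ^ k ≤ 4.08 * ((k : ℝ) + 1) ^ k := by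
  have k0 : (30 : ℝ) ≤ k := by exact_mod_cast hk
  have h1 : (k : ℝ) / (k + 1) ≤ Real.exp (-(1 / (k + 1))) := by
    have := Real.add_one_le_exp (-(1 / ((k : ℝ) + 1)))
    have e : (k : ℝ) / (k + 1) = -(1 / ((k : ℝ) + 1)) + 1 := by field_simp; ring
    rw [e]; exact this
  have h2 : ((k : ℝ) / (k + 1)) ^ (k + 1) ≤ Real.exp (-1) := by
    refine (pow_le_pow_left₀ (by positivity) h1 _).trans (le_of_eq ?_)
    rw [← Real.exp_nat_mul]
    refine congrArg Real.exp ?_
    push_cast
    field_simp
  have h3 : Real.exp (-1) ≤ 2 / 5 := by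
    have := Real.exp_neg_one_lt_d9
    linarith
  rw [div_pow, div_le_iff₀ (by positivity), pow_succ, pow_succ] at h2
  have p1 : (0 : ℝ) ≤ (k : ℝ) ^ k := by positivity
  have p2 : (0 : ℝ) ≤ ((k : ℝ) + 1) ^ k := by positivity
  have h4 : (k : ℝ) ^ k * k ≤ 2 / 5 * (((k : ℝ) + 1) ^ k * (k + 1)) :=
    h2.trans (mul_le_mul_of_nonneg_right h3 (by positivity))
  refine le_of_mul_le_mul_right ?_ (show (0 : ℝ) < k by linarith)
  nlinarith [mul_le_mul_of_nonneg_left k0 p2]

theorem num (k : ℕ) (hk : 30 ≤ k) :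
    (19 : ℝ) * 9 ^ k * k.factorial < (4.08 * k) ^ k := by
  induction k, hk using Nat.le_induction with
  | base => norm_num [Nat.factorial]
  | succ k hk ih =>
    have s := step k hk
    rw [Nat.factorial_succ]
    push_cast
    rw [mul_pow] at ih
    calc (19 : ℝ) * 9 ^ (k + 1) * (((k : ℝ) + 1) * k.factorial)
        = 9 * ((k : ℝ) + 1) * (19 * 9 ^ k * k.factorial) := by ring
      _ < 9 * ((k : ℝ) + 1) * (4.08 ^ k * (k : ℝ) ^ k) :=
        mul_lt_mul_of_pos_left ih (by positivity)
      _ = 4.08 ^ k * ((k : ℝ) + 1) * (9 * (k : ℝ) ^ k) := by ring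
      _ ≤ 4.08 ^ k * ((k : ℝ) + 1) * (4.08 * ((k : ℝ) + 1) ^ k) :=
        mul_le_mul_of_nonneg_left s (by positivity)
      _ = _ := by rw [mul_pow]; ring

/-- **the root discriminant of a field of even degree at least sixty exceeds nine** -/
theorem vb81 (K : Type) [Field K] [NumberField K] (k : ℕ) (h : 30 ≤ k)
    (hk : finrank ℚ K = 2 * k) : 81 ^ finrank ℚ K < (discr K).natAbs ^ 2 := by
  have d := disc K (by omega) hk 19 (by norm_num) (by norm_num) nm
  have n := num k h
  have f : (0 : ℝ) < k.factorial := by positivity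
  have a : (4.08 * k : ℝ) ^ k ≤ (Real.pi * (2 * k * 0.65)) ^ k :=
    pow_le_pow_left₀ (by positivity) (by
      have := Real.pi_gt_d2
      have : (0 : ℝ) ≤ k := by positivity
      nlinarith) k
  rw [div_le_iff₀ f] at d
  have b : (9 : ℝ) ^ k < √|(discr K : ℝ)| := by
    refine lt_of_mul_lt_mul_right (a := (19 : ℝ) * k.factorial) ?_ (by positivity)
    push_cast at d
    linarith
  have c := pow_lt_pow_left₀ b (by positivity) (n := 4) (by norm_num)
  rw [show 4 = 2 * 2 from rfl, pow_mul √_, Real.sq_sqrt (abs_nonneg _), ← pow_mul,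
    show k * (2 * 2) = 2 * (2 * k) by ring, pow_mul, ← hk, ← Int.cast_abs, ← Nat.cast_natAbs] at c
  rw [show (9 : ℝ) ^ 2 = 81 by norm_num] at c
  exact_mod_cast c

theorem vb (K : Type) [Field K] [NumberField K] (h : 60 ≤ finrank ℚ K) (e : Even (finrank ℚ K)) :
    80 ^ finrank ℚ K < (discr K).natAbs ^ 2 := by
  obtain ⟨k, hk⟩ := e
  exact lt_of_le_of_lt (Nat.pow_le_pow_left (by norm_num) _)
    (vb81 K k (by omega) (by omega))

end Vale.Agent.P022U.H65
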